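import Crest.Agent.R239.Enf

/-! Dyadic chaining inside one epoch. -/

open Finset

namespace Crest.Agent.R239

namespace Chain

/-! ### Generalities -/

theorem sum_fib_le {α : Type*} (R : Finset ℕ) (I : Finset α) (A : ℕ → Finset α) (g : α → ℕ)
    (f : α → ℝ) (hf : ∀ s ∈ I, 0 ≤ f s) (hA : ∀ J ∈ R, ∀ s ∈ A J, s ∈ I ∧ g s = J) :
    ∑ J ∈ R, ∑ s ∈ A J, f s ≤ ∑ s ∈ I, f s := by
  classical
  calc ∑ J ∈ R, ∑ s ∈ A J, f s ≤ ∑ J ∈ R, ∑ s ∈ I.filter (fun s => g s = J), f s := by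
        refine sum_le_sum fun J hJ => sum_le_sum_of_subset_of_nonneg ?_ ?_
        · intro s hs
          exact mem_filter.2 (hA J hJ s hs)
        · intro s hs _
          exact hf s (mem_filter.1 hs).1
    _ = ∑ s ∈ I.filter (fun s => g s ∈ R), f s := sum_fiberwise_eq_sum_filter I R g f
    _ ≤ ∑ s ∈ I, f s :=
        sum_le_sum_of_subset_of_nonneg (filter_subset _ _) fun s hs _ => hf s hs

theorem geom_le {r : ℝ} (h0 : 0 ≤ r) (h1 : r < 1) (n : ℕ) :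
    ∑ D ∈ range n, r ^ D ≤ (1 - r)⁻¹ := by
  rw [← tsum_geometric_of_lt_one h0 h1]
  exact (summable_geometric_of_lt_one h0 h1).sum_le_tsum _ fun _ _ => pow_nonneg h0 _

variable {ι : Type} [Fintype ι] [DecidableEq ι]

theorem lin_apply (ξ : (ι → ℝ) →ₗ[ℝ] ℝ) (θ : ι → ℝ) :
    ξ θ = ∑ i, θ i * ξ (Pi.single i 1) := by
  conv_lhs => rw [pi_eq_sum_univ' θ]
  simp [map_sum]

/-- Scalar adjoint Bessel inequality. -/
theorem adj_scalar {σ : Type*} [Fintype σ] (ξ : σ → (ι → ℝ) →ₗ[ℝ] ℝ) {B : ℝ} (hB : 0 ≤ B)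
    (hBes : ∀ θ : ι → ℝ, ∑ s, ξ s θ ^ 2 ≤ B * ∑ i, θ i ^ 2) (y : σ → ℝ) :
    ∑ i, (∑ s, ξ s (Pi.single i 1) * y s) ^ 2 ≤ B * ∑ s, y s ^ 2 := by
  set θ : ι → ℝ := fun i => ∑ s, ξ s (Pi.single i 1) * y s with hθ
  set N := ∑ i, θ i ^ 2 with hN
  have hN0 : 0 ≤ N := sum_nonneg fun _ _ => sq_nonneg _
  have hy0 : 0 ≤ ∑ s, y s ^ 2 := sum_nonneg fun _ _ => sq_nonneg _
  have h1 : N = ∑ s, y s * ξ s θ := by
    calc N = ∑ i, ∑ s, θ i * (ξ s (Pi.single i 1) * y s) := by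
          refine sum_congr rfl fun i _ => ?_
          rw [← mul_sum, pow_two]
      _ = ∑ s, y s * ξ s θ := by
          rw [sum_comm]
          refine sum_congr rfl fun s _ => ?_
          rw [lin_apply (ξ s) θ, mul_sum]
          exact sum_congr rfl fun i _ => by ring
  have h2 : N ^ 2 ≤ (∑ s, y s ^ 2) * (B * N) := by
    calc N ^ 2 = (∑ s, y s * ξ s θ) ^ 2 := by rw [← h1]
      _ ≤ (∑ s, y s ^ 2) * ∑ s, ξ s θ ^ 2 := sum_mul_sq_le_sq_mul_sq _ _ _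
      _ ≤ _ := mul_le_mul_of_nonneg_left (hBes θ) hy0
  rcases hN0.eq_or_lt with h | h
  · rw [← h]; positivity
  · refine le_of_mul_le_mul_right ?_ h
    nlinarith

theorem adj_fin {σ : Type*} [Fintype σ] {V : Type*} [NormedAddCommGroup V]
    [InnerProductSpace ℝ V] [FiniteDimensional ℝ V] (ξ : σ → (ι → ℝ) →ₗ[ℝ] ℝ) {B : ℝ}
    (hB : 0 ≤ B) (hBes : ∀ θ : ι → ℝ, ∑ s, ξ s θ ^ 2 ≤ B * ∑ i, θ i ^ 2) (q : σ → V) :
    ∑ i, ‖∑ s, ξ s (Pi.single i 1) • q s‖ ^ 2 ≤ B * ∑ s, ‖q s‖ ^ 2 := by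
  let b := stdOrthonormalBasis ℝ V
  have hb : ∀ v : V, ‖v‖ ^ 2 = ∑ a, (inner ℝ (b a) v) ^ 2 := fun v => by
    rw [← b.sum_sq_norm_inner_right v]
    exact sum_congr rfl fun a _ => by rw [Real.norm_eq_abs, sq_abs]
  simp only [hb]
  rw [sum_comm, sum_comm (s := (univ : Finset σ)), mul_sum]
  refine sum_le_sum fun a _ => ?_
  refine le_trans (le_of_eq ?_) (adj_scalar ξ hB hBes fun s => inner ℝ (b a) (q s))
  refine sum_congr rfl fun i _ => ?_
  rw [inner_sum]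
  simp only [real_inner_smul_right]

/-- Vector valued adjoint Bessel inequality. -/
theorem adj_vec {E : Type*} [NormedAddCommGroup E] [InnerProductSpace ℝ E] (A : Finset ℕ)
    (ξ : ℕ → (ι → ℝ) →ₗ[ℝ] ℝ) {B : ℝ} (hB : 0 ≤ B)
    (hBes : ∀ θ : ι → ℝ, ∑ s ∈ A, ξ s θ ^ 2 ≤ B * ∑ i, θ i ^ 2) (q : ℕ → E) :
    ∑ i, ‖∑ s ∈ A, ξ s (Pi.single i 1) • q s‖ ^ 2 ≤ B * ∑ s ∈ A, ‖q s‖ ^ 2 := by
  let V : Submodule ℝ E := Submodule.span ℝ (Set.range fun s : A => q s)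
  have : FiniteDimensional ℝ V := FiniteDimensional.span_of_finite ℝ (Set.finite_range _)
  let q' : A → V := fun s => ⟨q s, Submodule.subset_span (Set.mem_range_self s)⟩
  have key := adj_fin (σ := A) (fun s => ξ s) hB
    (fun θ => by rw [sum_coe_sort A (fun s => ξ s θ ^ 2)]; exact hBes θ) q'
  have e1 : ∀ i, ‖∑ s : A, ξ s (Pi.single i 1) • q' s‖ =
      ‖∑ s ∈ A, ξ s (Pi.single i 1) • q s‖ := by
    intro i
    rw [Submodule.coe_norm, Submodule.coe_sum,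
      ← sum_coe_sort A (fun s => ξ s (Pi.single i 1) • q s)]
    rfl
  have e2 : ∑ s : A, ‖q' s‖ ^ 2 = ∑ s ∈ A, ‖q s‖ ^ 2 := by
    rw [← sum_coe_sort A (fun s => ‖q s‖ ^ 2)]
    rfl
  simp only [e1, e2] at key
  exact key

/-! ### Classes -/

/-- Keep only the coordinates of class `n`. -/
def cl (k : ι → ℕ) (n : ℕ) (θ : ι → ℝ) : ι → ℝ := fun i => if k i = n then θ i else 0

/-- `hi` as a linear map. -/
def hiL (k : ι → ℕ) (n : ℕ) : (ι → ℝ) →ₗ[ℝ] (ι → ℝ) where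
  toFun := hi k n
  map_add' x y := by ext i; simp only [hi, Pi.add_apply]; split_ifs <;> simp
  map_smul' c x := by ext i; simp only [hi, Pi.smul_apply]; split_ifs <;> simp [*]

/-- `cl` as a linear map. -/
def clL (k : ι → ℕ) (n : ℕ) : (ι → ℝ) →ₗ[ℝ] (ι → ℝ) where
  toFun := cl k n
  map_add' x y := by ext i; simp only [cl, Pi.add_apply]; split_ifs <;> simp
  map_smul' c x := by ext i; simp only [cl, Pi.smul_apply]; split_ifs <;> simp [*]

omit [Fintype ι] in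
theorem hi_single (k : ι → ℕ) (n : ℕ) (i : ι) :
    hi k n (Pi.single i 1) = if n < k i then Pi.single i 1 else 0 := by
  ext j
  by_cases hj : j = i
  · subst hj
    simp only [hi]
    split_ifs <;> simp
  · simp only [hi]
    split_ifs <;> simp [hj]

omit [Fintype ι] in
theorem cl_single (k : ι → ℕ) (n : ℕ) (i : ι) :
    cl k n (Pi.single i 1) = if k i = n then Pi.single i 1 else 0 := by
  ext j
  by_cases hj : j = i
  · subst hj
    simp only [cl]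
    split_ifs <;> simp
  · simp only [cl]
    split_ifs <;> simp [hj]

omit [Fintype ι] [DecidableEq ι] in
theorem hi_succ (k : ι → ℕ) (n : ℕ) (θ : ι → ℝ) :
    hi k n θ = hi k (n + 1) θ + cl k (n + 1) θ := by
  ext i
  simp only [hi, cl, Pi.add_apply]
  split_ifs <;> first | omega | simp

/-! ### The two kinds of checks -/

theorem checkA {E : Type*} [NormedAddCommGroup E] [InnerProductSpace ℝ E] {M : ℝ} (hM : 0 ≤ M)
    (k : ι → ℕ) (n : ℕ) (A : Finset ℕ) (q : ℕ → E) (ξ : ℕ → (ι → ℝ) →ₗ[ℝ] ℝ) {B T h : ℝ}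
    (hB : 0 ≤ B) (hBes : ∀ θ : ι → ℝ, ∑ s ∈ A, ξ s θ ^ 2 ≤ B * ∑ i, θ i ^ 2) (hT : 0 < T)
    (hh : B * ∑ s ∈ A, ‖q s‖ ^ 2 ≤ h) :
    Enf M (fun i => (1 / 2 : ℝ) ^ k i)
      {θ | ‖∑ s ∈ A, ξ s (hi k n θ) • q s‖ ≤ M * √h + 2 * √T}
      ((1 / 2 : ℝ) ^ n * (B * ∑ s ∈ A, ‖q s‖ ^ 2) / T) := by
  let L : (ι → ℝ) →ₗ[ℝ] E := ∑ s ∈ A, ((ξ s).comp (hiL k n)).smulRight (q s)
  have hL : ∀ θ, L θ = ∑ s ∈ A, ξ s (hi k n θ) • q s := fun θ => by
    simp only [L, LinearMap.sum_apply, LinearMap.smulRight_apply, LinearMap.comp_apply]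
    rfl
  have hadj := adj_vec A ξ hB hBes q
  have hL1 : ∀ i, ‖L (Pi.single i 1)‖ ^ 2 =
      if n < k i then ‖∑ s ∈ A, ξ s (Pi.single i 1) • q s‖ ^ 2 else 0 := fun i => by
    rw [hL, hi_single]
    split_ifs <;> simp
  have key := Enf.single' hM (fun i => (1 / 2 : ℝ) ^ k i) (isEucl_norm L) hT (h := h)
    (y := (1 / 2 : ℝ) ^ n * (B * ∑ s ∈ A, ‖q s‖ ^ 2)) ?_ ?_
  · simpa only [hL] using key
  · refine le_trans ?_ (hadj.trans hh)
    refine sum_le_sum fun i _ => ?_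
    rw [hL1]
    split_ifs
    · exact le_rfl
    · positivity
  · refine le_trans ?_ (mul_le_mul_of_nonneg_left hadj (by positivity))
    rw [mul_sum]
    refine sum_le_sum fun i _ => ?_
    rw [hL1]
    split_ifs with hi
    · exact mul_le_mul_of_nonneg_right
        (pow_le_pow_of_le_one (by norm_num) (by norm_num) hi.le) (by positivity)
    · rw [mul_zero]; positivity

theorem checkB {M : ℝ} (hM : 0 ≤ M) (k : ι → ℕ) (n : ℕ) (S : Finset ℕ)
    (ξ : ℕ → (ι → ℝ) →ₗ[ℝ] ℝ) {T h : ℝ} (hT : 0 < T)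
    (hh : ∑ s ∈ S, ∑ i ∈ univ.filter (fun i => k i = n), ξ s (Pi.single i 1) ^ 2 ≤ h) :
    Enf M (fun i => (1 / 2 : ℝ) ^ k i)
      {θ | √(∑ s ∈ S, ξ s (cl k n θ) ^ 2) ≤ M * √h + 2 * √T}
      ((∑ s ∈ S, ∑ i ∈ univ.filter (fun i => k i = n),
        (1 / 2 : ℝ) ^ k i * ξ s (Pi.single i 1) ^ 2) / T) := by
  let L : (ι → ℝ) →ₗ[ℝ] EuclideanSpace ℝ S :=
    (WithLp.linearEquiv 2 ℝ (S → ℝ)).symm.toLinearMap.comp
      (LinearMap.pi fun s : S => (ξ s).comp (clL k n))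
  have hL : ∀ θ, ‖L θ‖ = √(∑ s ∈ S, ξ s (cl k n θ) ^ 2) := fun θ => by
    rw [EuclideanSpace.norm_eq, ← sum_coe_sort S (fun s => ξ s (cl k n θ) ^ 2)]
    congr 1
    refine sum_congr rfl fun s _ => ?_
    rw [Real.norm_eq_abs, sq_abs]
    rfl
  have hL1 : ∀ i, ‖L (Pi.single i 1)‖ ^ 2 =
      if k i = n then ∑ s ∈ S, ξ s (Pi.single i 1) ^ 2 else 0 := fun i => by
    rw [hL, Real.sq_sqrt (sum_nonneg fun _ _ => sq_nonneg _), cl_single]
    split_ifs <;> simp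
  have key := Enf.single' hM (fun i => (1 / 2 : ℝ) ^ k i) (isEucl_norm L) hT (h := h)
    (y := ∑ s ∈ S, ∑ i ∈ univ.filter (fun i => k i = n),
        (1 / 2 : ℝ) ^ k i * ξ s (Pi.single i 1) ^ 2) ?_ ?_
  · simpa only [hL] using key
  · refine le_trans (le_of_eq ?_) hh
    rw [sum_comm, sum_filter]
    exact sum_congr rfl fun i _ => hL1 i
  · refine le_of_eq ?_
    rw [sum_comm, sum_filter]
    refine sum_congr rfl fun i _ => ?_
    rw [hL1]
    split_ifs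
    · rw [mul_sum]
    · rw [mul_zero]

/-! ### The dyadic clock -/

/-- The dyadic cell of level `D` of the clock at time `s`. -/
noncomputable def cell (τ : ℕ → ℝ) (t0 D s : ℕ) : ℕ := ⌊2 ^ D * ∑ r ∈ Ico t0 s, τ r⌋₊

section Clock
variable {τ : ℕ → ℝ} (hτ0 : ∀ s, 0 ≤ τ s) (t0 : ℕ)
include hτ0

theorem clock_mono {s s' : ℕ} (h : s ≤ s') : ∑ r ∈ Ico t0 s, τ r ≤ ∑ r ∈ Ico t0 s', τ r :=
  sum_le_sum_of_subset_of_nonneg (Ico_subset_Ico_right h) fun r _ _ => hτ0 r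

theorem cell_mono (D : ℕ) {s s' : ℕ} (h : s ≤ s') : cell τ t0 D s ≤ cell τ t0 D s' :=
  Nat.floor_mono (mul_le_mul_of_nonneg_left (clock_mono hτ0 t0 h) (by positivity))

omit hτ0 in
theorem cell_half (D s : ℕ) : cell τ t0 D s = cell τ t0 (D + 1) s / 2 := by
  unfold cell
  rw [← Nat.floor_div_natCast]
  congr 1
  push_cast
  ring

theorem cell_zero {t1 : ℕ} (hτ1 : ∑ s ∈ Ico t0 t1, τ s < 1) {s : ℕ} (hs : s ≤ t1) :
    cell τ t0 0 s = 0 := by
  unfold cell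
  rw [Nat.floor_eq_zero, pow_zero, one_mul]
  exact (clock_mono hτ0 t0 hs).trans_lt hτ1

theorem cell_mass (D J : ℕ) (S : Finset ℕ)
    (hS : ∀ s ∈ S, t0 ≤ s ∧ cell τ t0 D s = J ∧ cell τ t0 D (s + 1) = J) :
    ∑ s ∈ S, τ s ≤ (1 / 2 : ℝ) ^ D := by
  rcases S.eq_empty_or_nonempty with rfl | hne
  · simp
  obtain ⟨ha0, ha, -⟩ := hS _ (S.min'_mem hne)
  obtain ⟨hb0, -, hb⟩ := hS _ (S.max'_mem hne)
  set a := S.min' hne
  set b := S.max' hne
  have hab : a ≤ b := S.min'_le_max' hne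
  have h1 : ∑ s ∈ S, τ s ≤ ∑ s ∈ Ico a (b + 1), τ s := by
    refine sum_le_sum_of_subset_of_nonneg (fun s hs => ?_) fun r _ _ => hτ0 r
    exact mem_Ico.2 ⟨S.min'_le s hs, Nat.lt_succ_of_le (S.le_max' s hs)⟩
  have h2 := sum_Ico_consecutive τ ha0 (show a ≤ b + 1 by omega)
  have h3 : (J : ℝ) ≤ 2 ^ D * ∑ r ∈ Ico t0 a, τ r := by
    rw [← ha]
    exact Nat.floor_le (mul_nonneg (by positivity) (sum_nonneg fun r _ => hτ0 r))
  have h4 : 2 ^ D * ∑ r ∈ Ico t0 (b + 1), τ r < J + 1 := by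
    rw [← hb]
    exact Nat.lt_floor_add_one _
  have h5 : (2 : ℝ) ^ D * ∑ s ∈ Ico a (b + 1), τ s ≤ 1 := by
    rw [← h2, mul_add] at h4
    linarith
  refine h1.trans ?_
  rw [one_div, inv_pow, ← one_div, le_div_iff₀ (by positivity), mul_comm]
  exact h5

end Clock

/-- Steps that start in the left half of the cell `(D, J)` and end in the cell. -/
noncomputable def setA (τ : ℕ → ℝ) (t0 t1 D J : ℕ) : Finset ℕ :=
  (Ico t0 t1).filter fun s => cell τ t0 (D + 1) s = 2 * J ∧ cell τ t0 D (s + 1) = J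

/-- Steps inside the cell `(D, J)`. -/
noncomputable def setS (τ : ℕ → ℝ) (t0 t1 D J : ℕ) : Finset ℕ :=
  (Ico t0 t1).filter fun s => cell τ t0 D s = J ∧ cell τ t0 D (s + 1) = J

/-- Steps before `t` that start in the cell of `t`. -/
noncomputable def setN (τ : ℕ → ℝ) (t0 D t : ℕ) : Finset ℕ :=
  (Ico t0 t).filter fun s => cell τ t0 D s = cell τ t0 D t

theorem setA_cell {τ : ℕ → ℝ} {t0 t1 D J s : ℕ} (h : s ∈ setA τ t0 t1 D J) :
    s ∈ Ico t0 t1 ∧ cell τ t0 D s = J ∧ cell τ t0 D (s + 1) = J := by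
  obtain ⟨h1, h2, h3⟩ := mem_filter.1 h
  refine ⟨h1, ?_, h3⟩
  rw [cell_half, h2]
  omega

theorem setN_sub {τ : ℕ → ℝ} (hτ0 : ∀ s, 0 ≤ τ s) {t0 t1 D t : ℕ} (ht : t ≤ t1) :
    setN τ t0 D t ⊆ setS τ t0 t1 D (cell τ t0 D t) := by
  intro s hs
  obtain ⟨h1, h2⟩ := mem_filter.1 hs
  obtain ⟨h3, h4⟩ := mem_Ico.1 h1
  refine mem_filter.2 ⟨mem_Ico.2 ⟨h3, by omega⟩, h2, ?_⟩
  have := cell_mono hτ0 t0 D (show s ≤ s + 1 by omega)
  have := cell_mono hτ0 t0 D (show s + 1 ≤ t by omega)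
  omega

theorem setN_succ_sub (τ : ℕ → ℝ) (t0 D t : ℕ) : setN τ t0 (D + 1) t ⊆ setN τ t0 D t := by
  intro s hs
  obtain ⟨h1, h2⟩ := mem_filter.1 hs
  refine mem_filter.2 ⟨h1, ?_⟩
  rw [cell_half, h2, ← cell_half]

theorem setN_sdiff {τ : ℕ → ℝ} (hτ0 : ∀ s, 0 ≤ τ s) {t0 t1 D t : ℕ} (ht : t ≤ t1) :
    setN τ t0 D t \ setN τ t0 (D + 1) t = ∅ ∨
      setN τ t0 D t \ setN τ t0 (D + 1) t = setA τ t0 t1 D (cell τ t0 D t) := by
  have ht2 := cell_half (τ := τ) t0 D t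
  by_cases hc : cell τ t0 (D + 1) t = 2 * cell τ t0 D t
  · left
    refine eq_empty_of_forall_notMem fun s hs => ?_
    obtain ⟨h1, h2⟩ := mem_sdiff.1 hs
    obtain ⟨h3, h4⟩ := mem_filter.1 h1
    refine h2 (mem_filter.2 ⟨h3, ?_⟩)
    have := cell_mono hτ0 t0 (D + 1) (mem_Ico.1 h3).2.le
    have := cell_half (τ := τ) t0 D s
    omega
  · right
    ext s
    have hs2 := cell_half (τ := τ) t0 D s
    constructor
    · intro hs
      obtain ⟨h1, h2⟩ := mem_sdiff.1 hs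
      obtain ⟨h3, h4⟩ := mem_filter.1 h1
      obtain ⟨h5, h6⟩ := mem_Ico.1 h3
      have h7 : cell τ t0 (D + 1) s ≠ cell τ t0 (D + 1) t := fun h => h2 (mem_filter.2 ⟨h3, h⟩)
      have := cell_mono hτ0 t0 (D + 1) h6.le
      have := cell_mono hτ0 t0 D (show s ≤ s + 1 by omega)
      have := cell_mono hτ0 t0 D (show s + 1 ≤ t by omega)
      exact mem_filter.2 ⟨mem_Ico.2 ⟨h5, by omega⟩, by omega, by omega⟩
    · intro hs
      obtain ⟨h1, h2, h3⟩ := mem_filter.1 hs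
      obtain ⟨h5, h6⟩ := mem_Ico.1 h1
      have hst : s < t := by
        by_contra hst
        have := cell_mono hτ0 t0 (D + 1) (show t ≤ s by omega)
        omega
      refine mem_sdiff.2 ⟨mem_filter.2 ⟨mem_Ico.2 ⟨h5, hst⟩, by omega⟩, fun h => ?_⟩
      have := (mem_filter.1 h).2
      omega

theorem sqrt_geom {x r : ℝ} (hx : 0 ≤ x) (hr : 0 ≤ r) (D : ℕ) :
    √(x * (r ^ 2) ^ D) = √x * r ^ D := by
  rw [Real.sqrt_mul hx, ← pow_mul, mul_comm 2 D, pow_mul, Real.sqrt_sq (by positivity)]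

end Chain

open Chain in
theorem chain {ι : Type} [Fintype ι] [DecidableEq ι] {E : Type*} [NormedAddCommGroup E]
    [InnerProductSpace ℝ E] {M : ℝ} (hM : 0 ≤ M) (k : ι → ℕ) (l t0 t1 : ℕ) (q : ℕ → E)
    (ξ : ℕ → (ι → ℝ) →ₗ[ℝ] ℝ) (τ : ℕ → ℝ) {B π ν C0 : ℝ} (hB : 0 ≤ B) (hπ : 0 ≤ π)
    (hν : 0 < ν) (hC0 : 0 < C0) (hτ0 : ∀ s, 0 ≤ τ s) (hτ1 : ∑ s ∈ Ico t0 t1, τ s < 1)
    (hq : ∀ s ∈ Ico t0 t1, ‖q s‖ ^ 2 ≤ π * τ s)
    (hμ : ∀ s ∈ Ico t0 t1, ∑ i ∈ univ.filter (fun i => l < k i),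
      (4 / 9 : ℝ) ^ (k i - l) * ξ s (Pi.single i 1) ^ 2 ≤ τ s)
    (hBes : ∀ θ : ι → ℝ, ∑ s ∈ Ico t0 t1, ξ s θ ^ 2 ≤ B * ∑ i, θ i ^ 2) :
    Enf M (fun i => (1 / 2 : ℝ) ^ k i)
      {θ | ∀ t ∈ Icc t0 t1, ‖∑ s ∈ Ico t0 t, ξ s (hi k l θ) • q s‖ ≤
        4 * (M * √(B * π) + 2 * √(C0 * ν)) + 4 * √π * (M + 2 * √C0)}
      ((1 / 2 : ℝ) ^ l * 9 * B * π / (C0 * ν) +
        (∑ i ∈ univ.filter (fun i => l < k i), (1 / 2 : ℝ) ^ k i * (8 / 9 : ℝ) ^ (k i - l) *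
          ∑ s ∈ Ico t0 t1, ξ s (Pi.single i 1) ^ 2) / C0) := by
  classical
  set Dm := univ.sup k with hDm
  set a := M * √(B * π) + 2 * √(C0 * ν) with ha
  set b := √π * (M + 2 * √C0) with hb
  have ha0 : 0 ≤ a := by positivity
  have hb0 : 0 ≤ b := by positivity
  set R : ℕ → Finset ℕ := fun D => (Icc t0 t1).image (cell τ t0 D) with hR
  -- `q`-mass of a subset of a cell
  have hmass : ∀ D J (S : Finset ℕ),
      (∀ s ∈ S, s ∈ Ico t0 t1 ∧ cell τ t0 D s = J ∧ cell τ t0 D (s + 1) = J) →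
      ∑ s ∈ S, τ s ≤ (1 / 2 : ℝ) ^ D := fun D J S hS =>
    cell_mass hτ0 t0 D J S fun s hs => ⟨(mem_Ico.1 (hS s hs).1).1, (hS s hs).2⟩
  have hqmass : ∀ D J (S : Finset ℕ),
      (∀ s ∈ S, s ∈ Ico t0 t1 ∧ cell τ t0 D s = J ∧ cell τ t0 D (s + 1) = J) →
      ∑ s ∈ S, ‖q s‖ ^ 2 ≤ π * (1 / 2 : ℝ) ^ D := fun D J S hS => by
    refine le_trans ?_ (mul_le_mul_of_nonneg_left (hmass D J S hS) hπ)
    rw [mul_sum]
    exact sum_le_sum fun s hs => hq s (hS s hs).1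
  -- checks of type A
  have hA : ∀ D, Enf M (fun i => (1 / 2 : ℝ) ^ k i)
      {θ | ∀ J ∈ R D, ‖∑ s ∈ setA τ t0 t1 D J, ξ s (hi k (l + D) θ) • q s‖ ≤ (3 / 4) ^ D * a}
      ((8 / 9 : ℝ) ^ D * ((1 / 2 : ℝ) ^ l * B * π / (C0 * ν))) := by
    intro D
    have hT : 0 < C0 * ν * ((3 / 4 : ℝ) ^ 2) ^ D := by positivity
    have key := Enf.biInter (R D) _ _ fun J _ =>
      checkA hM k (l + D) (setA τ t0 t1 D J) q ξ hB
        (fun θ => le_trans (sum_le_sum_of_subset_of_nonneg (filter_subset _ _)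
          fun _ _ _ => sq_nonneg _) (hBes θ)) hT (h := B * π * ((3 / 4 : ℝ) ^ 2) ^ D) (by
        rw [mul_assoc]
        refine mul_le_mul_of_nonneg_left ((hqmass D J _ fun s hs => setA_cell hs).trans ?_) hB
        exact mul_le_mul_of_nonneg_left (pow_le_pow_left₀ (by norm_num) (by norm_num) _) hπ)
    refine key.mono (fun θ _ h J hJ => ?_) ?_
    · have h1 := h J hJ
      simp only [Set.mem_ofPred_eq] at h1
      rw [sqrt_geom (by positivity) (by norm_num), sqrt_geom (by positivity) (by norm_num)] at h1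
      refine h1.trans (le_of_eq ?_)
      rw [ha]
      ring
    · rw [← sum_div, ← mul_sum, ← mul_sum, div_le_iff₀ hT]
      have h1 : ∑ J ∈ R D, ∑ s ∈ setA τ t0 t1 D J, ‖q s‖ ^ 2 ≤ π := by
        refine (sum_fib_le (R D) (Ico t0 t1) _ (cell τ t0 D) _ (fun _ _ => sq_nonneg _)
          fun J _ s hs => ⟨(setA_cell hs).1, (setA_cell hs).2.1⟩).trans ?_
        refine (sum_le_sum hq).trans ?_
        rw [← mul_sum]
        exact mul_le_of_le_one_right hπ hτ1.le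
      refine (mul_le_mul_of_nonneg_left (mul_le_mul_of_nonneg_left h1 hB)
        (by positivity)).trans (le_of_eq ?_)
      have e : (1 / 2 : ℝ) ^ D = (8 / 9) ^ D * ((3 / 4 : ℝ) ^ 2) ^ D := by
        rw [← mul_pow]; norm_num
      rw [pow_add, e]
      field_simp
  -- checks of type B
  have hBc : ∀ D, Enf M (fun i => (1 / 2 : ℝ) ^ k i)
      {θ | ∀ J ∈ R (D + 1), √(∑ s ∈ setS τ t0 t1 (D + 1) J, ξ s (cl k (l + D + 1) θ) ^ 2) ≤
        √((9 / 8) ^ (D + 1)) * (M + 2 * √C0)}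
      ((∑ i ∈ univ.filter (fun i => k i = l + D + 1), (1 / 2 : ℝ) ^ k i * (8 / 9 : ℝ) ^ (k i - l) *
          ∑ s ∈ Ico t0 t1, ξ s (Pi.single i 1) ^ 2) / C0) := by
    intro D
    have hT : 0 < C0 * (9 / 8 : ℝ) ^ (D + 1) := by positivity
    have key := Enf.biInter (R (D + 1)) _ _ fun J _ =>
      checkB hM k (l + D + 1) (setS τ t0 t1 (D + 1) J) ξ hT (h := (9 / 8 : ℝ) ^ (D + 1)) (by
        have h1 := hmass (D + 1) J (setS τ t0 t1 (D + 1) J) fun s hs => mem_filter.1 hs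
        have e : (9 / 8 : ℝ) ^ (D + 1) = (9 / 4) ^ (D + 1) * (1 / 2) ^ (D + 1) := by
          rw [← mul_pow]; norm_num
        rw [e]
        refine le_trans ?_ (mul_le_mul_of_nonneg_left h1 (by positivity))
        rw [mul_sum]
        refine sum_le_sum fun s hs => ?_
        refine le_trans ?_ (mul_le_mul_of_nonneg_left (hμ s (mem_filter.1 hs).1) (by positivity))
        rw [mul_sum]
        refine le_trans (le_of_eq ?_) (sum_le_sum_of_subset_of_nonneg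
          (s := univ.filter (fun i => k i = l + D + 1)) ?_ ?_)
        · refine sum_congr rfl fun i hi => ?_
          rw [(mem_filter.1 hi).2, show l + D + 1 - l = D + 1 by omega, ← mul_assoc, ← mul_pow]
          norm_num
        · intro i hi
          have := (mem_filter.1 hi).2
          exact mem_filter.2 ⟨mem_univ _, by omega⟩
        · intro i _ _
          positivity)
    refine key.mono (fun θ _ h J hJ => ?_) ?_
    · have h1 := h J hJ
      simp only [Set.mem_ofPred_eq] at h1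
      rw [Real.sqrt_mul hC0.le] at h1
      refine h1.trans (le_of_eq ?_)
      ring
    · rw [← sum_div, div_le_div_iff₀ hT hC0]
      have h1 := sum_fib_le (R (D + 1)) (Ico t0 t1) (setS τ t0 t1 (D + 1)) (cell τ t0 (D + 1))
        (fun s => ∑ i ∈ univ.filter (fun i => k i = l + D + 1),
          (1 / 2 : ℝ) ^ k i * ξ s (Pi.single i 1) ^ 2)
        (fun _ _ => sum_nonneg fun _ _ => by positivity)
        fun J _ s hs => ⟨(mem_filter.1 hs).1, (mem_filter.1 hs).2.1⟩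
      refine (mul_le_mul_of_nonneg_right h1 hC0.le).trans (le_of_eq ?_)
      rw [sum_comm, sum_mul, sum_mul]
      refine sum_congr rfl fun i hi => ?_
      have e : (8 / 9 : ℝ) ^ (D + 1) * (9 / 8) ^ (D + 1) = 1 := by
        rw [← mul_pow]; norm_num
      rw [← mul_sum, (mem_filter.1 hi).2, show l + D + 1 - l = D + 1 by omega]
      linear_combination (-((1 / 2 : ℝ) ^ (l + D + 1) *
        (∑ s ∈ Ico t0 t1, ξ s (Pi.single i 1) ^ 2) * C0)) * e
  have key := (Enf.biInter (range Dm) _ _ fun D _ => hA D).inter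
    (Enf.biInter (range Dm) _ _ fun D _ => hBc D)
  refine key.mono ?_ (add_le_add ?_ ?_)
  · rintro θ - ⟨h1, h2⟩ t ht
    obtain ⟨ht0, ht1⟩ := mem_Icc.1 ht
    set X : ℕ → E := fun D => ∑ s ∈ setN τ t0 D t, ξ s (hi k (l + D) θ) • q s with hX
    have hX0 : X 0 = ∑ s ∈ Ico t0 t, ξ s (hi k l θ) • q s := by
      simp only [hX, add_zero]
      refine sum_congr (filter_true_of_mem fun s hs => ?_) fun _ _ => rfl
      rw [cell_zero hτ0 t0 hτ1 ht1, cell_zero hτ0 t0 hτ1 ((mem_Ico.1 hs).2.le.trans ht1)]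
    have hXm : X Dm = 0 := by
      have : hi k (l + Dm) θ = 0 := by
        ext i
        have : k i ≤ Dm := le_sup (f := k) (mem_univ i)
        simp only [hi, Pi.zero_apply]
        rw [if_neg (by omega)]
      simp [hX, this]
    have hstep : ∀ D ∈ range Dm, ‖X D - X (D + 1)‖ ≤ (3 / 4) ^ D * (a + b) := by
      intro D hD
      have e : X D - X (D + 1) =
          ∑ s ∈ setN τ t0 D t \ setN τ t0 (D + 1) t, ξ s (hi k (l + D) θ) • q s +
          ∑ s ∈ setN τ t0 (D + 1) t, ξ s (cl k (l + D + 1) θ) • q s := by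
        simp only [hX]
        rw [← sum_sdiff (setN_succ_sub τ t0 D t), add_sub_assoc, ← sum_sub_distrib]
        congr 1
        refine sum_congr rfl fun s _ => ?_
        rw [hi_succ k (l + D) θ, map_add, add_smul, ← add_assoc, add_sub_cancel_left]
      have b1 : ‖∑ s ∈ setN τ t0 D t \ setN τ t0 (D + 1) t, ξ s (hi k (l + D) θ) • q s‖ ≤
          (3 / 4) ^ D * a := by
        rcases setN_sdiff hτ0 (t0 := t0) (D := D) ht1 with h | h
        · rw [h, sum_empty, norm_zero]; positivity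
        · rw [h]
          exact h1 D hD _ (mem_image_of_mem _ ht)
      have b2 : ‖∑ s ∈ setN τ t0 (D + 1) t, ξ s (cl k (l + D + 1) θ) • q s‖ ≤
          (3 / 4) ^ D * b := by
        have h3 := h2 D hD _ (mem_image_of_mem _ ht)
        set S := setS τ t0 t1 (D + 1) (cell τ t0 (D + 1) t) with hS
        have h4 : ∑ s ∈ S, ‖q s‖ ^ 2 ≤ π * (1 / 2 : ℝ) ^ (D + 1) :=
          hqmass (D + 1) _ S fun s hs => mem_filter.1 hs
        calc _ ≤ ∑ s ∈ setN τ t0 (D + 1) t, |ξ s (cl k (l + D + 1) θ)| * ‖q s‖ := by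
              refine (norm_sum_le _ _).trans (le_of_eq (sum_congr rfl fun s _ => ?_))
              rw [norm_smul, Real.norm_eq_abs]
          _ ≤ ∑ s ∈ S, |ξ s (cl k (l + D + 1) θ)| * ‖q s‖ :=
              sum_le_sum_of_subset_of_nonneg (setN_sub hτ0 ht1) fun _ _ _ => by positivity
          _ ≤ √(∑ s ∈ S, |ξ s (cl k (l + D + 1) θ)| ^ 2) * √(∑ s ∈ S, ‖q s‖ ^ 2) :=
              Real.sum_mul_le_sqrt_mul_sqrt _ _ _
          _ ≤ (√((9 / 8) ^ (D + 1)) * (M + 2 * √C0)) * √(π * (1 / 2 : ℝ) ^ (D + 1)) := by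
              simp only [sq_abs]
              exact mul_le_mul h3 (Real.sqrt_le_sqrt h4) (Real.sqrt_nonneg _) (by positivity)
          _ = (3 / 4) ^ (D + 1) * b := by
              have e : √((9 / 8 : ℝ) ^ (D + 1)) * √((1 / 2 : ℝ) ^ (D + 1)) = (3 / 4) ^ (D + 1) := by
                rw [← Real.sqrt_mul (by positivity), ← mul_pow,
                  show (9 / 8 * (1 / 2) : ℝ) = (3 / 4) ^ 2 by norm_num, ← pow_mul, mul_comm 2,
                  pow_mul, Real.sqrt_sq (by positivity)]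
              rw [Real.sqrt_mul hπ, hb, ← e]
              ring
          _ ≤ (3 / 4) ^ D * b :=
              mul_le_mul_of_nonneg_right
                (pow_le_pow_of_le_one (by norm_num) (by norm_num) (Nat.le_succ D)) hb0
      rw [e, mul_add]
      exact (norm_add_le _ _).trans (add_le_add b1 b2)
    have htel : X 0 = ∑ D ∈ range Dm, (X D - X (D + 1)) := by
      rw [sum_range_sub', hXm, sub_zero]
    rw [← hX0, htel]
    refine (norm_sum_le _ _).trans ((sum_le_sum hstep).trans ?_)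
    rw [← sum_mul]
    refine (mul_le_mul_of_nonneg_right (geom_le (by norm_num) (by norm_num) Dm)
      (add_nonneg ha0 hb0)).trans (le_of_eq ?_)
    rw [hb]
    norm_num
    ring
  · rw [← sum_mul]
    refine (mul_le_mul_of_nonneg_right (geom_le (by norm_num) (by norm_num) Dm)
      (by positivity)).trans (le_of_eq ?_)
    norm_num
    ring
  · rw [← sum_div]
    refine div_le_div_of_nonneg_right ?_ hC0.le
    refine sum_fib_le (range Dm) _ _ (fun i => k i - l - 1) _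
      (fun _ _ => mul_nonneg (by positivity) (sum_nonneg fun _ _ => sq_nonneg _))
      fun D _ i hi => ?_
    have := (mem_filter.1 hi).2
    exact ⟨mem_filter.2 ⟨mem_univ _, by omega⟩, by omega⟩

end Crest.Agent.R239
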