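import Crest.Agent.R239.Dyn

/-! The level structure: activities, innovations and the vector `Z`. -/

open Finset Matrix

namespace Crest.Agent.R239

/-- Data of the design problem. -/
structure Ctx (d : ℕ) where
  κ : ℝ
  v : ℕ → Fin d → ℝ
  k : ℕ → ℕ
  L : ℕ
  κ0 : 0 < κ
  κ1 : κ ≤ 1 / 8
  hv : ∀ s, v s ⬝ᵥ v s ≤ 1
  hk : ∀ s, k s < L
  hd : 0 < d

theorem Psd.trace_res_le {d : ℕ} {H : Matrix (Fin d) (Fin d) ℝ} (hH : Psd H) :
    (Res H).trace ≤ d := by
  have : ∀ a : Fin d, Res H a a ≤ 1 := fun a => by simpa using hH.res_le (Pi.single a 1)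
  simpa [trace] using Finset.sum_le_sum fun a (_ : a ∈ univ) => this a

namespace Ctx

variable {d : ℕ} (c : Ctx d)

/-- Column weight of step `s`. -/
noncomputable def ω (s : ℕ) : ℝ := c.κ * (1 / 32) ^ c.k s

/-- Weighted covariance. -/
noncomputable def G (t : ℕ) : Matrix (Fin d) (Fin d) ℝ := Gm c.κ c.v ((1 / 32) ^ c.L) c.ω t

/-- Level matrix. -/
noncomputable def H (l t : ℕ) : Matrix (Fin d) (Fin d) ℝ := Hl (c.G t) l

/-- Level weight of step `s`. -/
noncomputable def w (l s : ℕ) : ℝ := 32 ^ l * c.ω s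

/-- Elementary activity. -/
noncomputable def e (l s : ℕ) : ℝ := psi (c.H l s) (c.v s) + mn l (c.k s)

/-- Smoothed activity. -/
noncomputable def act (l s : ℕ) : ℝ := ∑ l' ∈ range (c.L + 2), wt l l' * c.e l' s

/-- Smoothed band count. -/
noncomputable def ν (l t : ℕ) : ℝ := nuS c.L (c.G t) l

theorem ω_pos (s : ℕ) : 0 < c.ω s := by have := c.κ0; unfold ω; positivity

theorem bd (t : ℕ) : Bd c.L (c.G t) where
  psd := Gm_psd _ _ (by positivity) (fun s => (c.ω_pos s).le) t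
  lo := Gm_lo c.κ0 c.κ1 c.hv (by positivity) (fun s => by
    have h1 : (1 / 32 : ℝ) ^ c.L ≤ (1 / 32) ^ (c.k s + 1) :=
      pow_le_pow_of_le_one (by norm_num) (by norm_num) (c.hk s)
    have h2 : (0 : ℝ) < (1 / 32) ^ c.k s := by positivity
    rw [pow_succ] at h1
    have := c.κ0
    unfold ω; nlinarith) t
  up := Gm_up c.κ0 c.κ1 c.hv (pow_le_one₀ (by norm_num) (by norm_num)) (fun s =>
    mul_le_of_le_one_right c.κ0.le (pow_le_one₀ (by norm_num) (by norm_num))) t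

theorem H_succ (l t : ℕ) : c.H l (t + 1) = upd c.κ (c.w l t) (c.v t) (c.H l t) :=
  smul_upd _ _ _ _ _

theorem w_eq (l s : ℕ) : c.w l s = c.κ * (32 ^ l * (1 / 32) ^ c.k s) := by unfold w ω; ring

theorem hyp (l s : ℕ) : StepHyp c.κ (c.w l s) (c.v s) (c.H l s) :=
  ⟨c.κ0, c.κ1, by have := c.ω_pos s; unfold w; positivity, c.hv s, (c.bd s).psd.hl l⟩

theorem two_w_le (l s : ℕ) : 2 * c.w l s ≤ 32 ^ l * (1 / 32) ^ c.k s := by
  have : (0 : ℝ) < 32 ^ l * (1 / 32) ^ c.k s := by positivity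
  have := c.κ1
  rw [w_eq]; nlinarith

theorem w_le {l s : ℕ} (h : l ≤ c.k s) : c.w l s ≤ c.κ := by
  rw [w_eq, pow_mul_eq h]
  exact mul_le_of_le_one_right c.κ0.le (pow_le_one₀ (by norm_num) (by norm_num))

theorem e_nonneg (l s : ℕ) : 0 ≤ c.e l s :=
  add_nonneg ((c.hyp l s).psd.psi_nonneg _) (mn_nonneg _ _)

theorem act_nonneg (l s : ℕ) : 0 ≤ c.act l s :=
  Finset.sum_nonneg fun l' _ => mul_nonneg (wt_pos _ _).le (c.e_nonneg l' s)

theorem ν_pos (l t : ℕ) : 0 < c.ν l t := (c.bd t).nuS_pos c.hd l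

theorem abs_tr (l s : ℕ) :
    |(Res (c.H l (s + 1))).trace - (Res (c.H l s)).trace| ≤ c.e l s := by
  rw [H_succ]; exact (c.hyp l s).abs_trace_le (c.two_w_le l s)

theorem ν_step (l s : ℕ) : |c.ν l (s + 1) - c.ν l s| ≤ 5 * c.act l s := by
  have h1 : |c.ν l (s + 1) - c.ν l s| ≤
      ∑ l' ∈ range (c.L + 1), wt l l' * (c.e l' s + c.e (l' + 1) s) := by
    unfold ν nuS
    rw [← Finset.sum_sub_distrib]
    refine (Finset.abs_sum_le_sum_abs _ _).trans (Finset.sum_le_sum fun l' _ => ?_)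
    rw [← mul_sub, abs_mul, abs_of_pos (wt_pos _ _)]
    refine mul_le_mul_of_nonneg_left ?_ (wt_pos _ _).le
    have h2 := abs_le.1 (c.abs_tr l' s)
    have h3 := abs_le.1 (c.abs_tr (l' + 1) s)
    unfold H at h2 h3
    unfold nu
    rw [abs_le]; constructor <;> linarith [h2.1, h2.2, h3.1, h3.2]
  have h2 : ∑ l' ∈ range (c.L + 1), wt l l' * c.e l' s ≤ c.act l s := by
    unfold act
    rw [Finset.sum_range_succ _ (c.L + 1)]
    exact le_add_of_nonneg_right (mul_nonneg (wt_pos _ _).le (c.e_nonneg _ s))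
  have h3 : ∑ l' ∈ range (c.L + 1), wt l (l' + 1) * c.e (l' + 1) s ≤ c.act l s := by
    unfold act
    rw [Finset.sum_range_succ' _ (c.L + 1)]
    exact le_add_of_nonneg_right (mul_nonneg (wt_pos _ _).le (c.e_nonneg _ s))
  have h4 : ∑ l' ∈ range (c.L + 1), wt l l' * c.e (l' + 1) s ≤
      4 * ∑ l' ∈ range (c.L + 1), wt l (l' + 1) * c.e (l' + 1) s := by
    rw [Finset.mul_sum]
    refine Finset.sum_le_sum fun l' _ => ?_
    rw [← mul_assoc]
    exact mul_le_mul_of_nonneg_right (wt_succ _ _) (c.e_nonneg _ s)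
  simp only [mul_add, Finset.sum_add_distrib] at h1
  linarith

theorem tr_zero (l : ℕ) : d - d * mn l c.L ≤ (Res (c.H l 0)).trace := by
  set β : ℝ := 32 ^ l * (1 / 32) ^ c.L with hβ
  have hβ0 : 0 < β := by positivity
  have h1 : ∀ a : Fin d, Res (c.H l 0) a a = (1 + β)⁻¹ := fun a => by
    have : Res (c.H l 0) *ᵥ Pi.single a 1 = (1 + β)⁻¹ • Pi.single a 1 := by
      apply (c.hyp l 0).psd.res_uniq
      simp only [H, Hl, G, Gm, smul_mulVec, one_mulVec, smul_smul, ← add_smul]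
      have : (1 + β)⁻¹ + 32 ^ l * (1 / 32) ^ c.L * (1 + β)⁻¹ = 1 := by
        rw [← hβ]; field_simp
      rw [this, one_smul]
    simpa using congrFun this a
  have h2 : 1 - mn l c.L ≤ (1 + β)⁻¹ := by
    unfold mn
    rw [← hβ]
    rcases le_total 1 β with h | h
    · rw [min_eq_left h]; simp; positivity
    · rw [min_eq_right h, ← one_div, le_div_iff₀ (by positivity)]; nlinarith
  simp only [trace, Matrix.diag, h1, Finset.sum_const, card_univ, Fintype.card_fin, nsmul_eq_mul]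
  have : (0 : ℝ) ≤ d := Nat.cast_nonneg d
  nlinarith

theorem sum_e (l n : ℕ) :
    c.κ * ∑ s ∈ range n, c.e l s ≤ 2 * (d * mn l c.L) + 4 * ∑ s ∈ range n, mn l (c.k s) := by
  have h1 : ∀ s, c.κ * c.e l s ≤
      2 * ((Res (c.H l (s + 1))).trace - (Res (c.H l s)).trace) + 4 * mn l (c.k s) := fun s => by
    rw [H_succ]
    refine (c.hyp l s).act_le (c.two_w_le l s) ?_
    rcases le_total l (c.k s) with h | h
    · exact Or.inl (c.w_le h)
    · exact Or.inr (one_le_pow_mul h)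
  rw [Finset.mul_sum]
  refine (Finset.sum_le_sum fun s _ => h1 s).trans ?_
  rw [Finset.sum_add_distrib, ← Finset.mul_sum, ← Finset.mul_sum,
    Finset.sum_range_sub (fun s => (Res (c.H l s)).trace)]
  have := c.tr_zero l
  have := (c.hyp l n).psd.trace_res_le
  linarith

theorem psi_le_act (l s : ℕ) :
    psi (c.H l s) (c.v s) ≤ 52800 * min 1 (c.ν l s) * c.act l s := by
  refine ((c.bd s).psi_le_act c.hd l _).trans (mul_le_mul_of_nonneg_left ?_
    (mul_nonneg (by norm_num) (le_min zero_le_one (c.ν_pos l s).le)))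
  unfold act
  rw [Finset.sum_range_succ _ (c.L + 1)]
  refine le_trans (Finset.sum_le_sum fun l' _ => ?_)
    (le_add_of_nonneg_right (mul_nonneg (wt_pos _ _).le (c.e_nonneg _ s)))
  exact mul_le_mul_of_nonneg_left (le_add_of_nonneg_right (mn_nonneg _ _)) (wt_pos _ _).le

theorem wt_le_act (l s : ℕ) : wt l (c.k s) ≤ c.act l s := by
  refine le_trans ?_ (Finset.single_le_sum (f := fun l' => wt l l' * c.e l' s)
    (fun l' _ => mul_nonneg (wt_pos _ _).le (c.e_nonneg l' s))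
    (mem_range.2 (show c.k s < c.L + 2 by have := c.hk s; omega)))
  refine le_mul_of_one_le_right (wt_pos _ _).le ?_
  unfold e
  rw [mn_self]
  exact le_add_of_nonneg_left ((c.hyp _ s).psd.psi_nonneg _)

theorem sum_act (n : ℕ) (hdL : (d : ℝ) * (1 / 2) ^ c.L ≤ 1) :
    c.κ * ∑ l ∈ range (c.L + 1), (1 / 2 : ℝ) ^ l * ∑ s ∈ range n, c.act l s ≤
      18 + 36 * ∑ s ∈ range n, (1 / 2 : ℝ) ^ c.k s := by
  have h1 : ∑ l ∈ range (c.L + 1), (1 / 2 : ℝ) ^ l * ∑ s ∈ range n, c.act l s =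
      ∑ l' ∈ range (c.L + 2), (∑ l ∈ range (c.L + 1), (1 / 2 : ℝ) ^ l * wt l l') *
        ∑ s ∈ range n, c.e l' s := by
    simp only [act, Finset.mul_sum, Finset.sum_mul]
    rw [Finset.sum_comm]
    conv_rhs => rw [Finset.sum_comm]
    refine Finset.sum_congr rfl fun s _ => ?_
    rw [Finset.sum_comm]
    exact Finset.sum_congr rfl fun _ _ => Finset.sum_congr rfl fun _ _ => by ring
  have h2 : ∀ l' ∈ range (c.L + 2),
      c.κ * ((∑ l ∈ range (c.L + 1), (1 / 2 : ℝ) ^ l * wt l l') * ∑ s ∈ range n, c.e l' s) ≤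
      6 * d * ((1 / 2 : ℝ) ^ l' * mn l' c.L) +
        12 * ∑ s ∈ range n, (1 / 2 : ℝ) ^ l' * mn l' (c.k s) := fun l' _ => by
    have h3 := mul_le_mul (sum_half_wt (c.L + 1) l') (c.sum_e l' n)
      (mul_nonneg c.κ0.le (Finset.sum_nonneg fun s _ => c.e_nonneg l' s)) (by positivity)
    rw [← Finset.mul_sum]
    linarith
  rw [h1, Finset.mul_sum]
  refine (Finset.sum_le_sum h2).trans ?_
  rw [Finset.sum_add_distrib, ← Finset.mul_sum, ← Finset.mul_sum, Finset.sum_comm]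
  have h4 := mul_le_mul_of_nonneg_left (sum_half_mn (c.L + 2) c.L) (Nat.cast_nonneg (α := ℝ) d)
  have h5 := Finset.sum_le_sum fun s (_ : s ∈ range n) => sum_half_mn (c.L + 2) (c.k s)
  rw [← Finset.mul_sum] at h5
  linarith

end Ctx

end Crest.Agent.R239
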