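import Mathlib

/-! Definitions for row 239 (prefix discrepancy `O(√d)`). -/

open Finset

namespace Crest.Agent.R239

section Checks

variable {ι : Type} [Fintype ι] [DecidableEq ι]

/-- A Euclidean seminorm on `ι → ℝ` (a "check"). -/
structure IsEucl (F : (ι → ℝ) → ℝ) : Prop where
  add_le : ∀ x y, F (x + y) ≤ F x + F y
  smul : ∀ (c : ℝ) x, F (c • x) = |c| * F x
  sq : ∃ B : ι → ι → ℝ, ∀ x, F x ^ 2 = ∑ i, ∑ j, x i * x j * B i j

/-- Squared Hilbert-Schmidt norm of a check. -/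
noncomputable def hs (F : (ι → ℝ) → ℝ) : ℝ := ∑ i, F (Pi.single i 1) ^ 2

/-- `m`-weighted cost of a check. -/
noncomputable def cost (m : ι → ℝ) (F : (ι → ℝ) → ℝ) : ℝ := ∑ i, m i * F (Pi.single i 1) ^ 2

/-- `K` can be enforced by checks of total `m`-cost at most `y`. -/
def Enf (M : ℝ) (m : ι → ℝ) (K : Set (ι → ℝ)) (y : ℝ) : Prop :=
  ∃ (C : Type) (_ : Fintype C) (F : C → (ι → ℝ) → ℝ), (∀ c, IsEucl (F c)) ∧
    ∑ c, cost m (F c) ≤ y ∧
    ∀ θ : ι → ℝ, (∀ i, |θ i| ≤ M) → (∀ c, F c θ ≤ M * √(hs (F c)) + 2) → θ ∈ K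

/-- Keep only the coordinates of class `> l`. -/
def hi (k : ι → ℕ) (l : ℕ) (θ : ι → ℝ) : ι → ℝ := fun i => if l < k i then θ i else 0

end Checks

section Lattice

variable {ι Z Y : Type} [Fintype ι] [DecidableEq ι] [Fintype Z] [Fintype Y]

/-- Shift coordinate `i` by `sh`. -/
def up (sh : Z ≃ Z) (i : ι) (x : (ι → Z) × Y) : (ι → Z) × Y :=
  (Function.update x.1 i (sh (x.1 i)), x.2)

/-- Overlap (`1 - TV`) of the two shifts of `P` in direction `i`. -/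
noncomputable def overlap (sh : Z ≃ Z) (P : (ι → Z) × Y → ℝ) (i : ι) : ℝ :=
  ∑ x, min (P (up sh i x)) (P (up sh.symm i x))

/-- `lam` is supported in the support of `P` and has the same `Y`-marginal. -/
structure Adm (P lam : (ι → Z) × Y → ℝ) : Prop where
  nonneg : ∀ x, 0 ≤ lam x
  supp : ∀ x, P x = 0 → lam x = 0
  marg : ∀ y, ∑ z, lam (z, y) = ∑ z, P (z, y)

/-- Mean vector. -/
noncomputable def mean (g : Z → ℝ) (lam : (ι → Z) × Y → ℝ) : ι → ℝ :=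
  fun i => ∑ x, lam x * g (x.1 i)

/-- A centred probability vector on which `sh` acts as the shift by `3`. -/
structure Base (sh : Z ≃ Z) (g : Z → ℝ) (P : (ι → Z) × Y → ℝ) : Prop where
  nonneg : ∀ x, 0 ≤ P x
  total : ∑ x, P x = 1
  ok : ∀ x, P x ≠ 0 → ∀ i,
    g (sh (x.1 i)) = g (x.1 i) + 3 ∧ g (sh.symm (x.1 i)) = g (x.1 i) - 3
  mean0 : mean g P = 0

/-- `τ` is an achievable vector of total-variation bounds for the body `K`. -/
def Good (sh : Z ≃ Z) (g : Z → ℝ) (K : Set (ι → ℝ)) (τ : ι → ℝ) : Prop :=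
  ∃ (Y : Type) (_ : Fintype Y) (P : (ι → Z) × Y → ℝ), Base sh g P ∧
    (∀ i, 1 - τ i ≤ overlap sh P i) ∧ ∀ lam, Adm P lam → mean g lam ∈ K

/-- A smooth centred amplitude on the lattice `Z`. -/
structure Amp (sh : Z ≃ Z) (g a : Z → ℝ) (M δ : ℝ) : Prop where
  nonneg : ∀ z, 0 ≤ a z
  total : ∑ z, a z ^ 2 = 1
  ok : ∀ z, a z ≠ 0 → g (sh z) = g z + 3 ∧ g (sh.symm z) = g z - 3 ∧ |g z| ≤ M
  mean0 : ∑ z, a z ^ 2 * g z = 0
  aff : 1 - δ ≤ ∑ z, a (sh z) * a (sh.symm z)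

end Lattice

end Crest.Agent.R239
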