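import Crest.Agent.R239.Spec

/-! Trajectories of the feedback system and their covariance matrices. -/

open Finset Matrix

namespace Crest.Agent.R239

variable {d n : ℕ}

/-- `Aop` as a linear map. -/
def AL (κ : ℝ) (v : Fin d → ℝ) : (Fin d → ℝ) →ₗ[ℝ] (Fin d → ℝ) where
  toFun := Aop κ v
  map_add' x y := by
    simp only [Aop, dotProduct_add, mul_add, add_smul]; abel
  map_smul' c x := by
    simp only [Aop, dotProduct_smul, smul_eq_mul, RingHom.id_apply, smul_sub, smul_smul]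
    congr 2; ring

/-- Coordinate `s` (zero out of range). -/
def extL (n s : ℕ) : (Fin n → ℝ) →ₗ[ℝ] ℝ := if h : s < n then LinearMap.proj ⟨s, h⟩ else 0

theorem extL_of_lt {s : ℕ} (h : s < n) (θ : Fin n → ℝ) : extL n s θ = θ ⟨s, h⟩ := by
  simp [extL, h]

theorem extL_coe (i : Fin n) (θ : Fin n → ℝ) : extL n i θ = θ i := extL_of_lt i.2 θ

theorem extL_single (s : ℕ) (i : Fin n) :
    extL n s (Pi.single i 1) = if (i : ℕ) = s then 1 else 0 := by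
  unfold extL
  split_ifs with h h1 h1
  · subst h1; simp
  · have : (⟨s, h⟩ : Fin n) ≠ i := fun e => h1 (by rw [← e])
    simp [this]
  · exact absurd (h1 ▸ i.2) h
  · rfl

theorem sum_extL_sq (θ : Fin n → ℝ) : ∑ s ∈ range n, extL n s θ ^ 2 = ∑ i, θ i ^ 2 := by
  rw [← Fin.sum_univ_eq_sum_range (fun s => extL n s θ ^ 2)]
  exact Finset.sum_congr rfl fun i _ => by rw [extL_coe]

/-- The state of the feedback system. -/
def XL (n : ℕ) (κ : ℝ) (v : ℕ → Fin d → ℝ) : ℕ → (Fin n → ℝ) →ₗ[ℝ] (Fin d → ℝ)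
  | 0 => 0
  | t + 1 => AL κ (v t) ∘ₗ XL n κ v t + (extL n t).smulRight (v t)

theorem XL_succ (κ : ℝ) (v : ℕ → Fin d → ℝ) (t : ℕ) (θ : Fin n → ℝ) :
    XL n κ v (t + 1) θ = Aop κ (v t) (XL n κ v t θ) + extL n t θ • v t := rfl

theorem XL_causal (κ : ℝ) (v : ℕ → Fin d → ℝ) (t : ℕ) {x y : Fin n → ℝ}
    (h : ∀ j : Fin n, (j : ℕ) < t → x j = y j) : XL n κ v t x = XL n κ v t y := by
  induction t with
  | zero => rfl
  | succ t ih =>
    rw [XL_succ, XL_succ, ih fun j hj => h j (by omega)]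
    congr 2
    by_cases ht : t < n
    · rw [extL_of_lt ht, extL_of_lt ht]; exact h _ (Nat.lt_succ_self t)
    · simp [extL, ht]

theorem XL_single (κ : ℝ) (v : ℕ → Fin d → ℝ) {t : ℕ} {i : Fin n} (h : t ≤ i) :
    XL n κ v t (Pi.single i 1) = 0 := by
  rw [XL_causal κ v t (y := 0), map_zero]
  intro j hj
  have : j ≠ i := fun e => by subst e; omega
  simp [this]

theorem XL_eq_sum (κ : ℝ) (v : ℕ → Fin d → ℝ) (θ : Fin n → ℝ) (t : ℕ) :
    XL n κ v t θ = ∑ s ∈ range t, (extL n s θ - κ * (v s ⬝ᵥ XL n κ v s θ)) • v s := by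
  induction t with
  | zero => rfl
  | succ t ih =>
    rw [Finset.sum_range_succ, ← ih, XL_succ, Aop, sub_smul]; abel

/-- Free evolution of a vector. -/
def Pv (κ : ℝ) (v : ℕ → Fin d → ℝ) (x : Fin d → ℝ) : ℕ → Fin d → ℝ
  | 0 => x
  | t + 1 => Aop κ (v t) (Pv κ v x t)

/-- Columns (real and phantom). -/
def col (n : ℕ) (κ : ℝ) (v : ℕ → Fin d → ℝ) (t : ℕ) : Fin n ⊕ Fin d → Fin d → ℝ
  | Sum.inl i => XL n κ v t (Pi.single i 1)
  | Sum.inr a => Pv κ v (Pi.single a 1) t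

/-- Indicator of the column created at step `t`. -/
def ind (n d : ℕ) (t : ℕ) : Fin n ⊕ Fin d → ℝ
  | Sum.inl i => if (i : ℕ) = t then 1 else 0
  | Sum.inr _ => 0

/-- Column weights. -/
def cw (n d : ℕ) (ε : ℝ) (ω : ℕ → ℝ) : Fin n ⊕ Fin d → ℝ
  | Sum.inl i => ω i
  | Sum.inr _ => ε

theorem col_succ (κ : ℝ) (v : ℕ → Fin d → ℝ) (t : ℕ) (j : Fin n ⊕ Fin d) :
    col n κ v (t + 1) j = Aop κ (v t) (col n κ v t j) + ind n d t j • v t := by
  rcases j with i | a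
  · simp only [col, ind]; rw [XL_succ, extL_single]
  · simp [col, ind, Pv]

theorem ind_col (κ : ℝ) (v : ℕ → Fin d → ℝ) (t : ℕ) (j : Fin n ⊕ Fin d) (x : Fin d → ℝ) :
    ind n d t j * (col n κ v t j ⬝ᵥ x) = 0 := by
  rcases j with i | a
  · simp only [col, ind]
    split_ifs with h
    · rw [XL_single κ v h.ge]; simp
    · simp
  · simp [ind]

theorem sum_ind (ε : ℝ) (ω : ℕ → ℝ) {t : ℕ} (ht : t < n) :
    ∑ j, cw n d ε ω j * ind n d t j ^ 2 = ω t := by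
  rw [Fintype.sum_sum_type, Finset.sum_eq_single (⟨t, ht⟩ : Fin n)]
  · simp [cw, ind]
  · intro i _ hi
    have : (i : ℕ) ≠ t := fun e => hi (Fin.ext e)
    simp [ind, this]
  · simp

/-- Weighted covariance matrix. -/
def Gm (κ : ℝ) (v : ℕ → Fin d → ℝ) (ε : ℝ) (ω : ℕ → ℝ) : ℕ → Matrix (Fin d) (Fin d) ℝ
  | 0 => ε • 1
  | t + 1 => upd κ (ω t) (v t) (Gm κ v ε ω t)

theorem dot_Gm (κ : ℝ) (v : ℕ → Fin d → ℝ) (ε : ℝ) (ω : ℕ → ℝ) {t : ℕ} (ht : t ≤ n)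
    (x : Fin d → ℝ) :
    x ⬝ᵥ Gm κ v ε ω t *ᵥ x = ∑ j, cw n d ε ω j * (col n κ v t j ⬝ᵥ x) ^ 2 := by
  induction t generalizing x with
  | zero =>
    rw [Fintype.sum_sum_type]
    simp only [Gm, col, cw, XL, Pv, smul_mulVec, one_mulVec, LinearMap.zero_apply,
      zero_dotProduct, single_dotProduct, one_mul, dotProduct_smul, smul_eq_mul]
    simp [dotProduct, Finset.mul_sum, sq]
  | succ t ih =>
    rw [Gm, dot_upd, ih (by omega), ← sum_ind (d := d) ε ω (show t < n by omega), mul_assoc,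
      Finset.sum_mul, ← Finset.sum_add_distrib]
    refine Finset.sum_congr rfl fun j _ => ?_
    rw [col_succ, add_dotProduct, smul_dotProduct, ← dot_Aop, smul_eq_mul]
    have := ind_col κ v t j (Aop κ (v t) x)
    linear_combination (-2 * cw n d ε ω j * (v t ⬝ᵥ x)) * this

theorem Aop_sq (κ : ℝ) (v x : Fin d → ℝ) :
    Aop κ v x ⬝ᵥ Aop κ v x = x ⬝ᵥ x - κ * (1 + al κ v) * (v ⬝ᵥ x) ^ 2 := by
  simp only [Aop, al, dotProduct_sub, sub_dotProduct, dotProduct_smul, smul_dotProduct,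
    smul_eq_mul]
  rw [dotProduct_comm x v]; ring

theorem psd_zero : Psd (0 : Matrix (Fin d) (Fin d) ℝ) := ⟨by simp, by simp⟩

theorem Gm_psd (κ : ℝ) (v : ℕ → Fin d → ℝ) {ε : ℝ} {ω : ℕ → ℝ} (hε : 0 ≤ ε)
    (hω : ∀ s, 0 ≤ ω s) (t : ℕ) : Psd (Gm κ v ε ω t) := by
  induction t with
  | zero =>
    refine Psd.smul ⟨fun x y => ?_, fun x => ?_⟩ hε
    · simp [dotProduct_comm]
    · simpa using dot_self_nonneg x
  | succ t ih => exact ih.upd κ (hω t) _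

theorem Gm_up {κ : ℝ} {v : ℕ → Fin d → ℝ} {ε : ℝ} {ω : ℕ → ℝ} (h0 : 0 < κ) (h1 : κ ≤ 1 / 8)
    (hv : ∀ s, v s ⬝ᵥ v s ≤ 1) (hε : ε ≤ 1) (hω : ∀ s, ω s ≤ κ) (t : ℕ) (x : Fin d → ℝ) :
    x ⬝ᵥ Gm κ v ε ω t *ᵥ x ≤ x ⬝ᵥ x := by
  induction t generalizing x with
  | zero =>
    rw [Gm, smul_mulVec, one_mulVec, dotProduct_smul, smul_eq_mul]
    exact mul_le_of_le_one_left (dot_self_nonneg x) hε
  | succ t ih =>
    have hs : StepHyp κ 0 (v t) 0 := ⟨h0, h1, le_rfl, hv t, psd_zero⟩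
    have h2 := ih (Aop κ (v t) x)
    rw [Aop_sq] at h2
    have h3 : ω t ≤ κ * (1 + al κ (v t)) := by
      have := hs.kw_ge; have := hω t; unfold kw at *; linarith
    have := mul_le_mul_of_nonneg_right h3 (sq_nonneg (v t ⬝ᵥ x))
    rw [Gm, dot_upd]; nlinarith

theorem Gm_lo {κ : ℝ} {v : ℕ → Fin d → ℝ} {ε : ℝ} {ω : ℕ → ℝ} (h0 : 0 < κ) (h1 : κ ≤ 1 / 8)
    (hv : ∀ s, v s ⬝ᵥ v s ≤ 1) (hε : 0 ≤ ε) (hω : ∀ s, ε * (2 * κ) ≤ ω s) (t : ℕ)
    (x : Fin d → ℝ) : ε * (x ⬝ᵥ x) ≤ x ⬝ᵥ Gm κ v ε ω t *ᵥ x := by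
  induction t generalizing x with
  | zero => rw [Gm, smul_mulVec, one_mulVec, dotProduct_smul, smul_eq_mul]
  | succ t ih =>
    have hs : StepHyp κ 0 (v t) 0 := ⟨h0, h1, le_rfl, hv t, psd_zero⟩
    have h2 := ih (Aop κ (v t) x)
    rw [Aop_sq] at h2
    have h3 : ε * (κ * (1 + al κ (v t))) ≤ ω t := by
      have := hs.kw_le
      refine le_trans (mul_le_mul_of_nonneg_left ?_ hε) (hω t)
      unfold kw at *; linarith
    have := mul_le_mul_of_nonneg_right h3 (sq_nonneg (v t ⬝ᵥ x))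
    rw [Gm, dot_upd]; nlinarith

/-- The unweighted covariance is at most `1/κ`. -/
theorem cov_le {κ : ℝ} {v : ℕ → Fin d → ℝ} (h0 : 0 < κ) (h1 : κ ≤ 1 / 8)
    (hv : ∀ s, v s ⬝ᵥ v s ≤ 1) {t : ℕ} (ht : t ≤ n) (x : Fin d → ℝ) :
    κ * ∑ i : Fin n, (x ⬝ᵥ XL n κ v t (Pi.single i 1)) ^ 2 ≤ x ⬝ᵥ x := by
  have h := Gm_up (ε := 0) (ω := fun _ => κ) h0 h1 hv zero_le_one (fun _ => le_rfl) t x
  rw [dot_Gm κ v _ _ ht, Fintype.sum_sum_type] at h
  simpa [cw, col, Finset.mul_sum, dotProduct_comm x] using h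

/-- Total feedback generated by one input. -/
theorem feedback_le {κ : ℝ} {v : ℕ → Fin d → ℝ} (h0 : 0 < κ) (h1 : κ ≤ 1 / 8)
    (hv : ∀ s, v s ⬝ᵥ v s ≤ 1) (i : Fin n) :
    κ * ∑ s ∈ range n, (v s ⬝ᵥ XL n κ v s (Pi.single i 1)) ^ 2 ≤ 1 := by
  have key : ∀ t, κ * ∑ s ∈ range t, (v s ⬝ᵥ XL n κ v s (Pi.single i 1)) ^ 2 +
      XL n κ v t (Pi.single i 1) ⬝ᵥ XL n κ v t (Pi.single i 1) ≤ if (i : ℕ) < t then 1 else 0 := by
    intro t
    induction t with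
    | zero => simp [XL]
    | succ t ih =>
      have hs : StepHyp κ 0 (v t) 0 := ⟨h0, h1, le_rfl, hv t, psd_zero⟩
      rw [Finset.sum_range_succ, XL_succ, extL_single]
      by_cases hit : (i : ℕ) = t
      · rw [XL_single κ v hit.ge] at ih ⊢
        rw [if_neg (by omega)] at ih
        rw [if_pos hit, if_pos (by omega)]
        have := hv t
        simp [Aop] at ih ⊢
        linarith
      · rw [if_neg hit, zero_smul, add_zero, Aop_sq]
        have h3 : κ ≤ κ * (1 + al κ (v t)) := by have := hs.kw_ge; unfold kw at *; linarith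
        have h4 := mul_le_mul_of_nonneg_right h3
          (sq_nonneg (v t ⬝ᵥ XL n κ v t (Pi.single i 1)))
        have h5 : (if (i : ℕ) < t then (1 : ℝ) else 0) = if (i : ℕ) < t + 1 then 1 else 0 := by
          congr 1; apply propext; omega
        rw [← h5]; linarith
  have h := key n
  rw [if_pos i.2] at h
  have := dot_self_nonneg (XL n κ v n (Pi.single i 1))
  linarith

end Crest.Agent.R239
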