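import Crest.Agent.R239.Defs

/-! Basic closure properties of `Enf`. -/

open Finset

namespace Crest.Agent.R239

variable {ι : Type} [Fintype ι] [DecidableEq ι]

omit [DecidableEq ι] in
theorem IsEucl.nonneg {F : (ι → ℝ) → ℝ} (h : IsEucl F) (x : ι → ℝ) : 0 ≤ F x := by
  have h0 : F 0 = 0 := by simpa using h.smul 0 0
  have h1 := h.add_le x ((-1 : ℝ) • x)
  rw [h.smul] at h1
  have : x + (-1 : ℝ) • x = 0 := by simp
  rw [this, h0] at h1
  simp at h1
  linarith

theorem isEucl_norm {E : Type*} [NormedAddCommGroup E] [InnerProductSpace ℝ E]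
    (L : (ι → ℝ) →ₗ[ℝ] E) : IsEucl (fun θ => ‖L θ‖) where
  add_le x y := by simpa using norm_add_le (L x) (L y)
  smul c x := by simp [norm_smul]
  sq := by
    refine ⟨fun i j => inner ℝ (L (Pi.single i 1)) (L (Pi.single j 1)), fun x => ?_⟩
    have hx : L x = ∑ i, x i • L (Pi.single i 1) := by
      conv_lhs => rw [pi_eq_sum_univ' x]
      simp [map_sum]
    rw [← real_inner_self_eq_norm_sq, hx, sum_inner]
    refine Finset.sum_congr rfl fun i _ => ?_
    rw [inner_sum]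
    refine Finset.sum_congr rfl fun j _ => ?_
    rw [real_inner_smul_left, real_inner_smul_right]
    ring

theorem Enf.mono {M : ℝ} {m : ι → ℝ} {K K' : Set (ι → ℝ)} {y y' : ℝ} (h : Enf M m K y)
    (hK : ∀ θ, (∀ i, |θ i| ≤ M) → θ ∈ K → θ ∈ K') (hy : y ≤ y') : Enf M m K' y' := by
  obtain ⟨C, iC, F, h1, h2, h3⟩ := h
  exact ⟨C, iC, F, h1, h2.trans hy, fun θ hθ hF => hK θ hθ (h3 θ hθ hF)⟩

theorem Enf.univ (M : ℝ) (m : ι → ℝ) : Enf M m Set.univ 0 :=
  ⟨Empty, inferInstance, fun c => c.elim, fun c => c.elim, by simp, fun _ _ _ => trivial⟩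

theorem Enf.inter {M : ℝ} {m : ι → ℝ} {K K' : Set (ι → ℝ)} {y y' : ℝ} (h : Enf M m K y)
    (h' : Enf M m K' y') : Enf M m (K ∩ K') (y + y') := by
  obtain ⟨C, iC, F, h1, h2, h3⟩ := h
  obtain ⟨C', iC', F', h1', h2', h3'⟩ := h'
  refine ⟨C ⊕ C', inferInstance, Sum.elim F F', ?_, ?_, ?_⟩
  · rintro (c | c)
    · exact h1 c
    · exact h1' c
  · rw [Fintype.sum_sum_type]
    exact add_le_add h2 h2'
  · intro θ hθ hF
    exact ⟨h3 θ hθ fun c => hF (Sum.inl c), h3' θ hθ fun c => hF (Sum.inr c)⟩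

theorem Enf.biInter {M : ℝ} {m : ι → ℝ} {α : Type*} (S : Finset α) (K : α → Set (ι → ℝ))
    (y : α → ℝ) (h : ∀ a ∈ S, Enf M m (K a) (y a)) :
    Enf M m {θ | ∀ a ∈ S, θ ∈ K a} (∑ a ∈ S, y a) := by
  classical
  induction S using Finset.induction_on with
  | empty => simpa using Enf.univ M m
  | insert a S ha ih =>
    rw [Finset.sum_insert ha]
    refine ((h a (mem_insert_self _ _)).inter
      (ih fun b hb => h b (mem_insert_of_mem hb))).mono ?_ le_rfl
    rintro θ - ⟨h1, h2⟩ b hb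
    rcases mem_insert.1 hb with rfl | hb
    · exact h1
    · exact h2 b hb

theorem Enf.weight {M : ℝ} {m m' : ι → ℝ} {K : Set (ι → ℝ)} {y a : ℝ} (h : Enf M m K y)
    (ha : 0 ≤ a) (hm : ∀ i, m' i ≤ a * m i) : Enf M m' K (a * y) := by
  obtain ⟨C, iC, F, h1, h2, h3⟩ := h
  refine ⟨C, iC, F, h1, ?_, h3⟩
  refine le_trans ?_ (mul_le_mul_of_nonneg_left h2 ha)
  rw [Finset.mul_sum]
  refine Finset.sum_le_sum fun c _ => ?_
  unfold cost
  rw [Finset.mul_sum]
  refine Finset.sum_le_sum fun i _ => ?_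
  rw [← mul_assoc]
  exact mul_le_mul_of_nonneg_right (hm i) (sq_nonneg _)

/-- A single check with threshold `T`. -/
theorem Enf.single (M : ℝ) (m : ι → ℝ) {F : (ι → ℝ) → ℝ} (hF : IsEucl F) {T : ℝ} (hT : 0 < T) :
    Enf M m {θ | F θ ≤ M * √(hs F) + 2 * √T} (cost m F / T) := by
  have hs0 : 0 < √T := Real.sqrt_pos.2 hT
  have hsq : √T ^ 2 = T := Real.sq_sqrt hT.le
  refine ⟨Unit, inferInstance, fun _ θ => F θ / √T, fun _ => ⟨?_, ?_, ?_⟩, ?_, ?_⟩
  · intro x y
    rw [← add_div]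
    exact div_le_div_of_nonneg_right (hF.add_le x y) hs0.le
  · intro c x
    show F (c • x) / √T = |c| * (F x / √T)
    rw [hF.smul, mul_div_assoc]
  · obtain ⟨B, hB⟩ := hF.sq
    refine ⟨fun i j => B i j / T, fun x => ?_⟩
    rw [div_pow, hsq, hB, Finset.sum_div]
    refine Finset.sum_congr rfl fun i _ => ?_
    rw [Finset.sum_div]
    refine Finset.sum_congr rfl fun j _ => ?_
    ring
  · simp only [cost, Finset.univ_unique, Finset.sum_singleton, div_pow, hsq, Finset.sum_div]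
    refine le_of_eq (Finset.sum_congr rfl fun i _ => ?_)
    ring
  · intro θ _ h
    have h1 := h ()
    have h2 : hs (fun θ => F θ / √T) = hs F / T := by
      simp only [hs, div_pow, hsq, Finset.sum_div]
    rw [h2, Real.sqrt_div' _ hT.le, div_le_iff₀ hs0] at h1
    show F θ ≤ _
    refine h1.trans (le_of_eq ?_)
    field_simp

/-- A single check with upper bounds on its norm and cost. -/
theorem Enf.single' {M : ℝ} (hM : 0 ≤ M) (m : ι → ℝ) {F : (ι → ℝ) → ℝ} (hF : IsEucl F)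
    {T h y : ℝ} (hT : 0 < T) (hh : hs F ≤ h) (hy : cost m F ≤ y) :
    Enf M m {θ | F θ ≤ M * √h + 2 * √T} (y / T) := by
  refine (Enf.single M m hF hT).mono ?_ (div_le_div_of_nonneg_right hy hT.le)
  intro θ _ h1
  have := mul_le_mul_of_nonneg_left (Real.sqrt_le_sqrt hh) hM
  simp only [Set.mem_ofPred_eq] at h1 ⊢
  linarith

end Crest.Agent.R239
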