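import Mathlib

/-! Greedy epochs. -/

open Finset

namespace Crest.Agent.R239

theorem epochs_aux (n : ℕ) (τ : ℕ → ℕ → ℝ) (fin : ℕ → ℕ)
    (h1 : ∀ a ≤ n, a ≤ fin a ∧ fin a ≤ n)
    (h2 : ∀ a ≤ n, fin a < n → 1 ≤ ∑ s ∈ Ico a (fin a + 1), τ a s) (k : ℕ) :
    ∀ a₀ ≤ n, n - a₀ ≤ k → ∃ S : Finset ℕ,
      (∀ a ∈ S, a₀ ≤ a ∧ a ≤ n) ∧
      (∀ t, a₀ ≤ t → t ≤ n → ∃ a ∈ S, a ≤ t ∧ t ≤ fin a) ∧
      (∀ h : ℕ → ℝ, (∀ s, 0 ≤ h s) →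
        ∑ a ∈ S, ∑ s ∈ Ico a (fin a), h s ≤ ∑ s ∈ Ico a₀ n, h s) ∧
      (∀ f h : ℕ → ℝ, (∀ a, 0 ≤ f a ∧ f a ≤ 1) → (∀ s, 0 ≤ h s) →
        (∀ a s, f a * τ a s ≤ h s) → ∑ a ∈ S, f a ≤ 1 + ∑ s ∈ Ico a₀ n, h s) := by
  have base : ∀ a₀ ≤ n, fin a₀ = n → ∃ S : Finset ℕ,
      (∀ a ∈ S, a₀ ≤ a ∧ a ≤ n) ∧
      (∀ t, a₀ ≤ t → t ≤ n → ∃ a ∈ S, a ≤ t ∧ t ≤ fin a) ∧
      (∀ h : ℕ → ℝ, (∀ s, 0 ≤ h s) →
        ∑ a ∈ S, ∑ s ∈ Ico a (fin a), h s ≤ ∑ s ∈ Ico a₀ n, h s) ∧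
      (∀ f h : ℕ → ℝ, (∀ a, 0 ≤ f a ∧ f a ≤ 1) → (∀ s, 0 ≤ h s) →
        (∀ a s, f a * τ a s ≤ h s) → ∑ a ∈ S, f a ≤ 1 + ∑ s ∈ Ico a₀ n, h s) := by
    intro a₀ ha hf
    refine ⟨{a₀}, ?_, ?_, ?_, ?_⟩
    · intro a h
      rw [mem_singleton.1 h]
      exact ⟨le_rfl, ha⟩
    · intro t ht1 ht2
      exact ⟨a₀, mem_singleton_self _, ht1, hf ▸ ht2⟩
    · intro h _
      rw [sum_singleton, hf]
    · intro f h hf1 hh _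
      rw [sum_singleton]
      have := sum_nonneg (s := Ico a₀ n) (fun s _ => hh s)
      linarith [(hf1 a₀).2]
  induction k with
  | zero =>
    intro a₀ ha hk
    exact base a₀ ha (by have := h1 a₀ ha; omega)
  | succ k ih =>
    intro a₀ ha hk
    obtain ⟨e1, e2⟩ := h1 a₀ ha
    rcases e2.eq_or_lt with e2 | e2
    · exact base a₀ ha e2
    obtain ⟨S, s1, s2, s3, s4⟩ := ih (fin a₀ + 1) e2 (by omega)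
    have hn : a₀ ∉ S := fun h => by have := (s1 a₀ h).1; omega
    have hsplit : ∀ h : ℕ → ℝ, ∑ s ∈ Ico a₀ n, h s =
        ∑ s ∈ Ico a₀ (fin a₀ + 1), h s + ∑ s ∈ Ico (fin a₀ + 1) n, h s :=
      fun h => (sum_Ico_consecutive h (by omega) e2).symm
    refine ⟨insert a₀ S, ?_, ?_, ?_, ?_⟩
    · intro a h
      rcases mem_insert.1 h with rfl | h
      · exact ⟨le_rfl, ha⟩
      · have := s1 a h
        omega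
    · intro t ht1 ht2
      by_cases ht : t ≤ fin a₀
      · exact ⟨a₀, mem_insert_self _ _, ht1, ht⟩
      · obtain ⟨a, h3, h4⟩ := s2 t (by omega) ht2
        exact ⟨a, mem_insert_of_mem h3, h4⟩
    · intro h hh
      rw [sum_insert hn, hsplit, sum_Ico_succ_top e1]
      linarith [s3 h hh, hh (fin a₀)]
    · intro f h hf hh hfh
      rw [sum_insert hn, hsplit]
      have e3 := h2 a₀ ha e2
      have e4 : f a₀ * ∑ s ∈ Ico a₀ (fin a₀ + 1), τ a₀ s ≤ ∑ s ∈ Ico a₀ (fin a₀ + 1), h s := by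
        rw [mul_sum]
        exact sum_le_sum fun s _ => hfh a₀ s
      have e5 := mul_le_mul_of_nonneg_left e3 (hf a₀).1
      linarith [s4 f h hf hh hfh]

theorem epochs (n : ℕ) (τ : ℕ → ℕ → ℝ) (hτ : ∀ a s, 0 ≤ τ a s) :
    ∃ (S : Finset ℕ) (fin : ℕ → ℕ),
      (∀ a ∈ S, a ≤ fin a ∧ fin a ≤ n ∧ ∑ s ∈ Ico a (fin a), τ a s < 1) ∧
      (∀ t ≤ n, ∃ a ∈ S, a ≤ t ∧ t ≤ fin a) ∧
      (∀ h : ℕ → ℝ, (∀ s, 0 ≤ h s) →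
        ∑ a ∈ S, ∑ s ∈ Ico a (fin a), h s ≤ ∑ s ∈ range n, h s) ∧
      (∀ f h : ℕ → ℝ, (∀ a, 0 ≤ f a ∧ f a ≤ 1) → (∀ s, 0 ≤ h s) →
        (∀ a s, f a * τ a s ≤ h s) → ∑ a ∈ S, f a ≤ 1 + ∑ s ∈ range n, h s) := by
  classical
  have _ := hτ
  let fin : ℕ → ℕ := fun a => Nat.findGreatest (fun t => ∑ s ∈ Ico a t, τ a s < 1) n
  have h0 : ∀ a, ∑ s ∈ Ico a a, τ a s < 1 := fun a => by simp
  have h1 : ∀ a ≤ n, a ≤ fin a ∧ fin a ≤ n := fun a ha =>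
    ⟨Nat.le_findGreatest ha (h0 a), Nat.findGreatest_le n⟩
  have h3 : ∀ a ≤ n, ∑ s ∈ Ico a (fin a), τ a s < 1 := fun a ha =>
    Nat.findGreatest_spec (P := fun t => ∑ s ∈ Ico a t, τ a s < 1) ha (h0 a)
  have h2 : ∀ a ≤ n, fin a < n → 1 ≤ ∑ s ∈ Ico a (fin a + 1), τ a s := fun a _ h =>
    not_lt.1 (Nat.findGreatest_is_greatest (P := fun t => ∑ s ∈ Ico a t, τ a s < 1)
      (Nat.lt_succ_self _) h)
  obtain ⟨S, s1, s2, s3, s4⟩ := epochs_aux n τ fin h1 h2 n 0 (Nat.zero_le _) (by omega)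
  rw [← range_eq_Ico] at s3 s4
  exact ⟨S, fin, fun a ha => ⟨(h1 a (s1 a ha).2).1, (h1 a (s1 a ha).2).2, h3 a (s1 a ha).2⟩,
    fun t ht => s2 t (Nat.zero_le _) ht, s3, s4⟩

end Crest.Agent.R239
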