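import Crest.Agent.R239.Defs

/-! Causal Karingula-Lovett rounding lemma. -/

open Finset

namespace Crest.Agent.R239

namespace KL

variable {Z Y : Type} [Fintype Z] [Fintype Y] {n : ℕ}

/-- append a last coordinate -/
def sn (z : Fin n → Z) (v : Z) : Fin (n + 1) → Z := Fin.snoc (α := fun _ => Z) z v

omit [Fintype Z] in
@[simp] theorem sn_last (z : Fin n → Z) (v : Z) : sn z v (Fin.last n) = v := Fin.snoc_last _ _

omit [Fintype Z] in
@[simp] theorem sn_cast (z : Fin n → Z) (v : Z) (i : Fin n) : sn z v i.castSucc = z i :=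
  Fin.snoc_castSucc _ _ _

omit [Fintype Z] in
@[simp] theorem init_sn (z : Fin n → Z) (v : Z) : Fin.init (sn z v) = z := Fin.init_snoc _ _

omit [Fintype Z] in
theorem sn_init (x : Fin (n + 1) → Z) : sn (Fin.init x) (x (Fin.last n)) = x :=
  Fin.snoc_init_self _

theorem sum_sn₀ (f : (Fin (n + 1) → Z) → ℝ) : ∑ x, f x = ∑ z, ∑ v, f (sn z v) := by
  rw [← (Fin.snocEquiv fun _ => Z).sum_comp, Fintype.sum_prod_type, Finset.sum_comm]
  rfl

theorem sum_sn (f : (Fin (n + 1) → Z) × Y → ℝ) : ∑ x, f x = ∑ y, ∑ z, ∑ v, f (sn z v, y) := by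
  rw [Fintype.sum_prod_type, Finset.sum_comm]
  exact Finset.sum_congr rfl fun y _ => sum_sn₀ _

theorem sum_ext (f : (Fin n → Z) × (Y × Z × Bool) → ℝ) :
    ∑ x, f x = ∑ y, ∑ z, ∑ w, (f (z, y, w, true) + f (z, y, w, false)) := by
  simp only [Fintype.sum_prod_type, Fintype.sum_bool]
  exact Finset.sum_comm

theorem adm_sum {ι : Type} [Fintype ι] [DecidableEq ι] {P lam : (ι → Z) × Y → ℝ} (h : Adm P lam)
    (ψ : Y → ℝ) : ∑ x, lam x * ψ x.2 = ∑ x, P x * ψ x.2 := by
  rw [Fintype.sum_prod_type, Fintype.sum_prod_type, Finset.sum_comm, Finset.sum_comm (s := univ)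
    (f := fun x y => P (x, y) * ψ y)]
  refine Finset.sum_congr rfl fun y _ => ?_
  simp only [← Finset.sum_mul, h.marg]

variable (sh : Z ≃ Z) (g : Z → ℝ) (P : (Fin (n + 1) → Z) × Y → ℝ)

/-- mass above -/
def A (x : (Fin n → Z) × (Y × Z × Bool)) : ℝ := P (sn x.1 (sh x.2.2.1), x.2.1)

/-- mass below -/
def B (x : (Fin n → Z) × (Y × Z × Bool)) : ℝ := P (sn x.1 (sh.symm x.2.2.1), x.2.1)

/-- the extended distribution -/
noncomputable def Q (x : (Fin n → Z) × (Y × Z × Bool)) : ℝ :=
  if x.2.2.2 then min (A sh P x) (B sh P x) / 2 else max (A sh P x) (B sh P x) / 2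

/-- probability of moving up -/
noncomputable def T (p : ℝ) (x : (Fin n → Z) × (Y × Z × Bool)) : ℝ :=
  if x.2.2.2 then p else if B sh P x ≤ A sh P x then 1 else 0

/-- the lifted measure -/
noncomputable def lift (p : ℝ) (lam : (Fin n → Z) × (Y × Z × Bool) → ℝ)
    (x : (Fin (n + 1) → Z) × Y) : ℝ :=
  ∑ β, (T sh P p (Fin.init x.1, x.2, sh.symm (x.1 (Fin.last n)), β) *
      lam (Fin.init x.1, x.2, sh.symm (x.1 (Fin.last n)), β) +
    (1 - T sh P p (Fin.init x.1, x.2, sh (x.1 (Fin.last n)), β)) *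
      lam (Fin.init x.1, x.2, sh (x.1 (Fin.last n)), β))

omit [Fintype Y] in
theorem sum_lift_aux (p : ℝ) (lam : (Fin n → Z) × (Y × Z × Bool) → ℝ) (z : Fin n → Z) (y : Y)
    (φ : Z → ℝ) : ∑ v, lift sh P p lam (sn z v, y) * φ v =
      ∑ w, ∑ β, lam (z, y, w, β) * (T sh P p (z, y, w, β) * φ (sh w) +
        (1 - T sh P p (z, y, w, β)) * φ (sh.symm w)) := by
  simp only [lift, init_sn, sn_last, Finset.sum_mul, add_mul, mul_add, Finset.sum_add_distrib]
  congr 1
  · rw [← sh.sum_comp]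
    simp only [Equiv.symm_apply_apply]
    exact Finset.sum_congr rfl fun _ _ => Finset.sum_congr rfl fun _ _ => by ring
  · rw [← sh.symm.sum_comp]
    simp only [Equiv.apply_symm_apply]
    exact Finset.sum_congr rfl fun _ _ => Finset.sum_congr rfl fun _ _ => by ring

theorem sum_lift (p : ℝ) (lam : (Fin n → Z) × (Y × Z × Bool) → ℝ)
    (φ : (Fin (n + 1) → Z) → ℝ) : ∑ x, lift sh P p lam x * φ x.1 =
      ∑ x, lam x * (T sh P p x * φ (sn x.1 (sh x.2.2.1)) +
        (1 - T sh P p x) * φ (sn x.1 (sh.symm x.2.2.1))) := by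
  rw [sum_sn, sum_ext]
  refine Finset.sum_congr rfl fun y _ => Finset.sum_congr rfl fun z _ => ?_
  rw [sum_lift_aux sh P p lam z y fun v => φ (sn z v)]
  simp only [Fintype.sum_bool]

omit [Fintype Y] in
theorem sum_Q_aux (z : Fin n → Z) (y : Y) (φ : Z → ℝ) :
    ∑ w, (Q sh P (z, y, w, true) * φ w + Q sh P (z, y, w, false) * φ w) =
      ∑ v, P (sn z v, y) * ((φ (sh.symm v) + φ (sh v)) / 2) := by
  have : ∀ w, Q sh P (z, y, w, true) * φ w + Q sh P (z, y, w, false) * φ w =
      P (sn z (sh w), y) * φ w / 2 + P (sn z (sh.symm w), y) * φ w / 2 := fun w => by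
    have := min_add_max (P (sn z (sh w), y)) (P (sn z (sh.symm w), y))
    simp only [Q, A, B, if_true, Bool.false_eq_true, if_false]
    linear_combination (φ w / 2) * this
  simp only [this, Finset.sum_add_distrib]
  rw [← sh.symm.sum_comp, ← sh.sum_comp (fun w => P (sn z (sh.symm w), y) * φ w / 2),
    ← Finset.sum_add_distrib]
  simp only [Equiv.symm_apply_apply, Equiv.apply_symm_apply]
  exact Finset.sum_congr rfl fun _ _ => by ring

theorem sum_Q (φ : (Fin n → Z) → Z → ℝ) : ∑ x, Q sh P x * φ x.1 x.2.2.1 =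
    ∑ x, P x * ((φ (Fin.init x.1) (sh.symm (x.1 (Fin.last n))) +
      φ (Fin.init x.1) (sh (x.1 (Fin.last n)))) / 2) := by
  rw [sum_sn, sum_ext]
  refine Finset.sum_congr rfl fun y _ => Finset.sum_congr rfl fun z _ => ?_
  rw [sum_Q_aux sh P z y (φ z)]
  simp only [init_sn, sn_last]

variable {sh g P}

theorem base_Q (hP : Base sh g P) : Base sh g (Q sh P) := by
  refine ⟨fun x => ?_, ?_, fun x hx i => ?_, funext fun i => ?_⟩
  · have h1 : 0 ≤ A sh P x := hP.nonneg _
    have h2 : 0 ≤ B sh P x := hP.nonneg _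
    unfold Q
    split_ifs <;> positivity
  · simpa [hP.total] using sum_Q sh P fun _ _ => 1
  · by_cases h1 : A sh P x = 0
    · by_cases h2 : B sh P x = 0
      · exact absurd (by simp [Q, h1, h2]) hx
      · simpa using hP.ok _ h2 i.castSucc
    · simpa using hP.ok _ h1 i.castSucc
  · have h1 := sum_Q sh P fun z _ => g (z i)
    have h2 := congrFun hP.mean0 i.castSucc
    simp only [mean, add_self_div_two, Fin.init] at h1 h2 ⊢
    rw [h1, h2]; rfl

omit [Fintype Z] in
theorem sn_update (z : Fin n → Z) (v u : Z) (i : Fin n) :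
    sn (Function.update z i u) v = Function.update (sn z v) i.castSucc u :=
  Fin.snoc_update _ _ _ _

omit [Fintype Z] in
theorem update_sn (z : Fin n → Z) (v u : Z) :
    Function.update (sn z v) (Fin.last n) u = sn z u :=
  Fin.update_snoc_last _ _ _

theorem overlap_le (i : Fin n) : overlap sh P i.castSucc ≤ overlap sh (Q sh P) i := by
  unfold overlap
  rw [sum_sn, sum_ext]
  refine Finset.sum_le_sum fun y _ => Finset.sum_le_sum fun z _ => ?_
  let f : Z → ℝ := fun v =>
    min (P (up sh i.castSucc (sn z v, y))) (P (up sh.symm i.castSucc (sn z v, y)))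
  have h1 : ∑ v, f v = ∑ w, (f (sh w) + f (sh.symm w)) / 2 := by
    rw [← Finset.sum_div, Finset.sum_add_distrib, sh.sum_comp, sh.symm.sum_comp, add_self_div_two]
  refine h1.le.trans (Finset.sum_le_sum fun w _ => ?_)
  simp only [f, Q, A, B, up, if_true, Bool.false_eq_true, if_false, sn_update, sn_cast]
  have key : ∀ a a' b b' : ℝ, (min a a' + min b b') / 2 ≤
      min (min a b / 2) (min a' b' / 2) + min (max a b / 2) (max a' b' / 2) := by
    intro a a' b b'
    simp only [min_def, max_def]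
    split_ifs <;> linarith
  exact key _ _ _ _

theorem sum_Q_true : ∑ x, Q sh P x * (if x.2.2.2 then 1 else 0) = overlap sh P (Fin.last n) / 2 := by
  unfold overlap
  rw [sum_sn, sum_ext]
  simp only [Finset.sum_div, Q, A, B, up, update_sn, sn_last]
  simp

omit [Fintype Z] [Fintype Y] in
theorem T_mem {p : ℝ} (h0 : 0 ≤ p) (h1 : p ≤ 1) (x : (Fin n → Z) × (Y × Z × Bool)) :
    0 ≤ T sh P p x ∧ T sh P p x ≤ 1 := by
  unfold T
  split_ifs <;> simp [h0, h1]

theorem zero_of_A (hP : Base sh g P) {lam : (Fin n → Z) × (Y × Z × Bool) → ℝ}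
    (h : Adm (Q sh P) lam) (p : ℝ) {x : (Fin n → Z) × (Y × Z × Bool)} (hx : A sh P x = 0) :
    T sh P p x * lam x = 0 := by
  have h2 : 0 ≤ B sh P x := hP.nonneg _
  unfold T
  split_ifs with a1 a2
  · rw [h.supp x (by simp [Q, a1, hx, h2]), mul_zero]
  · rw [h.supp x (by simp [Q, a1, hx, hx ▸ a2]), mul_zero]
  · rw [zero_mul]

theorem zero_of_B (hP : Base sh g P) {lam : (Fin n → Z) × (Y × Z × Bool) → ℝ}
    (h : Adm (Q sh P) lam) (p : ℝ) {x : (Fin n → Z) × (Y × Z × Bool)} (hx : B sh P x = 0) :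
    (1 - T sh P p x) * lam x = 0 := by
  have h2 : 0 ≤ A sh P x := hP.nonneg _
  unfold T
  split_ifs with a1 a2
  · rw [h.supp x (by simp [Q, a1, hx, h2]), mul_zero]
  · rw [sub_self, zero_mul]
  · exact absurd (hx ▸ h2) a2

theorem adm_lift (hP : Base sh g P) {lam : (Fin n → Z) × (Y × Z × Bool) → ℝ}
    (h : Adm (Q sh P) lam) {p : ℝ} (h0 : 0 ≤ p) (h1 : p ≤ 1) : Adm P (lift sh P p lam) := by
  refine ⟨fun x => Finset.sum_nonneg fun β _ => add_nonneg
    (mul_nonneg (T_mem h0 h1 _).1 (h.nonneg _))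
    (mul_nonneg (sub_nonneg.2 (T_mem h0 h1 _).2) (h.nonneg _)), fun x hx => ?_, fun y => ?_⟩
  · refine Finset.sum_eq_zero fun β _ => ?_
    rw [zero_of_A hP h p (by simpa [A, sn_init] using hx),
      zero_of_B hP h p (by simpa [B, sn_init] using hx), add_zero]
  · rw [sum_sn₀, sum_sn₀]
    have a1 : ∀ z, ∑ v, lift sh P p lam (sn z v, y) = ∑ w, ∑ β, lam (z, y, w, β) := fun z => by
      simpa using sum_lift_aux sh P p lam z y fun _ => 1
    have a2 : ∀ z, ∑ v, P (sn z v, y) = ∑ w, ∑ β, Q sh P (z, y, w, β) := fun z => by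
      simpa using (sum_Q_aux sh P z y fun _ => 1).symm
    simp only [a1, a2]
    rw [Finset.sum_comm, Finset.sum_comm (f := fun z w => ∑ β, Q sh P (z, y, w, β))]
    refine Finset.sum_congr rfl fun w _ => ?_
    rw [Finset.sum_comm, Finset.sum_comm (f := fun z β => Q sh P (z, y, w, β))]
    exact Finset.sum_congr rfl fun β _ => h.marg (y, w, β)

theorem mean_lift_cast (lam : (Fin n → Z) × (Y × Z × Bool) → ℝ) (p : ℝ) (i : Fin n) :
    mean g (lift sh P p lam) i.castSucc = mean g lam i := by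
  unfold mean
  rw [sum_lift sh P p lam fun z => g (z i.castSucc)]
  simp only [sn_cast]
  exact Finset.sum_congr rfl fun _ _ => by ring

theorem mean_lift_last (hP : Base sh g P) {lam : (Fin n → Z) × (Y × Z × Bool) → ℝ}
    (h : Adm (Q sh P) lam) : ∃ G β : ℝ, β = overlap sh P (Fin.last n) / 2 ∧ |G| ≤ 3 * (1 - β) ∧
      ∀ p, mean g (lift sh P p lam) (Fin.last n) = G + 3 * β * (2 * p - 1) := by
  have hβ : ∑ x, lam x * (if x.2.2.2 then 1 else 0) = overlap sh P (Fin.last n) / 2 :=
    (adm_sum h fun y => if y.2.2 then 1 else 0).trans sum_Q_true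
  have htot : ∑ x, lam x = 1 := by
    simpa [(base_Q hP).total] using adm_sum h fun _ => 1
  have hg : ∑ x, lam x * g x.2.2.1 = 0 := by
    rw [adm_sum h fun y => g y.2.1, sum_Q sh P fun _ w => g w]
    refine Eq.trans (Finset.sum_congr rfl fun x _ => ?_) (congrFun hP.mean0 (Fin.last n))
    by_cases hx : P x = 0
    · simp [hx]
    · rw [(hP.ok x hx _).1, (hP.ok x hx _).2]; ring
  refine ⟨∑ x, lam x * (if x.2.2.2 then 0 else 3 * (2 * T sh P 0 x - 1)), _, hβ, ?_,
    fun p => ?_⟩
  · have : 1 - ∑ x, lam x * (if x.2.2.2 then 1 else 0) =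
        ∑ x, (lam x - lam x * (if x.2.2.2 then 1 else 0)) := by
      rw [Finset.sum_sub_distrib, htot]
    rw [this, Finset.mul_sum]
    refine (Finset.abs_sum_le_sum_abs _ _).trans (Finset.sum_le_sum fun x _ => ?_)
    have a1 := h.nonneg x
    have a2 := T_mem (sh := sh) (P := P) le_rfl zero_le_one x
    split_ifs
    · simp
    · rw [abs_le]; constructor <;> nlinarith
  · unfold mean
    rw [sum_lift sh P p lam fun z => g (z (Fin.last n)), Finset.mul_sum, Finset.sum_mul,
      ← Finset.sum_add_distrib]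
    refine Eq.trans ?_ ((congrArg (· + _) hg).trans (zero_add _))
    rw [← Finset.sum_add_distrib]
    refine Finset.sum_congr rfl fun x _ => ?_
    simp only [sn_last]
    have a1 : T sh P p x * lam x * g (sh x.2.2.1) = T sh P p x * lam x * (g x.2.2.1 + 3) := by
      by_cases hx : A sh P x = 0
      · simp [zero_of_A hP h p hx]
      · have := (hP.ok _ hx (Fin.last n)).2
        simp only [sn_last, Equiv.symm_apply_apply] at this
        rw [this]; ring
    have a2 : (1 - T sh P p x) * lam x * g (sh.symm x.2.2.1) =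
        (1 - T sh P p x) * lam x * (g x.2.2.1 - 3) := by
      by_cases hx : B sh P x = 0
      · simp [zero_of_B hP h p hx]
      · have := (hP.ok _ hx (Fin.last n)).1
        simp only [sn_last, Equiv.apply_symm_apply] at this
        rw [this]; ring
    by_cases hb : x.2.2.2 = true
    · have : T sh P p x = p := by simp [T, hb]
      rw [this] at a1 a2 ⊢
      simp only [hb, if_true]
      linear_combination a1 + a2
    · have : T sh P 0 x = T sh P p x := by simp [T, hb]
      simp only [hb, this, Bool.false_eq_true, if_false]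
      linear_combination a1 + a2

end KL

open KL in
theorem kl {Z : Type} [Fintype Z] (sh : Z ≃ Z) (g : Z → ℝ) (n : ℕ) (Y : Type) [Fintype Y]
    (P : (Fin n → Z) × Y → ℝ) (hP : Base sh g P) (hov : ∀ i, 5 / 6 ≤ overlap sh P i)
    (c : Fin n → (Fin n → ℝ) → ℝ)
    (hc : ∀ i x y, (∀ j, j < i → x j = y j) → c i x = c i y)
    (hb : ∀ lam, Adm P lam → ∀ i, |c i (mean g lam)| ≤ 1 / 2) :
    ∃ lam, Adm P lam ∧ ∀ i, mean g lam i + c i (mean g lam) = 1 ∨
      mean g lam i + c i (mean g lam) = -1 := by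
  induction n generalizing Y with
  | zero => exact ⟨P, ⟨hP.nonneg, fun _ h => h, fun _ => rfl⟩, fun i => i.elim0⟩
  | succ n ih =>
    have key : ∀ (lam : (Fin n → Z) × (Y × Z × Bool) → ℝ) (p : ℝ) (i : Fin (n + 1)),
        c i (mean g (lift sh P p lam)) = c i (sn (mean g lam) 0) := fun lam p i =>
      hc i _ _ fun j hj => by
        obtain ⟨j, rfl⟩ := Fin.exists_castSucc_eq.2 (Fin.ne_last_of_lt hj)
        rw [mean_lift_cast, sn_cast]
    obtain ⟨lam, h1, h2⟩ := ih (Y × Z × Bool) (Q sh P) (base_Q hP)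
      (fun i => (hov _).trans (overlap_le i)) (fun i x => c i.castSucc (sn x 0))
      (fun i x y h => hc _ _ _ fun j hj => by
        obtain ⟨j, rfl⟩ := Fin.exists_castSucc_eq.2 (Fin.ne_last_of_lt hj)
        rw [sn_cast, sn_cast, h j (by simpa using hj)])
      (fun lam h i => by
        rw [← key lam 0]
        exact hb _ (adm_lift hP h le_rfl zero_le_one) _)
    obtain ⟨G, β, hβ, hG, hm⟩ := mean_lift_last hP h1
    have h3 := hb _ (adm_lift hP h1 le_rfl zero_le_one) (Fin.last n)
    rw [key] at h3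
    have h4 := hov (Fin.last n)
    set x := c (Fin.last n) (sn (mean g lam) 0) with hx
    rw [abs_le] at h3 hG
    have hβ0 : 0 < 6 * β := by linarith
    have hβ1 : β ≠ 0 := ne_of_gt (by linarith)
    obtain ⟨p, p0, p1, hp⟩ : ∃ p : ℝ, 0 ≤ p ∧ p ≤ 1 ∧
        (G + 3 * β * (2 * p - 1) + x = 1 ∨ G + 3 * β * (2 * p - 1) + x = -1) := by
      by_cases h5 : 0 ≤ G + x
      · refine ⟨(1 - G - x + 3 * β) / (6 * β), div_nonneg (by linarith) hβ0.le,
          (div_le_one hβ0).2 (by linarith), Or.inl ?_⟩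
        field_simp
        ring
      · refine ⟨(-1 - G - x + 3 * β) / (6 * β), div_nonneg (by linarith) hβ0.le,
          (div_le_one hβ0).2 (by linarith), Or.inr ?_⟩
        field_simp
        ring
    refine ⟨lift sh P p lam, adm_lift hP h1 p0 p1, fun i => ?_⟩
    rw [key]
    induction i using Fin.lastCases with
    | last => rw [hm]; exact hp
    | cast i => rw [mean_lift_cast]; exact h2 i

end Crest.Agent.R239
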