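import Crest.Agent.R239.Defs

/-! Existence of a smooth centred amplitude on a finite cyclic lattice. -/

open Finset

namespace Crest.Agent.R239

namespace LatAux

/-- The cyclic shift by three. -/
def sh : Fin 6007 ≃ Fin 6007 where
  toFun z := ⟨(z.val + 3) % 6007, Nat.mod_lt _ (by norm_num)⟩
  invFun z := ⟨(z.val + 6004) % 6007, Nat.mod_lt _ (by norm_num)⟩
  left_inv z := Fin.ext (by have := z.2; dsimp only; omega)
  right_inv z := Fin.ext (by have := z.2; dsimp only; omega)

theorem sh_val (z : Fin 6007) : (sh z).val = (z.val + 3) % 6007 := rfl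

theorem sh_symm_val (z : Fin 6007) : (sh.symm z).val = (z.val + 6004) % 6007 := rfl

theorem sum_ite (q a b : ℕ) (hb : b ≤ q) (f : ℕ → ℝ) :
    ∑ z : Fin q, (if a ≤ z.val ∧ z.val < b then f z.val else 0) = ∑ i ∈ Ico a b, f i := by
  rw [Fin.sum_univ_eq_sum_range (fun i => if a ≤ i ∧ i < b then f i else 0) q, ← sum_filter]
  refine sum_congr ?_ fun _ _ => rfl
  ext i
  simp only [mem_filter, mem_range, mem_Ico]
  omega

theorem sum_centered (a n : ℕ) :
    ∑ i ∈ Ico a (a + n), ((i : ℝ) - (a + (n - 1) / 2)) = 0 := by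
  have key : ∀ (c : ℝ) (n : ℕ), ∑ i ∈ Ico a (a + n), ((i : ℝ) - c) =
      n * (a + (n - 1) / 2 - c) := by
    intro c n
    induction n with
    | zero => simp
    | succ n ih =>
      rw [← add_assoc, sum_Ico_succ_top (by omega), ih]
      push_cast
      ring
  rw [key]
  ring

end LatAux

open LatAux in
theorem lat_exists : ∃ (Z : Type) (_ : Fintype Z) (sh : Z ≃ Z) (g a : Z → ℝ) (M : ℝ),
    1 ≤ M ∧ Amp sh g a M (1 / 1000) := by
  obtain ⟨c, hc0, hc⟩ : ∃ c : ℝ, 0 ≤ c ∧ c * c = 1 / 6001 :=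
    ⟨√(1 / 6001), Real.sqrt_nonneg _, Real.mul_self_sqrt (by norm_num)⟩
  let a : Fin 6007 → ℝ := fun z => if 3 ≤ z.val ∧ z.val < 6004 then c else 0
  have ha0 : ∀ z, 0 ≤ a z := fun z => by
    simp only [a]
    split_ifs
    · exact hc0
    · exact le_rfl
  refine ⟨Fin 6007, inferInstance, sh, fun z => (z.val : ℝ) - 3003, a, 3000, by norm_num,
    ha0, ?_, ?_, ?_, ?_⟩
  · have : ∀ z, a z ^ 2 = if 3 ≤ z.val ∧ z.val < 6004 then 1 / 6001 else 0 := fun z => by
      simp only [a]
      split_ifs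
      · rw [sq, hc]
      · simp
    simp only [this]
    rw [sum_ite 6007 3 6004 (by norm_num) (fun _ => 1 / 6001), sum_const, Nat.card_Ico]
    norm_num
  · intro z hz
    have h : 3 ≤ z.val ∧ z.val < 6004 := by
      by_contra h
      exact hz (if_neg h)
    have h1 : (sh z).val = z.val + 3 := by rw [sh_val]; omega
    have h2 : (sh.symm z).val + 3 = z.val := by rw [sh_symm_val]; omega
    have h2' : ((sh.symm z).val : ℝ) + 3 = z.val := by exact_mod_cast h2
    have h3 : (3 : ℝ) ≤ z.val := by exact_mod_cast h.1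
    have h4 : (z.val : ℝ) ≤ 6003 := by exact_mod_cast Nat.lt_succ_iff.1 h.2
    refine ⟨?_, by linarith, abs_le.2 ⟨by linarith, by linarith⟩⟩
    rw [h1]
    push_cast
    ring
  · have : ∀ z : Fin 6007, a z ^ 2 * ((z.val : ℝ) - 3003) =
        if 3 ≤ z.val ∧ z.val < 6004 then 1 / 6001 * ((z.val : ℝ) - 3003) else 0 := fun z => by
      simp only [a]
      split_ifs
      · rw [sq, hc]
      · simp
    simp only [this]
    rw [sum_ite 6007 3 6004 (by norm_num) (fun i => 1 / 6001 * ((i : ℝ) - 3003)), ← mul_sum]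
    have h := sum_centered 3 6001
    have h2 : ((3 : ℕ) : ℝ) + (((6001 : ℕ) : ℝ) - 1) / 2 = 3003 := by norm_num
    rw [h2] at h
    rw [h, mul_zero]
  · have : ∀ z : Fin 6007, (if 6 ≤ z.val ∧ z.val < 6001 then (1 / 6001 : ℝ) else 0) ≤
        a (sh z) * a (sh.symm z) := fun z => by
      split_ifs with h
      · have h1 : 3 ≤ (sh z).val ∧ (sh z).val < 6004 := by rw [sh_val]; omega
        have h2 : 3 ≤ (sh.symm z).val ∧ (sh.symm z).val < 6004 := by rw [sh_symm_val]; omega
        simp only [a, if_pos h1, if_pos h2, hc, le_refl]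
      · exact mul_nonneg (ha0 _) (ha0 _)
    refine le_trans ?_ (sum_le_sum fun z _ => this z)
    rw [sum_ite 6007 6 6001 (by norm_num) (fun _ => 1 / 6001), sum_const, Nat.card_Ico]
    norm_num

end Crest.Agent.R239
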