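import Crest.Agent.R239.ZVec
import Crest.Agent.R239.Chain
import Crest.Agent.R239.Epoch

/-! The checks of one epoch and of one level. -/

open Finset Matrix

namespace Crest.Agent.R239

namespace Ctx

variable {d : ℕ} (c : Ctx d) (n : ℕ)

/-- Classes of the coordinates. -/
def kf : Fin n → ℕ := fun i => c.k i

/-- Innovation mass. -/
noncomputable def μ (l s : ℕ) : ℝ := ∑ i ∈ univ.filter (fun i => l < c.kf n i),
  (4 / 9 : ℝ) ^ (c.kf n i - l) * c.ξ n l s (Pi.single i 1) ^ 2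

/-- Clock rate of the epoch started at `a`. -/
noncomputable def τ (l a s : ℕ) : ℝ :=
  10 * c.act l s / c.ν l a + (1 / 4) ^ (c.k s - l) + c.μ n l s

end Ctx

/-- A constant. -/
noncomputable def PP (κ : ℝ) : ℝ := 52800 / κ ^ 2

/-- A constant. -/
noncomputable def K1 (κ M C0 : ℝ) : ℝ :=
  2 * (M * √(PP κ) + 2 * √C0) + (4 * (M * √(4 * PP κ) + 2 * √C0) + 4 * √(PP κ) * (M + 2 * √C0)) +
    M / κ

namespace Ctx

variable {d : ℕ} (c : Ctx d) (n : ℕ)

theorem μ_nonneg (l s : ℕ) : 0 ≤ c.μ n l s :=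
  Finset.sum_nonneg fun _ _ => by positivity

theorem act_div_nonneg (l a s : ℕ) : 0 ≤ 10 * c.act l s / c.ν l a :=
  div_nonneg (mul_nonneg (by norm_num) (c.act_nonneg l s)) (c.ν_pos l a).le

theorem τ_nonneg (l a s : ℕ) : 0 ≤ c.τ n l a s :=
  add_nonneg (add_nonneg (c.act_div_nonneg l a s) (by positivity)) (c.μ_nonneg n l s)

theorem act_le_τ (l a s : ℕ) : 10 * c.act l s ≤ c.ν l a * c.τ n l a s := by
  have h : 10 * c.act l s / c.ν l a ≤ c.τ n l a s := by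
    have := c.μ_nonneg n l s
    have : (0 : ℝ) ≤ (1 / 4) ^ (c.k s - l) := by positivity
    unfold τ; linarith
  rwa [div_le_iff₀ (c.ν_pos l a), mul_comm (c.τ n l a s)] at h

theorem quarter_le_τ (l a s : ℕ) : (1 / 4 : ℝ) ^ (c.k s - l) ≤ c.τ n l a s := by
  have := c.μ_nonneg n l s
  have := c.act_div_nonneg l a s
  unfold τ; linarith

theorem PP_ge : 52800 / c.κ ≤ PP c.κ := by
  have := c.κ0; have := c.κ1
  exact div_le_div_of_nonneg_left (by norm_num) (by positivity) (by nlinarith)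

theorem PP_pos : 0 < PP c.κ := by have := c.κ0; unfold PP; positivity

theorem cov1 {t : ℕ} (ht : t ≤ n) (x : Fin d → ℝ) :
    c.κ * ∑ i : Fin n, (x ⬝ᵥ c.X n t (Pi.single i 1)) ^ 2 ≤ x ⬝ᵥ x := cov_le c.κ0 c.κ1 c.hv ht x

theorem cov2 {t : ℕ} (ht : t ≤ n) (x : Fin d → ℝ) :
    c.κ * ∑ i : Fin n, (1 / 32 : ℝ) ^ c.kf n i * (x ⬝ᵥ c.X n t (Pi.single i 1)) ^ 2 ≤
      x ⬝ᵥ c.G t *ᵥ x := by
  rw [G, dot_Gm _ _ _ _ ht, Fintype.sum_sum_type, Finset.mul_sum]
  refine le_trans (le_of_eq (Finset.sum_congr rfl fun i _ => ?_))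
    (le_add_of_nonneg_right (Finset.sum_nonneg fun a _ => mul_nonneg ?_ (sq_nonneg _)))
  · simp only [cw, col, ω, kf, X, dotProduct_comm x]; ring
  · show (0 : ℝ) ≤ (1 / 32) ^ c.L
    positivity

theorem le_PP {x y : ℝ} (hy : 0 ≤ y) (h : c.κ * x ≤ 52800 * y) : x ≤ PP c.κ * y := by
  refine le_trans ?_ (mul_le_mul_of_nonneg_right c.PP_ge hy)
  rw [div_mul_eq_mul_div, le_div_iff₀ c.κ0]; linarith

/-- Check on the expensive part. -/
theorem checkE {M : ℝ} (hM : 0 ≤ M) {T : ℝ} (hT : 0 < T) (l : ℕ) {a : ℕ} (ha : a ≤ n) :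
    Enf M (fun i => (1 / 2 : ℝ) ^ c.kf n i)
      {θ | √(c.En n l a (θ - hi (c.kf n) l θ)) ≤
        M * √(PP c.κ * (min 1 (c.ν l a) * c.ν l a)) + 2 * √T}
      ((1 / 2 : ℝ) ^ l * (PP c.κ * (min 1 (c.ν l a) * c.ν l a)) / T) := by
  have hE := (c.hyp l a).psd.res_psd.isEucl
    (c.X n a ∘ₗ (LinearMap.id - Chain.hiL (c.kf n) l))
  have hy : 0 ≤ min 1 (c.ν l a) * c.ν l a :=
    mul_nonneg (le_min zero_le_one (c.ν_pos l a).le) (c.ν_pos l a).le
  have key := c.le_PP hy ((c.bd a).sum_res_le c.κ0.le _ (c.kf n) (c.cov1 n ha) (c.cov2 n ha) l)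
  have hpos : ∀ i : Fin n, 0 ≤ c.En n l a (Pi.single i 1) := fun i => (c.hyp l a).psd.res_pos _
  have hF : ∀ i : Fin n, √(c.En n l a (Pi.single i 1 - hi (c.kf n) l (Pi.single i 1))) ^ 2 =
      if c.kf n i ≤ l then c.En n l a (Pi.single i 1) else 0 := fun i => by
    rw [Chain.hi_single]
    by_cases h : c.kf n i ≤ l
    · rw [if_neg (by omega), if_pos h, sub_zero, Real.sq_sqrt (hpos i)]
    · rw [if_pos (by omega), if_neg h, sub_self]; simp [En]
  refine Enf.single' hM _ hE hT (le_trans (Finset.sum_le_sum fun i _ => ?_) key) ?_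
  · refine (hF i).le.trans ?_
    split_ifs
    · exact le_mul_of_one_le_left (hpos i) (one_le_pow₀ (by norm_num))
    · simp
  · refine le_trans (le_of_eq ?_) (mul_le_mul_of_nonneg_left key (by positivity))
    rw [cost, Finset.mul_sum]
    refine Finset.sum_congr rfl fun i _ => ?_
    refine (congrArg _ (hF i)).trans ?_
    split_ifs with h
    · obtain ⟨j, hj⟩ := Nat.exists_eq_add_of_le h
      have : (1 / 2 : ℝ) ^ j * 2 ^ j = 1 := by rw [← mul_pow]; norm_num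
      rw [← mul_assoc, hj, Nat.add_sub_cancel_left, pow_add, mul_assoc _ _ ((2 : ℝ) ^ j), this,
        mul_one, ← hj]
      rfl
    · simp

/-- Check on the cheap part. -/
theorem checkZ {M : ℝ} (hM : 0 ≤ M) {T : ℝ} (hT : 0 < T) (l : ℕ) {a : ℕ} (ha : a ≤ n) :
    Enf M (fun i => (1 / 2 : ℝ) ^ c.kf n i)
      {θ | ‖c.Zv n l a (c.X n a (hi (c.kf n) l θ))‖ ≤
        M * √(PP c.κ * (min 1 (c.ν l a) * c.ν l a)) + 2 * √T}
      ((1 / 2 : ℝ) ^ l * (PP c.κ * (min 1 (c.ν l a) * c.ν l a)) / T) := by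
  have hE := isEucl_norm (c.Zv n l a ∘ₗ c.X n a ∘ₗ Chain.hiL (c.kf n) l)
  have hy : 0 ≤ min 1 (c.ν l a) * c.ν l a :=
    mul_nonneg (le_min zero_le_one (c.ν_pos l a).le) (c.ν_pos l a).le
  have key := c.le_PP hy ((c.bd a).sum_psi_le _ (c.cov1 n ha) l)
  have hpos : ∀ i : Fin n, 0 ≤ psi (c.H l a) (c.X n a (Pi.single i 1)) := fun i =>
    (c.hyp l a).psd.psi_nonneg _
  have hF : ∀ i : Fin n, ‖c.Zv n l a (c.X n a (hi (c.kf n) l (Pi.single i 1)))‖ ^ 2 =
      if l < c.kf n i then psi (c.H l a) (c.X n a (Pi.single i 1)) else 0 := fun i => by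
    rw [Chain.hi_single]
    split_ifs
    · exact c.Zv_norm_sq n l ha _
    · simp
  refine Enf.single' hM _ hE hT (le_trans (Finset.sum_le_sum fun i _ => ?_) key) ?_
  · refine (hF i).le.trans ?_
    split_ifs
    · exact le_rfl
    · exact hpos i
  · refine le_trans ?_ (mul_le_mul_of_nonneg_left key (by positivity))
    rw [cost, Finset.mul_sum]
    refine Finset.sum_le_sum fun i _ => ?_
    refine (congrArg _ (hF i)).le.trans ?_
    split_ifs with h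
    · exact mul_le_mul_of_nonneg_right
        (pow_le_pow_of_le_one (by norm_num) (by norm_num) h.le) (hpos i)
    · rw [mul_zero]; exact mul_nonneg (by positivity) (hpos i)

section epoch

variable {l a b : ℕ} (hb : b ≤ n) (hτ : ∑ s ∈ Ico a b, c.τ n l a s < 1)
include hτ

theorem τ_lt {s : ℕ} (hs : s ∈ Ico a b) : c.τ n l a s < 1 :=
  lt_of_le_of_lt (Finset.single_le_sum (f := c.τ n l a) (fun s _ => c.τ_nonneg n l a s) hs) hτ

theorem lt_k {s : ℕ} (hs : s ∈ Ico a b) : l < c.k s := by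
  by_contra h
  have h1 := (c.quarter_le_τ n l a s).trans_lt (c.τ_lt n hτ hs)
  rw [show c.k s - l = 0 by omega, pow_zero] at h1
  exact lt_irrefl _ h1

theorem sum_τ_le {t : ℕ} (ht : t ≤ b) : ∑ s ∈ Ico a t, c.τ n l a s ≤ 1 :=
  (Finset.sum_le_sum_of_subset_of_nonneg (Ico_subset_Ico_right ht)
    fun s _ _ => c.τ_nonneg n l a s).trans hτ.le

theorem sum_act_le {t : ℕ} (ht : t ≤ b) : 10 * ∑ s ∈ Ico a t, c.act l s ≤ c.ν l a := by
  rw [Finset.mul_sum]
  refine (Finset.sum_le_sum fun s _ => c.act_le_τ n l a s).trans ?_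
  rw [← Finset.mul_sum]
  exact mul_le_of_le_one_right (c.ν_pos l a).le (c.sum_τ_le n hτ ht)

theorem ν_close {t : ℕ} (hat : a ≤ t) (ht : t ≤ b) : |c.ν l t - c.ν l a| ≤ c.ν l a / 2 := by
  have h1 : |c.ν l t - c.ν l a| ≤ 5 * ∑ s ∈ Ico a t, c.act l s := by
    rw [← Finset.sum_Ico_sub (c.ν l) hat, Finset.mul_sum]
    exact (Finset.abs_sum_le_sum_abs _ _).trans (Finset.sum_le_sum fun s _ => c.ν_step l s)
  have := c.sum_act_le n hτ ht
  linarith

include hb in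
theorem q_le {s : ℕ} (hs : s ∈ Ico a b) :
    ‖c.q n l s‖ ^ 2 ≤ PP c.κ * (min 1 (c.ν l a) * c.ν l a) * c.τ n l a s := by
  have hs' := mem_Ico.1 hs
  have hκ := c.κ0
  have hκ1 := c.κ1
  have hν := c.ν_pos l a
  have h1 := c.q_norm_sq n (lt_of_lt_of_le hs'.2 hb) (c.lt_k n hτ hs)
  have h2 := c.psi_le_act l s
  have h3 := c.act_le_τ n l a s
  have h4 := c.wt_le_act l s
  have h5 := (abs_le.1 (c.ν_close n hτ hs'.1 hs'.2.le)).2
  have hτ0 := c.τ_nonneg n l a s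
  have hτ1 := c.τ_lt n hτ hs
  have ha0 := c.act_nonneg l s
  set f := min 1 (c.ν l a) with hf
  have hf0 : 0 ≤ f := le_min zero_le_one hν.le
  have h6 : min 1 (c.ν l s) ≤ 2 * f := by
    rcases le_total 1 (c.ν l a) with h | h
    · rw [hf, min_eq_left h]; exact (min_le_left _ _).trans (by norm_num)
    · rw [hf, min_eq_right h]; exact (min_le_right _ _).trans (by linarith)
  have h7 : wt l (c.k s) ≤ f := le_min (wt_le_one _ _) (by nlinarith)
  have hy : 0 ≤ c.ν l a * c.τ n l a s := mul_nonneg hν.le hτ0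
  have h8 : f * c.act l s ≤ f * (c.ν l a * c.τ n l a s) / 10 := by
    have := mul_le_mul_of_nonneg_left h3 hf0; linarith
  have h9 : wt l (c.k s) ^ 2 ≤ f * c.act l s := by
    rw [sq]; exact mul_le_mul h7 h4 (wt_pos _ _).le hf0
  have h10 : psi (c.H l s) (c.v s) ≤ 105600 * (f * c.act l s) := by
    have := mul_le_mul_of_nonneg_right h6 ha0; linarith
  have hz : 0 ≤ f * (c.ν l a * c.τ n l a s) := mul_nonneg hf0 hy
  have hk2 : c.κ ^ 2 ≤ 1 := by nlinarith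
  have hp := (c.hyp l s).psd.psi_nonneg (c.v s)
  rw [PP, div_mul_eq_mul_div, div_mul_eq_mul_div, le_div_iff₀ (by positivity)]
  rw [div_pow] at h1
  have h11 := mul_le_mul_of_nonneg_right h1 (sq_nonneg c.κ)
  have h12 : wt l (c.k s) ^ 2 / c.κ ^ 2 * c.κ ^ 2 = wt l (c.k s) ^ 2 := by field_simp
  have h13 := mul_le_of_le_one_right hp hk2
  nlinarith

theorem sum_quarter_le {t : ℕ} (ht : t ≤ b) :
    ∑ s ∈ Ico a t, (1 / 4 : ℝ) ^ (c.k s - l) ≤ √(c.ν l a) := by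
  have h1 : ∑ s ∈ Ico a t, (1 / 4 : ℝ) ^ (c.k s - l) ≤ 1 :=
    (Finset.sum_le_sum fun s _ => c.quarter_le_τ n l a s).trans (c.sum_τ_le n hτ ht)
  have h2 : ∑ s ∈ Ico a t, (1 / 4 : ℝ) ^ (c.k s - l) ≤ ∑ s ∈ Ico a t, c.act l s :=
    Finset.sum_le_sum fun s hs => by
      have h := c.lt_k n hτ (Ico_subset_Ico_right ht hs)
      refine le_trans (le_of_eq ?_) (c.wt_le_act l s)
      unfold wt
      rw [show Nat.dist l (c.k s) = c.k s - l by unfold Nat.dist; omega]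
  have h3 := c.sum_act_le n hτ ht
  have h0 : 0 ≤ ∑ s ∈ Ico a t, (1 / 4 : ℝ) ^ (c.k s - l) :=
    Finset.sum_nonneg fun _ _ => by positivity
  refine Real.le_sqrt_of_sq_le ?_
  nlinarith

end epoch

end Ctx

end Crest.Agent.R239
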