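import Crest.Agent.R239.Level

/-! Enforcing the bound in one epoch, on one level, and on all levels. -/

open Finset Matrix

namespace Crest.Agent.R239

namespace Ctx

variable {d : ℕ} (c : Ctx d) (n : ℕ)

theorem epoch_enf {M C0 : ℝ} (hM : 0 ≤ M) (hC0 : 0 < C0) {l a b : ℕ} (hab : a ≤ b) (hb : b ≤ n)
    (hτ : ∑ s ∈ Ico a b, c.τ n l a s < 1) :
    Enf M (fun i => (1 / 2 : ℝ) ^ c.kf n i)
      {θ | ∀ t ∈ Icc a b, psi (c.H l t) (c.X n t θ) ≤ 2 * K1 c.κ M C0 ^ 2 * c.ν l t}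
      ((1 / 2 : ℝ) ^ l * (38 * PP c.κ / C0) * min 1 (c.ν l a) +
        (∑ i ∈ univ.filter (fun i => l < c.kf n i), (1 / 2 : ℝ) ^ c.kf n i *
          (8 / 9 : ℝ) ^ (c.kf n i - l) * ∑ s ∈ Ico a b, c.ξ n l s (Pi.single i 1) ^ 2) / C0) := by
  have hν := c.ν_pos l a
  have hP := c.PP_pos
  have hκ := c.κ0
  have hf0 : 0 ≤ min 1 (c.ν l a) := le_min zero_le_one hν.le
  have hT : 0 < C0 * c.ν l a := mul_pos hC0 hν
  set π := PP c.κ * (min 1 (c.ν l a) * c.ν l a) with hπ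
  have hπ0 : 0 ≤ π := by positivity
  have hch := chain hM (c.kf n) l a b (c.q n l) (c.ξ n l) (c.τ n l a) (B := 4) (by norm_num) hπ0
    hν hC0 (c.τ_nonneg n l a) hτ (fun s hs => c.q_le n hb hτ hs)
    (fun s _ => by
      have := c.act_div_nonneg l a s
      have : (0 : ℝ) ≤ (1 / 4) ^ (c.k s - l) := by positivity
      show c.μ n l s ≤ _
      unfold τ; linarith)
    (fun θ => le_trans (Finset.sum_le_sum_of_subset_of_nonneg
      (fun s hs => mem_range.2 (lt_of_lt_of_le (mem_Ico.1 hs).2 hb)) fun _ _ _ => sq_nonneg _)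
      (c.bessel n l θ))
  refine (((c.checkE n hM hT l (hab.trans hb)).inter (c.checkZ n hM hT l (hab.trans hb))).inter
    hch).mono ?_ (le_of_eq ?_)
  · rintro θ hθ ⟨⟨h1, h2⟩, h3⟩ t ht
    have ht' := mem_Icc.1 ht
    have h3 := h3 t ht
    simp only [Set.mem_ofPred_eq] at h1 h2
    rw [← hπ] at h1 h2
    have hk : ∀ s ∈ Ico a t, l < c.k s := fun s hs =>
      c.lt_k n hτ (Ico_subset_Ico_right ht'.2 hs)
    -- the expensive part
    have e1 : ‖c.Zv n l t (c.X n t (θ - hi (c.kf n) l θ))‖ ≤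
        √(c.En n l a (θ - hi (c.kf n) l θ)) := by
      refine Real.le_sqrt_of_sq_le ?_
      rw [c.Zv_norm_sq n l (ht'.2.trans hb)]
      refine (psi_le _ _).trans (c.En_mono n l ht'.1 _ fun s hs => ?_)
      have hsn : s < n := lt_of_lt_of_le (mem_Ico.1 hs).2 (ht'.2.trans hb)
      rw [extL_of_lt hsn]
      have : l < c.kf n ⟨s, hsn⟩ := hk s hs
      simp [hi, this]
    -- the deterministic part
    have e2 : ‖∑ s ∈ Ico a t, (extL n s (hi (c.kf n) l θ) / kw c.κ (c.w l s) (c.v s)) •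
        c.nv n l s‖ ≤ M / c.κ * √(c.ν l a) := by
      refine (norm_sum_le _ _).trans (le_trans (Finset.sum_le_sum fun s hs => ?_)
        (le_trans (le_of_eq (Finset.mul_sum _ _ _).symm)
          (mul_le_mul_of_nonneg_left (c.sum_quarter_le n hτ ht'.2) (by positivity))))
      have hsn : s < n := lt_of_lt_of_le (mem_Ico.1 hs).2 (ht'.2.trans hb)
      refine c.nv_le n hsn (hk s hs) hM ?_
      rw [extL_of_lt hsn]
      unfold hi
      split_ifs
      · exact hθ _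
      · simpa using hM
    have e3 : c.Zv n l t (c.X n t θ) = c.Zv n l t (c.X n t (θ - hi (c.kf n) l θ)) +
        c.Zv n l t (c.X n t (hi (c.kf n) l θ)) := by
      rw [← map_add, ← map_add, sub_add_cancel]
    have e4 := c.Z_sum n l ht'.1 hk (hi (c.kf n) l θ)
    have hπ1 : π ≤ PP c.κ * c.ν l a :=
      mul_le_mul_of_nonneg_left (mul_le_of_le_one_left hν.le (min_le_left _ _)) hP.le
    have s1 : √π ≤ √(PP c.κ) * √(c.ν l a) := by
      rw [← Real.sqrt_mul hP.le]; exact Real.sqrt_le_sqrt hπ1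
    have s2 : √(4 * π) ≤ √(4 * PP c.κ) * √(c.ν l a) := by
      rw [← Real.sqrt_mul (by positivity)]; exact Real.sqrt_le_sqrt (by linarith)
    have s3 : √(C0 * c.ν l a) = √C0 * √(c.ν l a) := Real.sqrt_mul hC0.le _
    have s4 := mul_le_mul_of_nonneg_left s1 hM
    have s5 := mul_le_mul_of_nonneg_left s2 hM
    have s6 := mul_le_mul_of_nonneg_right s1 (show 0 ≤ M + 2 * √C0 by positivity)
    have e5 : ‖c.Zv n l t (c.X n t θ)‖ ≤ K1 c.κ M C0 * √(c.ν l a) := by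
      rw [e3]
      refine (norm_add_le _ _).trans ?_
      rw [e4]
      have e6 := norm_add₃_le (a := c.Zv n l a (c.X n a (hi (c.kf n) l θ)))
        (b := ∑ s ∈ Ico a t, c.ξ n l s (hi (c.kf n) l θ) • c.q n l s)
        (c := ∑ s ∈ Ico a t, (extL n s (hi (c.kf n) l θ) / kw c.κ (c.w l s) (c.v s)) • c.nv n l s)
      rw [s3] at h1 h2 h3
      unfold K1
      linarith
    have e7 := pow_le_pow_left₀ (norm_nonneg _) e5 2
    rw [c.Zv_norm_sq n l (ht'.2.trans hb), mul_pow, Real.sq_sqrt hν.le] at e7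
    have e8 := (abs_le.1 (c.ν_close n hτ ht'.1 ht'.2)).1
    have e9 := mul_le_mul_of_nonneg_left (show c.ν l a ≤ 2 * c.ν l t by linarith)
      (sq_nonneg (K1 c.κ M C0))
    linarith
  · rw [hπ]
    field_simp
    ring

theorem sum_mass_le (l : ℕ) (x : Fin n → ℝ) (hx : ∀ i, 0 ≤ x i) :
    ∑ s ∈ range n, ∑ i ∈ univ.filter (fun i => l < c.kf n i),
      x i * c.ξ n l s (Pi.single i 1) ^ 2 ≤ 4 * ∑ i, x i := by
  rw [Finset.sum_comm, Finset.mul_sum]
  refine le_trans (Finset.sum_le_sum fun i _ => ?_) (Finset.sum_le_sum_of_subset_of_nonneg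
    (filter_subset _ _) fun i _ _ => mul_nonneg (by norm_num) (hx i))
  rw [← Finset.mul_sum, mul_comm 4]
  refine mul_le_mul_of_nonneg_left ((c.bessel n l _).trans (le_of_eq ?_)) (hx i)
  rw [Finset.sum_eq_single i] <;> simp +contextual

theorem level_enf {M C0 : ℝ} (hM : 0 ≤ M) (hC0 : 0 < C0) (l : ℕ) :
    Enf M (fun i => (1 / 2 : ℝ) ^ c.kf n i)
      {θ | ∀ t ≤ n, psi (c.H l t) (c.X n t θ) ≤ 2 * K1 c.κ M C0 ^ 2 * c.ν l t}
      ((1 / 2 : ℝ) ^ l * (38 * PP c.κ / C0) * (1 + (10 * ∑ s ∈ range n, c.act l s +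
          ∑ i, (1 / 4 : ℝ) ^ (c.kf n i - l) + 4 * ∑ i, (4 / 9 : ℝ) ^ (c.kf n i - l))) +
        4 * (∑ i, (1 / 2 : ℝ) ^ l * (4 / 9 : ℝ) ^ (c.kf n i - l)) / C0) := by
  obtain ⟨S, fin, h1, h2, h3, h4⟩ := epochs n (c.τ n l) (c.τ_nonneg n l)
  have hP := c.PP_pos
  refine (Enf.biInter S _ _ fun a ha =>
    c.epoch_enf n hM hC0 (h1 a ha).1 (h1 a ha).2.1 (h1 a ha).2.2).mono ?_ ?_
  · intro θ _ h t ht
    obtain ⟨a, ha, h5⟩ := h2 t ht
    exact h a ha t (mem_Icc.2 h5)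
  rw [Finset.sum_add_distrib, ← Finset.mul_sum, ← Finset.sum_div]
  refine add_le_add (mul_le_mul_of_nonneg_left ?_ (by positivity))
    (div_le_div_of_nonneg_right ?_ hC0.le)
  · refine (h4 (fun a => min 1 (c.ν l a))
      (fun s => 10 * c.act l s + (1 / 4) ^ (c.k s - l) + c.μ n l s)
      (fun a => ⟨le_min zero_le_one (c.ν_pos l a).le, min_le_left _ _⟩)
      (fun s => add_nonneg (add_nonneg (mul_nonneg (by norm_num) (c.act_nonneg l s))
        (by positivity)) (c.μ_nonneg n l s)) (fun a s => ?_)).trans ?_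
    · have hν := c.ν_pos l a
      have e1 : min 1 (c.ν l a) * (10 * c.act l s / c.ν l a) ≤ 10 * c.act l s := by
        refine (mul_le_mul_of_nonneg_right (min_le_right _ _) (c.act_div_nonneg l a s)).trans
          (le_of_eq ?_)
        field_simp
      have e2 : min 1 (c.ν l a) * ((1 / 4) ^ (c.k s - l) + c.μ n l s) ≤
          (1 / 4) ^ (c.k s - l) + c.μ n l s :=
        mul_le_of_le_one_left (add_nonneg (by positivity) (c.μ_nonneg n l s)) (min_le_left _ _)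
      unfold τ; linarith
    · rw [Finset.sum_add_distrib, Finset.sum_add_distrib, ← Finset.mul_sum,
        ← Fin.sum_univ_eq_sum_range (fun s => (1 / 4 : ℝ) ^ (c.k s - l))]
      have := c.sum_mass_le n l (fun i => (4 / 9 : ℝ) ^ (c.kf n i - l)) fun i => by positivity
      unfold μ kf at *
      linarith
  · have e1 : ∀ a, ∑ i ∈ univ.filter (fun i => l < c.kf n i), (1 / 2 : ℝ) ^ c.kf n i *
          (8 / 9 : ℝ) ^ (c.kf n i - l) * ∑ s ∈ Ico a (fin a), c.ξ n l s (Pi.single i 1) ^ 2 =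
        ∑ s ∈ Ico a (fin a), ∑ i ∈ univ.filter (fun i => l < c.kf n i),
          (1 / 2 : ℝ) ^ l * (4 / 9 : ℝ) ^ (c.kf n i - l) * c.ξ n l s (Pi.single i 1) ^ 2 := by
      intro a
      rw [Finset.sum_comm]
      refine Finset.sum_congr rfl fun i hi => ?_
      rw [← Finset.mul_sum]
      congr 1
      obtain ⟨j, hj⟩ := Nat.exists_eq_add_of_le (mem_filter.1 hi).2.le
      rw [hj, Nat.add_sub_cancel_left, pow_add, mul_assoc, ← mul_pow]
      norm_num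
    simp only [e1]
    exact (h3 _ fun s => Finset.sum_nonneg fun _ _ => by positivity).trans
      (c.sum_mass_le n l _ fun i => by positivity)

end Ctx

/-- A constant. -/
noncomputable def K2 (κ : ℝ) : ℝ := 38 * PP κ * (71 + 360 / κ) + 68

namespace Ctx

variable {d : ℕ} (c : Ctx d) (n : ℕ)

theorem state_enf {M C0 : ℝ} (hM : 0 ≤ M) (hC0 : 0 < C0) (hdL : (d : ℝ) * (1 / 2) ^ c.L ≤ 1) :
    Enf M (fun i => (1 / 2 : ℝ) ^ c.kf n i)
      {θ | ∀ t ≤ n, c.X n t θ ⬝ᵥ c.X n t θ ≤ 240 * K1 c.κ M C0 ^ 2 * d}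
      (K2 c.κ / C0 * (1 + ∑ i, (1 / 2 : ℝ) ^ c.kf n i)) := by
  have hP := c.PP_pos
  have hκ := c.κ0
  refine (Enf.biInter (range (c.L + 1)) _ _ fun l _ => c.level_enf n hM hC0 l).mono ?_ ?_
  · intro θ _ h t ht
    have h1 := (c.bd t).dot_le_sum_psi (c.X n t θ)
    have h2 := Finset.sum_le_sum fun l hl => h l hl t ht
    rw [← Finset.mul_sum] at h2
    have h3 := mul_le_mul_of_nonneg_left (c.bd t).sum_nuS_le
      (show 0 ≤ 2 * K1 c.κ M C0 ^ 2 by positivity)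
    unfold ν H at *
    linarith
  set W := ∑ i, (1 / 2 : ℝ) ^ c.kf n i with hW
  have hW0 : 0 ≤ W := Finset.sum_nonneg fun _ _ => by positivity
  have a0 : ∑ l ∈ range (c.L + 1), (1 / 2 : ℝ) ^ l ≤ 2 :=
    (geom_le (by norm_num) (by norm_num) _).trans (by norm_num)
  have a1 : ∑ l ∈ range (c.L + 1), (1 / 2 : ℝ) ^ l * ∑ s ∈ range n, c.act l s ≤
      36 / c.κ * (1 + W) := by
    have := c.sum_act n hdL
    rw [← Fin.sum_univ_eq_sum_range (fun s => (1 / 2 : ℝ) ^ c.k s)] at this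
    rw [div_mul_eq_mul_div, le_div_iff₀ hκ, mul_comm]
    refine this.trans ?_
    show 18 + 36 * W ≤ _
    linarith
  have a2 : ∑ l ∈ range (c.L + 1), (1 / 2 : ℝ) ^ l * ∑ i, (1 / 4 : ℝ) ^ (c.kf n i - l) ≤
      3 * W := by
    simp only [hW, Finset.mul_sum]
    rw [Finset.sum_comm]
    exact Finset.sum_le_sum fun i _ => sum_quarter _ _
  have a3 : ∑ l ∈ range (c.L + 1), (1 / 2 : ℝ) ^ l * ∑ i, (4 / 9 : ℝ) ^ (c.kf n i - l) ≤
      17 * W := by
    simp only [hW, Finset.mul_sum]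
    rw [Finset.sum_comm]
    exact Finset.sum_le_sum fun i _ => sum_four_ninth _ _
  have e : ∀ l, (1 / 2 : ℝ) ^ l * (38 * PP c.κ / C0) * (1 + (10 * ∑ s ∈ range n, c.act l s +
          ∑ i, (1 / 4 : ℝ) ^ (c.kf n i - l) + 4 * ∑ i, (4 / 9 : ℝ) ^ (c.kf n i - l))) +
        4 * (∑ i, (1 / 2 : ℝ) ^ l * (4 / 9 : ℝ) ^ (c.kf n i - l)) / C0 =
      (38 * PP c.κ / C0) * ((1 / 2 : ℝ) ^ l + 10 * ((1 / 2 : ℝ) ^ l * ∑ s ∈ range n, c.act l s) +
        (1 / 2 : ℝ) ^ l * ∑ i, (1 / 4 : ℝ) ^ (c.kf n i - l) +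
        4 * ((1 / 2 : ℝ) ^ l * ∑ i, (4 / 9 : ℝ) ^ (c.kf n i - l))) +
      4 / C0 * ((1 / 2 : ℝ) ^ l * ∑ i, (4 / 9 : ℝ) ^ (c.kf n i - l)) := fun l => by
    rw [← Finset.mul_sum]; ring
  rw [Finset.sum_congr rfl fun l _ => e l, Finset.sum_add_distrib, ← Finset.mul_sum,
    ← Finset.mul_sum, Finset.sum_add_distrib, Finset.sum_add_distrib, Finset.sum_add_distrib,
    ← Finset.mul_sum, ← Finset.mul_sum]
  have hq : 0 ≤ 360 / c.κ := by positivity
  have b1 : ∑ l ∈ range (c.L + 1), (1 / 2 : ℝ) ^ l +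
      10 * ∑ l ∈ range (c.L + 1), (1 / 2 : ℝ) ^ l * ∑ s ∈ range n, c.act l s +
      ∑ l ∈ range (c.L + 1), (1 / 2 : ℝ) ^ l * ∑ i, (1 / 4 : ℝ) ^ (c.kf n i - l) +
      4 * ∑ l ∈ range (c.L + 1), (1 / 2 : ℝ) ^ l * ∑ i, (4 / 9 : ℝ) ^ (c.kf n i - l) ≤
      (71 + 360 / c.κ) * (1 + W) := by
    have : 10 * (36 / c.κ * (1 + W)) = 360 / c.κ * (1 + W) := by ring
    linarith
  have b2 := mul_le_mul_of_nonneg_left b1 (show 0 ≤ 38 * PP c.κ / C0 by positivity)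
  have b3 := mul_le_mul_of_nonneg_left (a3.trans (show 17 * W ≤ 17 * (1 + W) by linarith))
    (show 0 ≤ 4 / C0 by positivity)
  refine (add_le_add b2 b3).trans (le_of_eq ?_)
  unfold K2; ring

end Ctx

end Crest.Agent.R239
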