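import Crest.Agent.R239.Defs

/-! Convexity of the achievable vectors and the minimax step. -/

open Finset

namespace Crest.Agent.R239

theorem sum_prod_sum {A Y₁ Y₂ : Type} [Fintype A] [Fintype Y₁] [Fintype Y₂]
    (f : A × (Y₁ ⊕ Y₂) → ℝ) :
    ∑ x, f x = ∑ x : A × Y₁, f (x.1, Sum.inl x.2) + ∑ x : A × Y₂, f (x.1, Sum.inr x.2) := by
  simp only [Fintype.sum_prod_type, Fintype.sum_sum_type, sum_add_distrib]

theorem good_convex {ι Z : Type} [Fintype ι] [DecidableEq ι] [Fintype Z]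
    (sh : Z ≃ Z) (g : Z → ℝ) {K : Set (ι → ℝ)} (hK : Convex ℝ K) :
    Convex ℝ {τ : ι → ℝ | Good sh g K τ} := by
  rw [convex_iff_forall_pos]
  rintro τ₁ ⟨Y₁, i₁, P₁, b₁, o₁, k₁⟩ τ₂ ⟨Y₂, i₂, P₂, b₂, o₂, k₂⟩ a b ha hb hab
  let P : (ι → Z) × (Y₁ ⊕ Y₂) → ℝ := fun x =>
    Sum.elim (fun y => a * P₁ (x.1, y)) (fun y => b * P₂ (x.1, y)) x.2
  have hl : ∀ z y, P (z, Sum.inl y) = a * P₁ (z, y) := fun _ _ => rfl
  have hr : ∀ z y, P (z, Sum.inr y) = b * P₂ (z, y) := fun _ _ => rfl
  refine ⟨Y₁ ⊕ Y₂, inferInstance, P, ⟨?_, ?_, ?_, ?_⟩, ?_, ?_⟩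
  · rintro ⟨z, y | y⟩
    · exact mul_nonneg ha.le (b₁.nonneg _)
    · exact mul_nonneg hb.le (b₂.nonneg _)
  · rw [sum_prod_sum]
    simp only [hl, hr, Prod.mk.eta, ← mul_sum, b₁.total, b₂.total]
    linarith
  · rintro ⟨z, y | y⟩ h
    · exact b₁.ok (z, y) (fun e => h (by rw [hl, e, mul_zero]))
    · exact b₂.ok (z, y) (fun e => h (by rw [hr, e, mul_zero]))
  · funext i
    have e₁ : ∑ x, P₁ x * g (x.1 i) = 0 := congrFun b₁.mean0 i
    have e₂ : ∑ x, P₂ x * g (x.1 i) = 0 := congrFun b₂.mean0 i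
    show ∑ x, P x * g (x.1 i) = 0
    rw [sum_prod_sum]
    simp only [hl, hr, Prod.mk.eta, mul_assoc, ← mul_sum, e₁, e₂]
    simp
  · intro i
    have e : overlap sh P i = a * overlap sh P₁ i + b * overlap sh P₂ i := by
      unfold overlap
      rw [sum_prod_sum, mul_sum, mul_sum]
      congr 1
      · exact sum_congr rfl fun x _ => (mul_min_of_nonneg _ _ ha.le).symm
      · exact sum_congr rfl fun x _ => (mul_min_of_nonneg _ _ hb.le).symm
    rw [e]
    have e₁ := mul_le_mul_of_nonneg_left (o₁ i) ha.le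
    have e₂ := mul_le_mul_of_nonneg_left (o₂ i) hb.le
    simp only [Pi.add_apply, Pi.smul_apply, smul_eq_mul]
    nlinarith
  · intro lam hlam
    have a₁ : Adm P₁ (fun x => lam (x.1, Sum.inl x.2) / a) := by
      refine ⟨fun x => div_nonneg (hlam.nonneg _) ha.le, fun x hx => ?_, fun y => ?_⟩
      · rw [hlam.supp (x.1, Sum.inl x.2) (by rw [hl, Prod.mk.eta, hx, mul_zero]), zero_div]
      · have := hlam.marg (Sum.inl y)
        simp only [hl, ← mul_sum] at this
        rw [← sum_div, this]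
        field_simp
    have a₂ : Adm P₂ (fun x => lam (x.1, Sum.inr x.2) / b) := by
      refine ⟨fun x => div_nonneg (hlam.nonneg _) hb.le, fun x hx => ?_, fun y => ?_⟩
      · rw [hlam.supp (x.1, Sum.inr x.2) (by rw [hr, Prod.mk.eta, hx, mul_zero]), zero_div]
      · have := hlam.marg (Sum.inr y)
        simp only [hr, ← mul_sum] at this
        rw [← sum_div, this]
        field_simp
    have e : mean g lam = a • mean g (fun x : (ι → Z) × Y₁ => lam (x.1, Sum.inl x.2) / a) +
        b • mean g (fun x : (ι → Z) × Y₂ => lam (x.1, Sum.inr x.2) / b) := by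
      funext i
      simp only [mean, Pi.add_apply, Pi.smul_apply, smul_eq_mul]
      rw [sum_prod_sum, mul_sum, mul_sum]
      congr 1
      · exact sum_congr rfl fun x _ => by field_simp
      · exact sum_congr rfl fun x _ => by field_simp
    rw [e]
    exact hK (k₁ _ a₁) (k₂ _ a₂) ha.le hb.le hab

theorem minimax {ι : Type} [Fintype ι] {S : Set (ι → ℝ)} (hS : Convex ℝ S) {a b : ℝ}
    (hab : a < b)
    (h : ∀ m : ι → ℝ, (∀ i, 0 < m i) → ∃ τ ∈ S, ∑ i, m i * τ i ≤ a * ∑ i, m i)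
    (h0 : ∀ τ ∈ S, ∀ i, 0 ≤ τ i) :
    ∃ τ ∈ S, ∀ i, τ i ≤ b := by
  classical
  by_contra hc
  push Not at hc
  have hU : ({x : ι → ℝ | ∀ i, x i < b}) = Set.univ.pi (fun _ => Set.Iio b) := by
    ext x; simp
  obtain ⟨f, u, f1, f2⟩ := geometric_hahn_banach_open (s := {x : ι → ℝ | ∀ i, x i < b}) (t := S)
    (by rw [hU]; exact convex_pi fun _ _ => convex_Iio b)
    (by rw [hU]; exact isOpen_set_pi Set.finite_univ fun _ _ => isOpen_Iio) hS
    (by
      rw [Set.disjoint_left]
      intro x hx hxS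
      obtain ⟨i, hi⟩ := hc x hxS
      exact lt_asymm hi (hx i))
  let m : ι → ℝ := fun i => f (Pi.single i 1)
  have hf : ∀ x, f x = ∑ i, m i * x i := by
    intro x
    conv_lhs => rw [pi_eq_sum_univ' x]
    rw [map_sum]
    exact sum_congr rfl fun i _ => by rw [map_smul, smul_eq_mul, mul_comm]
  have hm : ∀ i, 0 ≤ m i := by
    intro i
    by_contra hi
    push Not at hi
    let c : ι → ℝ := fun _ => b - 1
    have hcu : f c < u := f1 c (fun _ => by simp [c])
    have := f1 (c - ((u - f c) / (-m i)) • Pi.single i 1) (fun j => by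
      have h1 : 0 ≤ (u - f c) / (-m i) := div_nonneg (by linarith) (by linarith)
      have h2 : (0 : ℝ) ≤ (Pi.single i 1 : ι → ℝ) j := by
        by_cases hj : j = i
        · subst hj; simp
        · simp [hj]
      have h3 := mul_nonneg h1 h2
      simp only [Pi.sub_apply, Pi.smul_apply, smul_eq_mul, c]
      linarith)
    rw [map_sub, map_smul, smul_eq_mul] at this
    have h4 : (u - f c) / (-m i) * f (Pi.single i 1) = -(u - f c) := by
      have : m i ≠ 0 := hi.ne
      show (u - f c) / (-m i) * m i = _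
      field_simp
    linarith
  set M := ∑ i, m i with hM
  have hM0 : 0 ≤ M := sum_nonneg fun i _ => hm i
  have hconst : ∀ ε : ℝ, 0 < ε → (b - ε) * M < u := by
    intro ε hε
    have := f1 (fun _ => b - ε) (fun _ => by linarith)
    rwa [hf, ← sum_mul, mul_comm] at this
  have hMpos : 0 < M := by
    rcases hM0.eq_or_lt with e | e
    · exfalso
      obtain ⟨τ, hτ, -⟩ := h (fun _ => 1) (fun _ => one_pos)
      have h1 := f2 τ hτ
      have h2 := hconst 1 one_pos
      have h3 : ∀ i, m i = 0 := fun i =>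
        (sum_eq_zero_iff_of_nonneg (fun i _ => hm i)).1 e.symm i (mem_univ i)
      rw [hf] at h1
      simp only [h3, zero_mul, sum_const_zero] at h1
      rw [← e, mul_zero] at h2
      linarith
    · exact e
  set n : ℝ := (Fintype.card ι : ℝ) with hn
  have hn0 : 0 ≤ n := Nat.cast_nonneg _
  have hba : 0 < b - a := by linarith
  set ε := (b - a) / 2 * M / (|a| * n + 1) with hε
  have hε0 : 0 < ε := by positivity
  obtain ⟨τ, hτ, h1⟩ := h (fun i => m i + ε) (fun i => by linarith [hm i])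
  have h2 := f2 τ hτ
  have h3 := hconst ((b - a) / 2) (by positivity)
  rw [hf] at h2
  have h4 : ∑ i, m i * τ i ≤ ∑ i, (m i + ε) * τ i :=
    sum_le_sum fun i _ => mul_le_mul_of_nonneg_right (by linarith) (h0 τ hτ i)
  have h5 : ∑ i, (m i + ε) = M + n * ε := by
    rw [sum_add_distrib, sum_const, card_univ, nsmul_eq_mul]
  rw [h5] at h1
  have h6 : (|a| * n + 1) * ε = (b - a) / 2 * M := by
    rw [hε]; field_simp
  have h7 : a * (n * ε) ≤ |a| * (n * ε) :=
    mul_le_mul_of_nonneg_right (le_abs_self a) (by positivity)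
  nlinarith

end Crest.Agent.R239
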