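import Crest.Agent.R239.Enf

/-! Revealing the rounded values of a family of checks. -/

open Finset

namespace Crest.Agent.R239

namespace Rev

/-- A smooth rounding amplitude. -/
noncomputable def ph (x : ℝ) (N : ℕ) : ℝ := Real.cos (Real.pi / 2 * min 1 |x - N|)

theorem ph_nonneg (x : ℝ) (N : ℕ) : 0 ≤ ph x N := by
  have h0 : 0 ≤ min 1 |x - N| := le_min zero_le_one (abs_nonneg _)
  have h1 : min 1 |x - N| ≤ 1 := min_le_left _ _
  have hpi := Real.pi_pos
  refine Real.cos_nonneg_of_mem_Icc ⟨?_, ?_⟩ <;> nlinarith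

theorem ph_eq_zero {x : ℝ} {N : ℕ} (h : 1 ≤ |x - N|) : ph x N = 0 := by
  rw [ph, min_eq_left h, mul_one, Real.cos_pi_div_two]

theorem abs_lt_of_ph_ne {x : ℝ} {N : ℕ} (h : ph x N ≠ 0) : |x - N| < 1 := by
  by_contra h'
  exact h (ph_eq_zero (not_lt.1 h'))

theorem ph_lip (x x' : ℝ) (N : ℕ) : |ph x N - ph x' N| ≤ 2 * |x - x'| := by
  refine (Real.abs_cos_sub_cos_le _ _).trans ?_
  rw [← mul_sub, abs_mul, abs_of_pos (by positivity : 0 < Real.pi / 2)]
  have h1 : abs (min 1 |x - N| - min 1 |x' - N|) ≤ |x - x'| := by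
    refine (abs_min_sub_min_le_max _ _ _ _).trans (max_le (by simp) ?_)
    refine (abs_abs_sub_abs_le_abs_sub _ _).trans (le_of_eq ?_)
    congr 1
    ring
  have h2 : Real.pi / 2 ≤ 2 := by linarith [Real.pi_le_four]
  exact mul_le_mul h2 h1 (abs_nonneg _) (by norm_num)

theorem ph_support {x : ℝ} (hx : 0 ≤ x) {N : ℕ} (h : ph x N ≠ 0) :
    N = ⌊x⌋₊ ∨ N = ⌊x⌋₊ + 1 := by
  have h1 := abs_lt.1 (abs_lt_of_ph_ne h)
  have h2 := Nat.floor_le hx
  have h3 := Nat.lt_floor_add_one x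
  have h4 : (N : ℝ) < ⌊x⌋₊ + 2 := by linarith [h1.1]
  have h5 : (⌊x⌋₊ : ℝ) < N + 1 := by linarith [h1.2]
  have h4' : N < ⌊x⌋₊ + 2 := by exact_mod_cast h4
  have h5' : ⌊x⌋₊ < N + 1 := by exact_mod_cast h5
  omega

theorem sum_ph_sq {x : ℝ} (hx : 0 ≤ x) {K : ℕ} (hK : x + 1 < K) :
    ∑ N : Fin K, ph x N ^ 2 = 1 := by
  rw [Fin.sum_univ_eq_sum_range (fun N => ph x N ^ 2) K]
  have h2 := Nat.floor_le hx
  have h3 := Nat.lt_floor_add_one x
  have hK' : ⌊x⌋₊ + 1 < K := by
    have : ((⌊x⌋₊ + 1 : ℕ) : ℝ) < K := by push_cast; linarith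
    exact_mod_cast this
  rw [Finset.sum_eq_add_of_mem ⌊x⌋₊ (⌊x⌋₊ + 1) (mem_range.2 (by omega)) (mem_range.2 hK')
    (by omega)]
  · have e1 : min 1 |x - (⌊x⌋₊ : ℕ)| = x - ⌊x⌋₊ := by
      rw [abs_of_nonneg (by linarith), min_eq_right (by linarith)]
    have e2 : min 1 |x - ((⌊x⌋₊ + 1 : ℕ) : ℝ)| = 1 - (x - ⌊x⌋₊) := by
      push_cast
      rw [abs_of_nonpos (by linarith), min_eq_right (by linarith)]
      ring
    rw [ph, ph, e1, e2, mul_sub (Real.pi / 2) 1, mul_one, Real.cos_pi_div_two_sub,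
      Real.cos_sq_add_sin_sq]
  · intro N _ hN
    by_contra h
    have h' : ph x N ≠ 0 := fun h0 => h (by rw [h0]; ring)
    rcases ph_support hx h' with h1 | h1
    · exact hN.1 h1
    · exact hN.2 h1

theorem sum_ph_diff_sq {x x' : ℝ} (hx : 0 ≤ x) (hx' : 0 ≤ x') (K : ℕ) :
    ∑ N : Fin K, (ph x N - ph x' N) ^ 2 ≤ 16 * (x - x') ^ 2 := by
  classical
  rw [Fin.sum_univ_eq_sum_range (fun N => (ph x N - ph x' N) ^ 2) K]
  set S : Finset ℕ := {⌊x⌋₊, ⌊x⌋₊ + 1, ⌊x'⌋₊, ⌊x'⌋₊ + 1} with hS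
  have hcard : S.card ≤ 4 := Finset.card_le_four
  have h1 : ∑ N ∈ range K, (ph x N - ph x' N) ^ 2 =
      ∑ N ∈ range K ∩ S, (ph x N - ph x' N) ^ 2 := by
    symm
    refine Finset.sum_subset inter_subset_left fun N hN hN' => ?_
    have hNS : N ∉ S := fun h => hN' (mem_inter.2 ⟨hN, h⟩)
    have a1 : ph x N = 0 := by
      by_contra h
      rcases ph_support hx h with h | h <;> simp [hS, h] at hNS
    have a2 : ph x' N = 0 := by
      by_contra h
      rcases ph_support hx' h with h | h <;> simp [hS, h] at hNS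
    rw [a1, a2]; ring
  rw [h1]
  have h2 : ∀ N ∈ range K ∩ S, (ph x N - ph x' N) ^ 2 ≤ 4 * (x - x') ^ 2 := by
    intro N _
    have := ph_lip x x' N
    have h3 : |ph x N - ph x' N| ^ 2 ≤ (2 * |x - x'|) ^ 2 := pow_le_pow_left₀ (abs_nonneg _) this 2
    rw [sq_abs, mul_pow, sq_abs] at h3
    linarith
  refine (Finset.sum_le_card_nsmul _ _ _ h2).trans ?_
  rw [nsmul_eq_mul]
  have h4 : ((range K ∩ S).card : ℝ) ≤ 4 := by
    exact_mod_cast (card_le_card inter_subset_right).trans hcard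
  nlinarith [sq_nonneg (x - x')]

theorem aff_ge {x x' : ℝ} (hx : 0 ≤ x) (hx' : 0 ≤ x') {K : ℕ} (hK : x + 1 < K) (hK' : x' + 1 < K) :
    1 - 8 * (x - x') ^ 2 ≤ ∑ N : Fin K, ph x N * ph x' N := by
  have h1 := sum_ph_diff_sq hx hx' K
  have h2 : ∑ N : Fin K, (ph x N - ph x' N) ^ 2 =
      ∑ N : Fin K, ph x N ^ 2 + ∑ N : Fin K, ph x' N ^ 2 - 2 * ∑ N : Fin K, ph x N * ph x' N := by
    rw [Finset.mul_sum, ← Finset.sum_add_distrib, ← Finset.sum_sub_distrib]
    exact Finset.sum_congr rfl fun N _ => by ring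
  rw [h2, sum_ph_sq hx hK, sum_ph_sq hx' hK'] at h1
  linarith

theorem one_sub_sum_le_prod {C : Type} (s : Finset C) (u t : C → ℝ) (hu : ∀ c, 0 ≤ u c)
    (ht : ∀ c, 0 ≤ t c) (h : ∀ c, 1 - t c ≤ u c) : 1 - ∑ c ∈ s, t c ≤ ∏ c ∈ s, u c := by
  classical
  induction s using Finset.induction_on with
  | empty => simp
  | insert c s hc ih =>
    rw [Finset.sum_insert hc, Finset.prod_insert hc]
    have hP : 0 ≤ ∏ c ∈ s, u c := Finset.prod_nonneg fun c _ => hu c
    have hT : 0 ≤ ∑ c ∈ s, t c := Finset.sum_nonneg fun c _ => ht c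
    by_cases h1 : 0 ≤ 1 - t c
    · by_cases h2 : 0 ≤ 1 - ∑ c ∈ s, t c
      · have := mul_le_mul (h c) ih h2 (hu c)
        nlinarith [mul_nonneg (ht c) hT]
      · have := mul_nonneg (hu c) hP
        linarith [ht c]
    · have := mul_nonneg (hu c) hP
      linarith

theorem min_sq_ge (A B : ℝ) :
    (A ^ 2 + B ^ 2) * (1 / 2 - 1 / 24 - 3) + 6 * (A * B) ≤ min (A ^ 2) (B ^ 2) := by
  refine le_min ?_ ?_
  · nlinarith [sq_nonneg (A + B - 12 * (B - A)), sq_nonneg (A - B)]
  · nlinarith [sq_nonneg (A + B - 12 * (A - B)), sq_nonneg (A - B)]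

variable {ι : Type} [Fintype ι] [DecidableEq ι]

omit [DecidableEq ι] in
theorem eucl_sum_le {F : (ι → ℝ) → ℝ} (hF : IsEucl F) {α : Type*} (s : Finset α)
    (v : α → ι → ℝ) : F (∑ x ∈ s, v x) ≤ ∑ x ∈ s, F (v x) := by
  classical
  induction s using Finset.induction_on with
  | empty =>
    have h0 : F 0 = 0 := by simpa using hF.smul 0 0
    simp [h0]
  | insert c s hc ih =>
    rw [Finset.sum_insert hc, Finset.sum_insert hc]
    exact (hF.add_le _ _).trans (by linarith)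

omit [DecidableEq ι] in
theorem eucl_diff_sq {F : (ι → ℝ) → ℝ} (hF : IsEucl F) (u v : ι → ℝ) :
    (F (u + v) - F u) ^ 2 ≤ F v ^ 2 := by
  have h1 := hF.add_le u v
  have h2 := hF.add_le (u + v) ((-1 : ℝ) • v)
  rw [hF.smul] at h2
  have : u + v + (-1 : ℝ) • v = u := by simp
  rw [this] at h2
  simp only [abs_neg, abs_one, one_mul] at h2
  exact sq_le_sq' (by linarith) (by linarith)

variable {Z : Type} [Fintype Z]

/-- Expectation of a product under a product weight, one coordinate singled out. -/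
theorem sum_prod_one (w : Z → ℝ) (hw : ∑ t, w t = 1) (i : ι) (f : Z → ℝ) :
    ∑ z : ι → Z, ∏ j, (if j = i then f (z j) else w (z j)) = ∑ t, f t := by
  rw [← Fintype.prod_sum (fun (j : ι) (t : Z) => if j = i then f t else w t),
    Finset.prod_eq_single i]
  · simp
  · intro j _ hj
    simp [hj, hw]
  · simp

theorem sum_prod_w (w : Z → ℝ) (hw : ∑ t, w t = 1) : ∑ z : ι → Z, ∏ j, w (z j) = 1 := by
  rw [← Fintype.prod_sum (fun (_ : ι) (t : Z) => w t)]
  simp [hw]

theorem sum_prod_mul (w : Z → ℝ) (hw : ∑ t, w t = 1) (i : ι) (f : Z → ℝ) :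
    ∑ z : ι → Z, (∏ j, w (z j)) * f (z i) = ∑ t, w t * f t := by
  rw [← sum_prod_one w hw i (fun t => w t * f t)]
  refine Finset.sum_congr rfl fun z _ => ?_
  rw [← Finset.mul_prod_erase univ _ (mem_univ i), ← Finset.mul_prod_erase univ _ (mem_univ i),
    if_pos rfl]
  have : ∏ j ∈ univ.erase i, (if j = i then w (z j) * f (z j) else w (z j)) =
      ∏ j ∈ univ.erase i, w (z j) :=
    Finset.prod_congr rfl fun j hj => if_neg (ne_of_mem_erase hj)
  rw [this]
  ring

theorem sum_prod_mul_mul (w g : Z → ℝ) (hg : ∑ t, w t * g t = 0) (i j : ι) (hij : i ≠ j) :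
    ∑ z : ι → Z, (∏ l, w (z l)) * (g (z i) * g (z j)) = 0 := by
  have key : ∀ z : ι → Z, (∏ l, w (z l)) * (g (z i) * g (z j)) =
      ∏ l, (w (z l) * ((if l = i then g (z l) else 1) * (if l = j then g (z l) else 1))) := by
    intro z
    rw [Finset.prod_mul_distrib, Finset.prod_mul_distrib]
    simp
  simp only [key]
  rw [← Fintype.prod_sum (fun (l : ι) (t : Z) =>
    w t * ((if l = i then g t else 1) * (if l = j then g t else 1)))]
  refine Finset.prod_eq_zero (mem_univ i) ?_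
  simp [hij, hg]

theorem second_moment {sh : Z ≃ Z} {g a : Z → ℝ} {M δ : ℝ} (ha : Amp sh g a M δ)
    {F : (ι → ℝ) → ℝ} (hF : IsEucl F) :
    ∑ z : ι → Z, (∏ l, a (z l) ^ 2) * F (fun i => g (z i)) ^ 2 ≤ M ^ 2 * hs F := by
  obtain ⟨B, hB⟩ := hF.sq
  have hBi : ∀ i, F (Pi.single i 1) ^ 2 = B i i := by
    intro i
    rw [hB, Finset.sum_eq_single i, Finset.sum_eq_single i]
    · simp
    · intro j _ hj
      simp [hj]
    · simp
    · intro j _ hj
      simp [hj]
    · simp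
  have hV : ∑ t, a t ^ 2 * (g t * g t) ≤ M ^ 2 := by
    calc ∑ t, a t ^ 2 * (g t * g t) ≤ ∑ t, a t ^ 2 * M ^ 2 := by
          refine Finset.sum_le_sum fun t _ => ?_
          by_cases h : a t = 0
          · simp [h]
          · refine mul_le_mul_of_nonneg_left ?_ (sq_nonneg _)
            have := (ha.ok t h).2.2
            rw [← sq, ← sq_abs]
            exact pow_le_pow_left₀ (abs_nonneg _) this 2
      _ = M ^ 2 := by rw [← Finset.sum_mul, ha.total, one_mul]
  have e1 : ∑ z : ι → Z, (∏ l, a (z l) ^ 2) * F (fun i => g (z i)) ^ 2 =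
      ∑ i, ∑ j, (∑ z : ι → Z, (∏ l, a (z l) ^ 2) * (g (z i) * g (z j))) * B i j := by
    simp only [hB, Finset.mul_sum, Finset.sum_mul]
    rw [Finset.sum_comm]
    refine Finset.sum_congr rfl fun i _ => ?_
    rw [Finset.sum_comm]
    refine Finset.sum_congr rfl fun j _ => Finset.sum_congr rfl fun z _ => ?_
    ring
  rw [e1, hs, Finset.mul_sum]
  refine Finset.sum_le_sum fun i _ => ?_
  rw [Finset.sum_eq_single i]
  · rw [sum_prod_mul (fun t => a t ^ 2) ha.total i (fun t => g t * g t), ← hBi]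
    exact mul_le_mul_of_nonneg_right hV (sq_nonneg _)
  · intro j _ hj
    rw [sum_prod_mul_mul (fun t => a t ^ 2) g ha.mean0 i j (Ne.symm hj), zero_mul]
  · simp

theorem first_moment {sh : Z ≃ Z} {g a : Z → ℝ} {M δ : ℝ} (hM : 0 ≤ M) (ha : Amp sh g a M δ)
    {F : (ι → ℝ) → ℝ} (hF : IsEucl F) :
    ∑ z : ι → Z, (∏ l, a (z l) ^ 2) * F (fun i => g (z i)) ≤ M * √(hs F) := by
  have h1 := Finset.sum_mul_sq_le_sq_mul_sq univ (fun z : ι → Z => ∏ l, a (z l))
    (fun z : ι → Z => (∏ l, a (z l)) * F (fun i => g (z i)))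
  have e1 : ∑ z : ι → Z, (∏ l, a (z l)) ^ 2 = 1 := by
    simp only [← Finset.prod_pow]
    exact sum_prod_w (fun t => a t ^ 2) ha.total
  have e2 : ∑ z : ι → Z, ((∏ l, a (z l)) * F (fun i => g (z i))) ^ 2 ≤ M ^ 2 * hs F := by
    simp only [mul_pow, ← Finset.prod_pow]
    exact second_moment ha hF
  have e3 : ∑ z : ι → Z, (∏ l, a (z l)) * ((∏ l, a (z l)) * F (fun i => g (z i))) =
      ∑ z : ι → Z, (∏ l, a (z l) ^ 2) * F (fun i => g (z i)) := by
    refine Finset.sum_congr rfl fun z _ => ?_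
    rw [Finset.prod_pow]
    ring
  rw [e1, e3, one_mul] at h1
  have hhs : 0 ≤ hs F := Finset.sum_nonneg fun i _ => sq_nonneg _
  refine le_of_pow_le_pow_left₀ two_ne_zero (by positivity) ?_
  rw [mul_pow, Real.sq_sqrt hhs]
  exact h1.trans e2

variable {C : Type} [Fintype C] [DecidableEq C]

/-- The joint amplitude. -/
noncomputable def Psi (g a : Z → ℝ) (F : C → (ι → ℝ) → ℝ) (K : ℕ)
    (x : (ι → Z) × (C → Fin K)) : ℝ :=
  (∏ i, a (x.1 i)) * ∏ c, ph (F c (fun i => g (x.1 i))) (x.2 c)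

omit [Fintype Z] [DecidableEq ι] in
theorem sum_Psi_mul (g a : Z → ℝ) (F : C → (ι → ℝ) → ℝ) (K : ℕ) (z z' : ι → Z) :
    ∑ N : C → Fin K, Psi g a F K (z, N) * Psi g a F K (z', N) =
      (∏ i, a (z i)) * (∏ i, a (z' i)) *
        ∏ c, ∑ n : Fin K, ph (F c (fun i => g (z i))) n * ph (F c (fun i => g (z' i))) n := by
  rw [Fintype.prod_sum (fun (c : C) (n : Fin K) =>
    ph (F c (fun i => g (z i))) n * ph (F c (fun i => g (z' i))) n), Finset.mul_sum]
  refine Finset.sum_congr rfl fun N _ => ?_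
  rw [Psi, Psi, Finset.prod_mul_distrib]
  ring

omit [Fintype Z] [DecidableEq ι] in
theorem sum_Psi_sq (g a : Z → ℝ) (F : C → (ι → ℝ) → ℝ) (hF : ∀ c, IsEucl (F c)) (K : ℕ)
    (hK : ∀ c (z : ι → Z), F c (fun i => g (z i)) + 1 < K) (z : ι → Z) :
    ∑ N : C → Fin K, Psi g a F K (z, N) ^ 2 = ∏ i, a (z i) ^ 2 := by
  simp only [sq]
  rw [sum_Psi_mul, Finset.prod_mul_distrib]
  have : ∏ c, ∑ n : Fin K, ph (F c (fun i => g (z i))) n * ph (F c (fun i => g (z i))) n = 1 := by
    refine Finset.prod_eq_one fun c _ => ?_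
    simp only [← sq]
    exact sum_ph_sq ((hF c).nonneg _) (hK c z)
  rw [this, mul_one]

/-- The shift as a permutation of the configuration space. -/
def upEquiv {Y : Type} (sh : Z ≃ Z) (i : ι) : (ι → Z) × Y ≃ (ι → Z) × Y where
  toFun := up sh i
  invFun := up sh.symm i
  left_inv x := by simp [up]
  right_inv x := by simp [up]

theorem affinity {sh : Z ≃ Z} {g a : Z → ℝ} {M δ : ℝ} (ha : Amp sh g a M δ)
    (F : C → (ι → ℝ) → ℝ) (hF : ∀ c, IsEucl (F c)) (K : ℕ)
    (hK : ∀ c (z : ι → Z), F c (fun i => g (z i)) + 1 < K) (i : ι) :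
    1 - (δ + 288 * ∑ c, F c (Pi.single i 1) ^ 2) ≤
      ∑ x : (ι → Z) × (C → Fin K), Psi g a F K (up sh i x) * Psi g a F K (up sh.symm i x) := by
  set S := 288 * ∑ c, F c (Pi.single i 1) ^ 2 with hS
  have hS0 : 0 ≤ S := by positivity
  rw [Fintype.sum_prod_type]
  simp only [up, sum_Psi_mul]
  set α : (ι → Z) → ℝ := fun z => (∏ j, a (Function.update z i (sh (z i)) j)) *
    ∏ j, a (Function.update z i (sh.symm (z i)) j) with hα
  have hα0 : ∀ z, 0 ≤ α z := fun z =>
    mul_nonneg (Finset.prod_nonneg fun j _ => ha.nonneg _)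
      (Finset.prod_nonneg fun j _ => ha.nonneg _)
  have hαsum : ∑ z, α z = ∑ t, a (sh t) * a (sh.symm t) := by
    rw [← sum_prod_one (fun t => a t ^ 2) ha.total i (fun t => a (sh t) * a (sh.symm t))]
    refine Finset.sum_congr rfl fun z _ => ?_
    simp only [hα]
    rw [← Finset.prod_mul_distrib]
    refine Finset.prod_congr rfl fun j _ => ?_
    by_cases hj : j = i
    · subst hj
      simp
    · simp [hj, sq]
  have hA1 : ∑ t, a (sh t) * a (sh.symm t) ≤ 1 := by
    have e1 : ∑ t, a (sh t) ^ 2 = 1 := by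
      rw [← ha.total]; exact Equiv.sum_comp sh (fun t => a t ^ 2)
    have e2 : ∑ t, a (sh.symm t) ^ 2 = 1 := by
      rw [← ha.total]; exact Equiv.sum_comp sh.symm (fun t => a t ^ 2)
    have : ∑ t, a (sh t) * a (sh.symm t) ≤ ∑ t, (a (sh t) ^ 2 + a (sh.symm t) ^ 2) / 2 :=
      Finset.sum_le_sum fun t _ => by nlinarith [sq_nonneg (a (sh t) - a (sh.symm t))]
    rw [← Finset.sum_div, Finset.sum_add_distrib, e1, e2] at this
    linarith
  have key : ∀ z : ι → Z, α z * (1 - S) ≤ α z *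
      ∏ c, ∑ n : Fin K, ph (F c (fun j => g (Function.update z i (sh (z i)) j))) n *
        ph (F c (fun j => g (Function.update z i (sh.symm (z i)) j))) n := by
    intro z
    by_cases h0 : α z = 0
    · simp [h0]
    refine mul_le_mul_of_nonneg_left ?_ (hα0 z)
    have h1 : a (sh (z i)) ≠ 0 := by
      intro h
      apply h0
      simp only [hα]
      rw [Finset.prod_eq_zero (mem_univ i) (by simpa using h), zero_mul]
    have h2 : a (sh.symm (z i)) ≠ 0 := by
      intro h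
      apply h0
      simp only [hα]
      rw [Finset.prod_eq_zero (f := fun j => a (Function.update z i (sh.symm (z i)) j))
        (mem_univ i) (by simpa using h), mul_zero]
    have g1 := (ha.ok _ h1).2.1
    have g2 := (ha.ok _ h2).1
    rw [Equiv.symm_apply_apply] at g1
    rw [Equiv.apply_symm_apply] at g2
    have hvec : (fun j => g (Function.update z i (sh (z i)) j)) =
        (fun j => g (Function.update z i (sh.symm (z i)) j)) + (6 : ℝ) • Pi.single i (1 : ℝ) := by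
      ext j
      by_cases hj : j = i
      · subst hj
        simp
        linarith
      · simp [hj]
    rw [hS, Finset.mul_sum]
    refine one_sub_sum_le_prod univ _ _
      (fun c => Finset.sum_nonneg fun n _ => mul_nonneg (ph_nonneg _ _) (ph_nonneg _ _))
      (fun c => by positivity) fun c => ?_
    refine le_trans ?_ (aff_ge ((hF c).nonneg _) ((hF c).nonneg _) (hK c _) (hK c _))
    have h3 := eucl_diff_sq (hF c) (fun j => g (Function.update z i (sh.symm (z i)) j))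
      ((6 : ℝ) • Pi.single i (1 : ℝ))
    rw [← hvec, (hF c).smul, mul_pow, sq_abs] at h3
    linarith
  refine le_trans ?_ (Finset.sum_le_sum fun z _ => key z)
  rw [← Finset.sum_mul, hαsum]
  have := ha.aff
  nlinarith

end Rev

open Rev in
theorem reveal {ι Z C : Type} [Fintype ι] [DecidableEq ι] [Fintype Z] [Fintype C]
    (sh : Z ≃ Z) (g a : Z → ℝ) (M δ : ℝ) (hM : 0 ≤ M) (ha : Amp sh g a M δ)
    (F : C → (ι → ℝ) → ℝ) (hF : ∀ c, IsEucl (F c)) :
    Good sh g {θ : ι → ℝ | (∀ i, |θ i| ≤ M) ∧ ∀ c, F c θ ≤ M * √(hs (F c)) + 2}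
      (fun i => 1 / 12 + 6 * (δ + 288 * ∑ c, F c (Pi.single i 1) ^ 2)) := by
  classical
  obtain ⟨K, hK⟩ : ∃ K : ℕ, ∀ c (z : ι → Z), F c (fun i => g (z i)) + 1 < K := by
    obtain ⟨b, hb⟩ := (Set.finite_range
      (fun p : C × (ι → Z) => F p.1 (fun i => g (p.2 i)) + 1)).bddAbove
    obtain ⟨K, hK⟩ := exists_nat_gt b
    exact ⟨K, fun c z => (hb ⟨(c, z), rfl⟩).trans_lt hK⟩
  have hmarg := sum_Psi_sq g a F hF K hK
  have htot : ∑ x : (ι → Z) × (C → Fin K), Psi g a F K x ^ 2 = 1 := by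
    rw [Fintype.sum_prod_type]
    simp only [hmarg]
    exact sum_prod_w (fun t => a t ^ 2) ha.total
  have hsupp : ∀ x : (ι → Z) × (C → Fin K), Psi g a F K x ^ 2 ≠ 0 →
      (∀ i, a (x.1 i) ≠ 0) ∧ ∀ c, |F c (fun i => g (x.1 i)) - (x.2 c : ℕ)| < 1 := by
    intro x hx
    have h1 : Psi g a F K x ≠ 0 := fun h => hx (by rw [h]; ring)
    obtain ⟨h2, h3⟩ := mul_ne_zero_iff.1 h1
    exact ⟨fun i => Finset.prod_ne_zero_iff.1 h2 i (mem_univ i),
      fun c => abs_lt_of_ph_ne (Finset.prod_ne_zero_iff.1 h3 c (mem_univ c))⟩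
  refine ⟨C → Fin K, inferInstance, fun x => Psi g a F K x ^ 2,
    ⟨fun x => sq_nonneg _, htot, fun x hx i => ?_, ?_⟩, fun i => ?_, fun lam hlam => ?_⟩
  · exact ⟨(ha.ok _ ((hsupp x hx).1 i)).1, (ha.ok _ ((hsupp x hx).1 i)).2.1⟩
  · ext i
    simp only [mean, Pi.zero_apply]
    rw [Fintype.sum_prod_type]
    simp only [← Finset.sum_mul, hmarg]
    rw [sum_prod_mul (fun t => a t ^ 2) ha.total i g, ha.mean0]
  · have h1 : ∑ x : (ι → Z) × (C → Fin K), Psi g a F K (up sh i x) ^ 2 = 1 := by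
      rw [← htot]
      exact Equiv.sum_comp (upEquiv sh i) (fun x => Psi g a F K x ^ 2)
    have h2 : ∑ x : (ι → Z) × (C → Fin K), Psi g a F K (up sh.symm i x) ^ 2 = 1 := by
      rw [← htot]
      exact Equiv.sum_comp (upEquiv sh.symm i) (fun x => Psi g a F K x ^ 2)
    have h3 := affinity ha F hF K hK i
    have h4 := Finset.sum_le_sum (s := univ) fun (x : (ι → Z) × (C → Fin K)) _ =>
      min_sq_ge (Psi g a F K (up sh i x)) (Psi g a F K (up sh.symm i x))
    rw [Finset.sum_add_distrib, ← Finset.sum_mul, ← Finset.mul_sum, Finset.sum_add_distrib, h1,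
      h2] at h4
    unfold overlap
    linarith
  · have hls : ∀ x, lam x ≠ 0 → Psi g a F K x ^ 2 ≠ 0 := fun x hx h => hx (hlam.supp x h)
    have hmarg' : ∀ f : (C → Fin K) → ℝ,
        ∑ x, lam x * f x.2 = ∑ x : (ι → Z) × (C → Fin K), Psi g a F K x ^ 2 * f x.2 := by
      intro f
      rw [Fintype.sum_prod_type_right, Fintype.sum_prod_type_right]
      refine Finset.sum_congr rfl fun y _ => ?_
      simp only [← Finset.sum_mul]
      rw [hlam.marg y]
    have hl1 : ∑ x, lam x = 1 := by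
      have := hmarg' (fun _ => 1)
      simpa only [mul_one, htot] using this
    refine ⟨fun i => ?_, fun c => ?_⟩
    · refine (Finset.abs_sum_le_sum_abs _ _).trans ?_
      calc ∑ x, |lam x * g (x.1 i)| ≤ ∑ x, lam x * M := by
            refine Finset.sum_le_sum fun x _ => ?_
            by_cases hx : lam x = 0
            · simp [hx]
            · rw [abs_mul, abs_of_nonneg (hlam.nonneg x)]
              exact mul_le_mul_of_nonneg_left (ha.ok _ ((hsupp x (hls x hx)).1 i)).2.2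
                (hlam.nonneg x)
        _ = M := by rw [← Finset.sum_mul, hl1, one_mul]
    · have e1 : mean g lam = ∑ x, lam x • fun i => g (x.1 i) := by
        ext i
        simp [mean]
      rw [e1]
      refine (eucl_sum_le (hF c) _ _).trans ?_
      calc ∑ x, F c (lam x • fun i => g (x.1 i))
          ≤ ∑ x : (ι → Z) × (C → Fin K), lam x * (((x.2 c : ℕ) : ℝ) + 1) := by
            refine Finset.sum_le_sum fun x _ => ?_
            rw [(hF c).smul, abs_of_nonneg (hlam.nonneg x)]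
            by_cases hx : lam x = 0
            · simp [hx]
            · refine mul_le_mul_of_nonneg_left ?_ (hlam.nonneg x)
              linarith [(abs_lt.1 ((hsupp x (hls x hx)).2 c)).2]
        _ = ∑ x : (ι → Z) × (C → Fin K), Psi g a F K x ^ 2 * (((x.2 c : ℕ) : ℝ) + 1) :=
            hmarg' (fun y => ((y c : ℕ) : ℝ) + 1)
        _ ≤ ∑ x : (ι → Z) × (C → Fin K), Psi g a F K x ^ 2 * (F c (fun i => g (x.1 i)) + 2) := by
            refine Finset.sum_le_sum fun x _ => ?_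
            by_cases hx : Psi g a F K x ^ 2 = 0
            · simp [hx]
            · refine mul_le_mul_of_nonneg_left ?_ (sq_nonneg _)
              linarith [(abs_lt.1 ((hsupp x hx).2 c)).1]
        _ = ∑ z : ι → Z, (∏ l, a (z l) ^ 2) * F c (fun i => g (z i)) + 2 := by
            simp only [mul_add, Finset.sum_add_distrib, ← Finset.sum_mul, htot, one_mul]
            rw [Fintype.sum_prod_type]
            simp only [← Finset.sum_mul, hmarg]
        _ ≤ M * √(hs (F c)) + 2 := by linarith [first_moment hM ha (hF c)]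

end Crest.Agent.R239
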