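import Crest.Agent.R239.KL
import Crest.Agent.R239.Lat
import Crest.Agent.R239.Reveal
import Crest.Agent.R239.Minimax

/-! From cheap enforcement to a causal rounding. -/

open Finset

namespace Crest.Agent.R239

theorem reduction : ∃ M c0 : ℝ, 0 < c0 ∧ 1 ≤ M ∧ ∀ (n : ℕ) (K : Set (Fin n → ℝ)),
    Convex ℝ K → ∀ c : Fin n → (Fin n → ℝ) → ℝ,
    (∀ i x y, (∀ j, j < i → x j = y j) → c i x = c i y) → (∀ x ∈ K, ∀ i, |c i x| ≤ 1 / 2) →
    (∀ m : Fin n → ℝ, (∀ i, 0 < m i) → Enf M m K (c0 * ∑ i, m i)) →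
    ∃ θ ∈ K, ∀ i, θ i + c i θ = 1 ∨ θ i + c i θ = -1 := by
  obtain ⟨Z, iZ, sh, g, a, M, hM, ha⟩ := lat_exists
  refine ⟨M, 1 / 30000, by norm_num, hM, fun n K hK c hc hb hE => ?_⟩
  have hS : Convex ℝ ({τ : Fin n → ℝ | Good sh g K τ} ∩ Set.Ici 0) :=
    (good_convex sh g hK).inter (convex_Ici 0)
  obtain ⟨τ, ⟨⟨Y, iY, P, hP, hov, hK'⟩, -⟩, hτ⟩ := minimax hS (a := 3 / 20) (b := 1 / 6)
    (by norm_num) (fun m hm => by
      obtain ⟨C, iC, F, hF, hcost, hθ⟩ := hE m hm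
      obtain ⟨Y, iY, P, hP, hov, hK'⟩ := reveal sh g a M (1 / 1000) (by linarith) ha F hF
      refine ⟨fun i => 1 / 12 + 6 * (1 / 1000 + 288 * ∑ c, F c (Pi.single i 1) ^ 2),
        ⟨⟨Y, iY, P, hP, hov, fun lam hl => hθ _ (hK' lam hl).1 (hK' lam hl).2⟩, fun i => ?_⟩, ?_⟩
      · have : 0 ≤ ∑ c, F c (Pi.single i 1) ^ 2 := Finset.sum_nonneg fun _ _ => sq_nonneg _
        show (0 : ℝ) ≤ _
        positivity
      · have e : ∑ i, m i * (1 / 12 + 6 * (1 / 1000 + 288 * ∑ c, F c (Pi.single i 1) ^ 2)) =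
            (1 / 12 + 6 / 1000) * ∑ i, m i + 1728 * ∑ c, cost m (F c) := by
          simp only [cost]
          rw [Finset.sum_comm, Finset.mul_sum, Finset.mul_sum, ← Finset.sum_add_distrib]
          refine Finset.sum_congr rfl fun i _ => ?_
          rw [← Finset.mul_sum]; ring
        have : 0 ≤ ∑ i, m i := Finset.sum_nonneg fun i _ => (hm i).le
        rw [e]; linarith)
    (fun τ hτ i => hτ.2 i)
  obtain ⟨lam, hl, h⟩ := kl sh g n Y P hP (fun i => by have := hov i; have := hτ i; linarith) c hc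
    (fun lam hl => hb _ (hK' lam hl))
  exact ⟨_, hK' lam hl, h⟩

end Crest.Agent.R239
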