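import Crest.Agent.R239.Level2
import Crest.Agent.R239.Reduction

/-! Final assembly for row 239. -/

open Finset Matrix

namespace Crest.Agent.R239

variable {d : ℕ}

/-- The feedback as a linear functional. -/
noncomputable def fb (n : ℕ) (κ : ℝ) (v : ℕ → Fin d → ℝ) (s : ℕ) : (Fin n → ℝ) →ₗ[ℝ] ℝ where
  toFun θ := -(κ * (v s ⬝ᵥ XL n κ v s θ))
  map_add' x y := by simp only [map_add, dotProduct_add]; ring
  map_smul' r x := by simp only [map_smul, dotProduct_smul, smul_eq_mul, RingHom.id_apply]; ring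

theorem fb_sq (n : ℕ) (κ : ℝ) (v : ℕ → Fin d → ℝ) (s : ℕ) (θ : Fin n → ℝ) :
    ‖fb n κ v s θ‖ ^ 2 = κ * (κ * (v s ⬝ᵥ XL n κ v s θ) ^ 2) := by
  rw [Real.norm_eq_abs, sq_abs]
  show (-(κ * (v s ⬝ᵥ XL n κ v s θ))) ^ 2 = _
  ring

theorem fb_enf (n : ℕ) {κ M : ℝ} {v : ℕ → Fin d → ℝ} (h0 : 0 < κ) (h1 : κ ≤ 1 / 8)
    (hv : ∀ s, v s ⬝ᵥ v s ≤ 1) (hM : 0 ≤ M) (hMκ : M * √κ ≤ 1 / 4) (m : Fin n → ℝ)
    (hm : ∀ i, 0 ≤ m i) :
    Enf M m {θ | ∀ s ∈ range n, ‖fb n κ v s θ‖ ≤ 1 / 2} (64 * κ * ∑ i, m i) := by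
  refine (Enf.biInter (range n) _ _ fun s hs => Enf.single' hM m (isEucl_norm (fb n κ v s))
    (T := 1 / 64) (h := κ) (by norm_num) ?_ le_rfl).mono ?_ ?_
  · simp only [fb_sq, ← Finset.mul_sum, Crest.Agent.R239.hs]
    exact mul_le_of_le_one_right h0.le ((cov_le h0 h1 hv (mem_range.1 hs).le _).trans (hv s))
  · intro θ _ h s hs
    have h2 := h s hs
    have h3 : √(1 / 64 : ℝ) = 1 / 8 := by
      rw [show (1 / 64 : ℝ) = (1 / 8) ^ 2 by norm_num, Real.sqrt_sq (by norm_num)]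
    simp only [Set.mem_ofPred_eq, h3] at h2
    linarith
  · simp only [cost, fb_sq]
    rw [← Finset.sum_div, Finset.sum_comm, div_le_iff₀ (by norm_num), Finset.mul_sum,
      Finset.sum_mul]
    refine Finset.sum_le_sum fun i _ => ?_
    rw [← Finset.mul_sum, ← Finset.mul_sum, ← Finset.mul_sum]
    have := mul_le_mul_of_nonneg_left (feedback_le h0 h1 hv i) (mul_nonneg (hm i) h0.le)
    linarith

theorem K2_pos {κ : ℝ} (h : 0 < κ) : 0 < K2 κ := by unfold K2 PP; positivity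

theorem design (n : ℕ) (hd : 0 < d) {κ M C0 : ℝ} {v : ℕ → Fin d → ℝ} (h0 : 0 < κ)
    (h1 : κ ≤ 1 / 8) (hv : ∀ s, v s ⬝ᵥ v s ≤ 1) (hM : 0 ≤ M) (hC0 : 0 < C0) (m : Fin n → ℝ)
    (hm : ∀ i, 0 < m i) :
    Enf M m {θ | ∀ t ≤ n, XL n κ v t θ ⬝ᵥ XL n κ v t θ ≤ 240 * K1 κ M C0 ^ 2 * d}
      (3 * K2 κ / C0 * ∑ i, m i) := by
  rcases Nat.eq_zero_or_pos n with rfl | hn
  · refine (Enf.univ M m).mono (fun θ _ _ t ht => ?_) (by simp)
    rw [Nat.le_zero.1 ht]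
    simp only [XL, LinearMap.zero_apply, dotProduct_zero]
    positivity
  have : Nonempty (Fin n) := ⟨⟨0, hn⟩⟩
  obtain ⟨i0, hi0⟩ := Finite.exists_max m
  have ha := hm i0
  choose k hk1 hk2 using fun i => exists_nat_pow_near_of_lt_one (div_pos (hm i) ha)
    ((div_le_one ha).2 (hi0 i)) (show (0 : ℝ) < 1 / 2 by norm_num) (by norm_num)
  let c : Ctx d :=
    { κ := κ, v := v, k := fun s => if h : s < n then k ⟨s, h⟩ else 0
      L := univ.sup k + 1 + d, κ0 := h0, κ1 := h1, hv := hv, hd := hd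
      hk := fun s => by
        split_ifs with h
        · have := Finset.le_sup (f := k) (mem_univ ⟨s, h⟩); omega
        · omega }
  have hkf : c.kf n = k := funext fun i => dif_pos i.2
  have hdL : (d : ℝ) * (1 / 2) ^ c.L ≤ 1 := by
    have h2 : (1 / 2 : ℝ) ^ c.L ≤ (1 / 2) ^ d :=
      pow_le_pow_of_le_one (by norm_num) (by norm_num) (Nat.le_add_left _ _)
    have h3 : (d : ℝ) ≤ 2 ^ d := by exact_mod_cast (Nat.lt_two_pow_self).le
    have h4 : (2 : ℝ) ^ d * (1 / 2) ^ d = 1 := by rw [← mul_pow]; norm_num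
    exact (mul_le_mul h3 h2 (by positivity) (by positivity)).trans h4.le
  have h := c.state_enf n hM hC0 hdL
  rw [hkf] at h
  refine (h.weight (m' := m) ha.le fun i => ?_).mono (fun θ _ h => h) ?_
  · have := hk2 i
    rwa [div_le_iff₀ ha, mul_comm] at this
  · have h5 : m i0 ≤ ∑ i, m i := Finset.single_le_sum (fun i _ => (hm i).le) (mem_univ i0)
    have h6 : m i0 * ∑ i, (1 / 2 : ℝ) ^ k i ≤ 2 * ∑ i, m i := by
      rw [Finset.mul_sum, Finset.mul_sum]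
      refine Finset.sum_le_sum fun i _ => ?_
      have := hk1 i
      rw [lt_div_iff₀ ha, pow_succ] at this
      linarith
    have h7 : 0 ≤ K2 κ / C0 := (div_pos (K2_pos h0) hC0).le
    have h8 := mul_le_mul_of_nonneg_left (add_le_add h5 h6) h7
    show m i0 * (K2 κ / C0 * _) ≤ _
    have e : 3 * K2 κ / C0 * ∑ i, m i = K2 κ / C0 * (∑ i, m i + 2 * ∑ i, m i) := by ring
    rw [e]; linarith

theorem main : ∃ C : ℝ, 0 ≤ C ∧ ∀ (d n : ℕ), 0 < d → ∀ v : ℕ → Fin d → ℝ,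
    (∀ s, v s ⬝ᵥ v s ≤ 1) → ∃ η : Fin n → ℝ, (∀ i, η i = 1 ∨ η i = -1) ∧ ∀ t ≤ n,
      ‖(WithLp.toLp 2 (∑ s ∈ range t, extL n s η • v s) : EuclideanSpace ℝ (Fin d))‖ ≤
        C * √d := by
  obtain ⟨M, c0, hc0, hM, hred⟩ := reduction
  have hM0 : 0 < M := by linarith
  set κ : ℝ := min (1 / 8) (min ((1 / (4 * M)) ^ 2) (c0 / 128)) with hκ
  have h0 : 0 < κ := by positivity
  have h1 : κ ≤ 1 / 8 := min_le_left _ _
  have h2 : M * √κ ≤ 1 / 4 := by
    have : √κ ≤ 1 / (4 * M) :=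
      Real.sqrt_le_iff.2 ⟨by positivity, (min_le_right _ _).trans (min_le_left _ _)⟩
    refine (mul_le_mul_of_nonneg_left this hM0.le).trans (le_of_eq ?_)
    field_simp
  have h3 : κ ≤ c0 / 128 := (min_le_right _ _).trans (min_le_right _ _)
  have hK := K2_pos h0
  set C0 : ℝ := 6 * K2 κ / c0 with hC0
  have hC : 0 < C0 := by positivity
  refine ⟨√(240 * K1 κ M C0 ^ 2), Real.sqrt_nonneg _, fun d n hd v hv => ?_⟩
  let T : ℕ → (Fin n → ℝ) →ₗ[ℝ] EuclideanSpace ℝ (Fin d) := fun t =>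
    (WithLp.linearEquiv 2 ℝ (Fin d → ℝ)).symm.toLinearMap ∘ₗ XL n κ v t
  obtain ⟨θ, ⟨hθ1, -⟩, hθ2⟩ := hred n
    ((⋂ t ≤ n, T t ⁻¹' Metric.closedBall 0 (√(240 * K1 κ M C0 ^ 2) * √d)) ∩
      ⋂ s ∈ range n, fb n κ v s ⁻¹' Metric.closedBall 0 (1 / 2))
    ((convex_iInter₂ fun t _ => (convex_closedBall _ _).linear_preimage _).inter
      (convex_iInter₂ fun t _ => (convex_closedBall _ _).linear_preimage _))
    (fun i => fb n κ v i)
    (fun i x y h => by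
      show -(κ * (v i ⬝ᵥ XL n κ v i x)) = -(κ * (v i ⬝ᵥ XL n κ v i y))
      rw [XL_causal κ v i h])
    (fun x hx i => by
      have := Set.mem_iInter₂.1 hx.2 i (mem_range.2 i.2)
      simpa using this)
    (fun m hm => by
      refine ((design n hd h0 h1 hv hM0.le hC m hm).inter
        (fb_enf n h0 h1 hv hM0.le h2 m fun i => (hm i).le)).mono ?_ ?_
      · rintro θ - ⟨ha, hb⟩
        refine ⟨Set.mem_iInter₂.2 fun t ht => ?_, Set.mem_iInter₂.2 fun s hs => ?_⟩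
        · rw [Set.mem_preimage, mem_closedBall_zero_iff, ← Real.sqrt_mul (by positivity)]
          refine Real.le_sqrt_of_sq_le (le_trans (le_of_eq ?_) (ha t ht))
          rw [EuclideanSpace.real_norm_sq_eq]
          simp [T, dotProduct, sq]
        · rw [Set.mem_preimage, mem_closedBall_zero_iff]; exact hb s hs
      · have hs : 0 ≤ ∑ i, m i := Finset.sum_nonneg fun i _ => (hm i).le
        have e : 3 * K2 κ / C0 = c0 / 2 := by rw [hC0]; field_simp; norm_num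
        rw [e]
        nlinarith)
  refine ⟨fun i => θ i + fb n κ v i θ, hθ2, fun t ht => ?_⟩
  have h4 := Set.mem_iInter₂.1 hθ1 t ht
  rw [Set.mem_preimage, mem_closedBall_zero_iff] at h4
  refine le_trans (le_of_eq (congrArg _ ?_)) h4
  show _ = WithLp.toLp 2 (XL n κ v t θ)
  rw [XL_eq_sum]
  congr 1
  refine Finset.sum_congr rfl fun s hs => ?_
  have hsn : s < n := lt_of_lt_of_le (mem_range.1 hs) ht
  rw [extL_of_lt hsn, extL_of_lt hsn]
  rfl

end Crest.Agent.R239
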