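import Mathlib

/-! Scalar estimates for the dyadic design. -/

open Finset

namespace Crest.Agent.R239

/-- Smoothing weight `4^{-|l-l'|}`. -/
noncomputable def wt (l l' : ℕ) : ℝ := (1 / 4 : ℝ) ^ Nat.dist l l'

theorem wt_pos (l l' : ℕ) : 0 < wt l l' := by unfold wt; positivity

theorem wt_le_one (l l' : ℕ) : wt l l' ≤ 1 := pow_le_one₀ (by norm_num) (by norm_num)

theorem wt_succ (l l' : ℕ) : wt l l' ≤ 4 * wt l (l' + 1) := by
  unfold wt
  have h : Nat.dist l (l' + 1) ≤ Nat.dist l l' + 1 := by unfold Nat.dist; omega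
  have := pow_le_pow_of_le_one (show (0 : ℝ) ≤ 1 / 4 by norm_num) (by norm_num) h
  rw [pow_succ] at this
  linarith

theorem geom_le {x : ℝ} (h0 : 0 ≤ x) (h1 : x < 1) (N : ℕ) : ∑ j ∈ range N, x ^ j ≤ 1 / (1 - x) := by
  rw [le_div_iff₀ (by linarith), geom_sum_mul_neg]
  have := pow_nonneg h0 N
  linarith

theorem sum_dist_le {x : ℝ} (h0 : 0 ≤ x) (h1 : x < 1) (N k : ℕ) :
    ∑ l ∈ range N, x ^ Nat.dist l k ≤ (1 + x) / (1 - x) := by
  have hs : ∑ l ∈ range N, x ^ Nat.dist l k ≤ ∑ l ∈ range (k + N), x ^ Nat.dist l k :=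
    Finset.sum_le_sum_of_subset_of_nonneg (range_subset_range.2 (by omega))
      fun _ _ _ => pow_nonneg h0 _
  rw [Finset.sum_range_add, ← Finset.sum_range_reflect] at hs
  have e1 : ∑ j ∈ range k, x ^ Nat.dist (k - 1 - j) k = x * ∑ j ∈ range k, x ^ j := by
    rw [Finset.mul_sum]
    refine Finset.sum_congr rfl fun j hj => ?_
    have := mem_range.1 hj
    rw [← pow_succ']; congr 1; unfold Nat.dist; omega
  have e2 : ∑ j ∈ range N, x ^ Nat.dist (k + j) k = ∑ j ∈ range N, x ^ j :=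
    Finset.sum_congr rfl fun j _ => by congr 1; unfold Nat.dist; omega
  rw [Finset.sum_range_reflect (fun l => x ^ Nat.dist l k) N] at hs
  rw [← Finset.sum_range_reflect (fun l => x ^ Nat.dist l k) k, e1, e2] at hs
  have := mul_le_mul_of_nonneg_left (geom_le h0 h1 k) h0
  have := geom_le h0 h1 N
  rw [add_div]
  have e3 : x * (1 / (1 - x)) = x / (1 - x) := by ring
  linarith

theorem sum_dist_half (N k : ℕ) : ∑ l ∈ range N, (1 / 2 : ℝ) ^ Nat.dist l k ≤ 3 :=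
  (sum_dist_le (by norm_num) (by norm_num) N k).trans (by norm_num)

/-- If `a l ≤ 2^{-k} x^{|l-k|}` termwise. -/
theorem half_mul_le (l k : ℕ) {y : ℝ} (hy0 : 0 ≤ y) :
    (1 / 2 : ℝ) ^ l * (y / 2) ^ (k - l) ≤ (1 / 2 : ℝ) ^ k * max y (1 / 2) ^ Nat.dist l k := by
  rcases le_total l k with h | h
  · obtain ⟨j, rfl⟩ := Nat.exists_eq_add_of_le h
    have e : Nat.dist l (l + j) = j := by unfold Nat.dist; omega
    rw [e, Nat.add_sub_cancel_left, pow_add, mul_assoc]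
    refine mul_le_mul_of_nonneg_left ?_ (by positivity)
    rw [← mul_pow]
    exact pow_le_pow_left₀ (by positivity) (by have := le_max_left y (1 / 2); linarith) _
  · obtain ⟨j, rfl⟩ := Nat.exists_eq_add_of_le h
    have e : Nat.dist (k + j) k = j := by unfold Nat.dist; omega
    rw [e, show k - (k + j) = 0 by omega, pow_zero, mul_one, pow_add]
    refine mul_le_mul_of_nonneg_left ?_ (by positivity)
    exact pow_le_pow_left₀ (by positivity) (le_max_right _ _) _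

theorem sum_quarter (N k : ℕ) :
    ∑ l ∈ range N, (1 / 2 : ℝ) ^ l * (1 / 4 : ℝ) ^ (k - l) ≤ 3 * (1 / 2 : ℝ) ^ k := by
  have h : ∀ l ∈ range N, (1 / 2 : ℝ) ^ l * (1 / 4 : ℝ) ^ (k - l) ≤
      (1 / 2 : ℝ) ^ k * (1 / 2 : ℝ) ^ Nat.dist l k := fun l _ => by
    have := half_mul_le l k (y := 1 / 2) (by norm_num)
    rw [max_self] at this
    convert this using 3; norm_num
  refine (Finset.sum_le_sum h).trans ?_
  rw [← Finset.mul_sum, mul_comm]
  exact mul_le_mul_of_nonneg_right (sum_dist_half N k) (by positivity)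

theorem sum_four_ninth (N k : ℕ) :
    ∑ l ∈ range N, (1 / 2 : ℝ) ^ l * (4 / 9 : ℝ) ^ (k - l) ≤ 17 * (1 / 2 : ℝ) ^ k := by
  have h : ∀ l ∈ range N, (1 / 2 : ℝ) ^ l * (4 / 9 : ℝ) ^ (k - l) ≤
      (1 / 2 : ℝ) ^ k * (8 / 9 : ℝ) ^ Nat.dist l k := fun l _ => by
    have := half_mul_le l k (y := 8 / 9) (by norm_num)
    rw [max_eq_left (by norm_num)] at this
    convert this using 3; norm_num
  refine (Finset.sum_le_sum h).trans ?_
  rw [← Finset.mul_sum, mul_comm]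
  refine mul_le_mul_of_nonneg_right ?_ (by positivity)
  exact (sum_dist_le (by norm_num) (by norm_num) N k).trans (by norm_num)

theorem sum_half_wt (N k : ℕ) :
    ∑ l ∈ range N, (1 / 2 : ℝ) ^ l * wt l k ≤ 3 * (1 / 2 : ℝ) ^ k := by
  refine le_trans (Finset.sum_le_sum fun l _ => ?_) (sum_quarter N k)
  refine mul_le_mul_of_nonneg_left ?_ (by positivity)
  exact pow_le_pow_of_le_one (by norm_num) (by norm_num) (by unfold Nat.dist; omega)

theorem sum_wt (N k : ℕ) : ∑ l ∈ range N, wt l k ≤ 3 := by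
  refine le_trans (Finset.sum_le_sum fun l _ => ?_) (sum_dist_half N k)
  exact pow_le_pow_left₀ (by norm_num) (by norm_num) _

/-- `min 1 (32^{l-k})`. -/
noncomputable def mn (l k : ℕ) : ℝ := min 1 ((32 : ℝ) ^ l * (1 / 32) ^ k)

theorem mn_nonneg (l k : ℕ) : 0 ≤ mn l k := le_min zero_le_one (by positivity)

theorem mn_self (k : ℕ) : mn k k = 1 := by
  unfold mn; rw [← mul_pow]; norm_num

theorem pow_mul_eq {l k : ℕ} (h : l ≤ k) :
    (32 : ℝ) ^ l * (1 / 32) ^ k = (1 / 32) ^ (k - l) := by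
  obtain ⟨j, rfl⟩ := Nat.exists_eq_add_of_le h
  rw [pow_add, ← mul_assoc, ← mul_pow, Nat.add_sub_cancel_left]; norm_num

theorem one_le_pow_mul {l k : ℕ} (h : k ≤ l) : 1 ≤ (32 : ℝ) ^ l * (1 / 32) ^ k := by
  obtain ⟨j, rfl⟩ := Nat.exists_eq_add_of_le h
  rw [pow_add, mul_right_comm, ← mul_pow]
  norm_num
  exact one_le_pow₀ (by norm_num)

theorem mn_le (l k : ℕ) : mn l k ≤ (1 / 4 : ℝ) ^ (k - l) := by
  rcases le_total l k with h | h
  · refine (min_le_right _ _).trans ?_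
    rw [pow_mul_eq h]
    exact pow_le_pow_left₀ (by norm_num) (by norm_num) _
  · rw [show k - l = 0 by omega, pow_zero]; exact min_le_left _ _

theorem sum_half_mn (N k : ℕ) :
    ∑ l ∈ range N, (1 / 2 : ℝ) ^ l * mn l k ≤ 3 * (1 / 2 : ℝ) ^ k :=
  le_trans (Finset.sum_le_sum fun l _ =>
    mul_le_mul_of_nonneg_left (mn_le l k) (by positivity)) (sum_quarter N k)

theorem exists_lstar {g : ℝ} {L : ℕ} (h0 : (1 / 32 : ℝ) ^ L ≤ g) (h1 : g ≤ 1) :
    ∃ l ≤ L, 1 ≤ (32 : ℝ) ^ l * g ∧ (32 : ℝ) ^ l * g ≤ 32 := by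
  have hex : ∃ l, 1 ≤ (32 : ℝ) ^ l * g := ⟨L, by
    have := mul_le_mul_of_nonneg_left h0 (show (0 : ℝ) ≤ 32 ^ L by positivity)
    rw [← mul_pow] at this; simpa using this⟩
  classical
  refine ⟨Nat.find hex, Nat.find_min' hex ?_, Nat.find_spec hex, ?_⟩
  · have := mul_le_mul_of_nonneg_left h0 (show (0 : ℝ) ≤ 32 ^ L by positivity)
    rw [← mul_pow] at this; simpa using this
  · rcases h : Nat.find hex with _ | j
    · simp; linarith
    · have := Nat.find_min hex (show j < Nat.find hex by omega)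
      rw [pow_succ]; push Not at this; linarith

theorem psi_star {h : ℝ} (h1 : 1 ≤ h) (h2 : h ≤ 32) :
    1 / 40 ≤ (1 + h)⁻¹ - (1 + h)⁻¹ * (1 + h)⁻¹ := by
  have : (1 + h)⁻¹ - (1 + h)⁻¹ * (1 + h)⁻¹ = h / (1 + h) ^ 2 := by field_simp; ring
  rw [this, le_div_iff₀ (by positivity)]; nlinarith

theorem nu_star {h : ℝ} (h1 : 1 ≤ h) (h2 : h ≤ 32) :
    1 / 40 ≤ (1 + h)⁻¹ - (1 + 32 * h)⁻¹ := by
  have : (1 + h)⁻¹ - (1 + 32 * h)⁻¹ = 31 * h / ((1 + h) * (1 + 32 * h)) := by field_simp; ring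
  rw [this, le_div_iff₀ (by positivity)]; nlinarith

theorem wt_sq (l l' : ℕ) : wt l l' ^ 2 = (1 / 16 : ℝ) ^ Nat.dist l l' := by
  unfold wt; rw [← pow_mul, mul_comm, pow_mul]; norm_num

/-- Bounds for the value at level `l` in terms of the critical level `s`. -/
theorem chi_bound {g : ℝ} {s : ℕ} (h1 : 1 ≤ (32 : ℝ) ^ s * g) (h2 : (32 : ℝ) ^ s * g ≤ 32)
    (l : ℕ) : ∃ A B : ℝ, 0 ≤ A ∧ 0 ≤ B ∧
      (∀ k ≤ l, (2 : ℝ) ^ (l - k) ≤ A + B * ((32 : ℝ) ^ l * (1 / 32) ^ k)) ∧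
      (A + B * (32 ^ l * g)) * (1 + 32 ^ l * g)⁻¹ ≤ 33 * wt l s ^ 2 ∧
      (1 + 32 ^ l * g)⁻¹ - (1 + 32 ^ l * g)⁻¹ * (1 + 32 ^ l * g)⁻¹ ≤ 33 * wt l s ^ 2 := by
  have hg : 0 < g := by
    by_contra hg; push Not at hg
    have := mul_nonpos_of_nonneg_of_nonpos (show (0 : ℝ) ≤ 32 ^ s by positivity) hg
    linarith
  have hpk : ∀ k ≤ l, (32 : ℝ) ^ l * (1 / 32) ^ k = 32 ^ (l - k) := fun k hk => by
    obtain ⟨j, rfl⟩ := Nat.exists_eq_add_of_le hk
    rw [pow_add, mul_right_comm, ← mul_pow, Nat.add_sub_cancel_left]; norm_num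
  have hpos : 0 < 1 + (32 : ℝ) ^ l * g := by positivity
  have hinv : (1 + (32 : ℝ) ^ l * g)⁻¹ ≤ 1 := inv_le_one_of_one_le₀ (by
    have : 0 ≤ (32 : ℝ) ^ l * g := by positivity
    linarith)
  have hpsi : (1 + 32 ^ l * g)⁻¹ - (1 + 32 ^ l * g)⁻¹ * (1 + 32 ^ l * g)⁻¹ =
      ((32 : ℝ) ^ l * g) * (1 + 32 ^ l * g)⁻¹ * (1 + 32 ^ l * g)⁻¹ := by field_simp; ring
  rw [wt_sq]
  rcases le_total l s with h | h
  · obtain ⟨j, rfl⟩ := Nat.exists_eq_add_of_le h
    have e : Nat.dist l (l + j) = j := by unfold Nat.dist; omega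
    have hh : (32 : ℝ) ^ l * g ≤ 33 * (1 / 16) ^ j := by
      have e1 : (32 : ℝ) ^ l * g = (1 / 32) ^ j * (32 ^ (l + j) * g) := by
        rw [pow_add, one_div, inv_pow]; field_simp
      have e2 : (1 / 32 : ℝ) ^ j ≤ (1 / 16) ^ j := pow_le_pow_left₀ (by norm_num) (by norm_num) _
      have e3 : (0 : ℝ) < (1 / 32) ^ j := by positivity
      rw [e1]; nlinarith
    have hh2 : (32 : ℝ) ^ l * g * (1 + 32 ^ l * g)⁻¹ ≤ 33 * (1 / 16) ^ j :=
      (mul_le_of_le_one_right (by positivity) hinv).trans hh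
    refine ⟨0, 1, le_rfl, zero_le_one, fun k hk => ?_, ?_, ?_⟩
    · rw [hpk k hk, zero_add, one_mul]
      exact pow_le_pow_left₀ (by norm_num) (by norm_num) _
    · rw [e, zero_add, one_mul]; exact hh2
    · rw [e, hpsi]
      exact (mul_le_of_le_one_right (by positivity) hinv).trans hh2
  · obtain ⟨j, rfl⟩ := Nat.exists_eq_add_of_le h
    have e : Nat.dist (s + j) s = j := by unfold Nat.dist; omega
    have e1 : (32 : ℝ) ^ (s + j) * g = 32 ^ j * (32 ^ s * g) := by rw [pow_add]; ring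
    have hi : (1 + (32 : ℝ) ^ (s + j) * g)⁻¹ ≤ (1 / 32) ^ j := by
      rw [one_div, inv_pow]
      refine inv_anti₀ (by positivity) ?_
      have : (0 : ℝ) < 32 ^ j := by positivity
      rw [e1]; nlinarith
    have e16 : (2 : ℝ) ^ j * (1 / 32) ^ j = (1 / 16) ^ j := by rw [← mul_pow]; norm_num
    have e32 : (1 / 32 : ℝ) ^ j * 32 ^ j = 1 := by rw [← mul_pow]; norm_num
    refine ⟨2 ^ j, 2 ^ j * (1 / 32) ^ j, by positivity, by positivity, fun k hk => ?_, ?_, ?_⟩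
    · rw [hpk k hk]
      rcases le_total (s + j - k) j with h' | h'
      · have : (2 : ℝ) ^ (s + j - k) ≤ 2 ^ j := pow_le_pow_right₀ (by norm_num) h'
        have : (0 : ℝ) ≤ 2 ^ j * (1 / 32) ^ j * 32 ^ (s + j - k) := by positivity
        linarith
      · obtain ⟨i, hi⟩ := Nat.exists_eq_add_of_le h'
        rw [hi, pow_add, pow_add, mul_assoc, ← mul_assoc ((1 / 32 : ℝ) ^ j), e32, one_mul]
        have : (2 : ℝ) ^ i ≤ 32 ^ i := pow_le_pow_left₀ (by norm_num) (by norm_num) _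
        have : (0 : ℝ) < 2 ^ j := by positivity
        nlinarith
    · rw [e, ← e16]
      have e2 : (2 : ℝ) ^ j + 2 ^ j * (1 / 32) ^ j * (32 ^ (s + j) * g) =
          2 ^ j * (1 + 32 ^ s * g) := by
        rw [e1, mul_assoc, ← mul_assoc ((1 / 32 : ℝ) ^ j), e32]; ring
      rw [e2]
      have : (2 : ℝ) ^ j * (1 + 32 ^ s * g) ≤ 33 * 2 ^ j := by
        have : (0 : ℝ) < 2 ^ j := by positivity
        nlinarith
      rw [← mul_assoc]
      exact mul_le_mul this hi (by positivity) (by positivity)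
    · rw [e]
      have e2 : (1 / 32 : ℝ) ^ j ≤ (1 / 16) ^ j := pow_le_pow_left₀ (by norm_num) (by norm_num) _
      have : (0 : ℝ) ≤ (1 + 32 ^ (s + j) * g)⁻¹ * (1 + 32 ^ (s + j) * g)⁻¹ := by positivity
      have : (0 : ℝ) < (1 / 16) ^ j := by positivity
      linarith

end Crest.Agent.R239
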