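import Crest.Agent.R239.Step2
import Crest.Agent.R239.Scalar

/-! Spectral estimates at a fixed time. -/

open Finset Matrix

namespace Crest.Agent.R239

variable {d : ℕ}

theorem Psd.exists_spec {G : Matrix (Fin d) (Fin d) ℝ} (hG : Psd G) :
    ∃ (u : Fin d → Fin d → ℝ) (g : Fin d → ℝ),
      (∀ x y, x ⬝ᵥ y = ∑ a, (u a ⬝ᵥ x) * (u a ⬝ᵥ y)) ∧ (∀ a, G *ᵥ u a = g a • u a) ∧
      ∀ a, u a ⬝ᵥ u a = 1 := by
  have hH : G.IsHermitian := by
    ext i j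
    have := hG.sym (Pi.single j 1) (Pi.single i 1)
    simpa using this
  refine ⟨fun a => (hH.eigenvectorBasis a).ofLp, hH.eigenvalues, fun x y => ?_,
    fun a => hH.mulVec_eigenvectorBasis a, fun a => ?_⟩
  · have := hH.eigenvectorBasis.sum_inner_mul_inner (WithLp.toLp 2 x) (WithLp.toLp 2 y)
    simp only [EuclideanSpace.inner_eq_star_dotProduct, star_trivial] at this
    rw [dotProduct_comm, ← this]
    refine Finset.sum_congr rfl fun a _ => ?_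
    rw [dotProduct_comm y]
  · have := hH.eigenvectorBasis.orthonormal.1 a
    have h2 := real_inner_self_eq_norm_sq (hH.eigenvectorBasis a)
    rw [this, EuclideanSpace.inner_eq_star_dotProduct] at h2
    simpa using h2

/-- Level matrix `32^l G`. -/
noncomputable def Hl (G : Matrix (Fin d) (Fin d) ℝ) (l : ℕ) : Matrix (Fin d) (Fin d) ℝ :=
  (32 : ℝ) ^ l • G

/-- Band count at level `l`. -/
noncomputable def nu (G : Matrix (Fin d) (Fin d) ℝ) (l : ℕ) : ℝ :=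
  (Res (Hl G l)).trace - (Res (Hl G (l + 1))).trace

/-- Smoothed band count. -/
noncomputable def nuS (L : ℕ) (G : Matrix (Fin d) (Fin d) ℝ) (l : ℕ) : ℝ :=
  ∑ l' ∈ range (L + 1), wt l l' * nu G l'

theorem Psd.hl {G : Matrix (Fin d) (Fin d) ℝ} (hG : Psd G) (l : ℕ) : Psd (Hl G l) :=
  hG.smul (by positivity)

/-- Spectral data of `G`. -/
structure SpecData (L : ℕ) (G : Matrix (Fin d) (Fin d) ℝ) (u : Fin d → Fin d → ℝ)
    (g : Fin d → ℝ) (s : Fin d → ℕ) : Prop where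
  pars : ∀ x, x ⬝ᵥ x = ∑ a, (u a ⬝ᵥ x) ^ 2
  unit : ∀ a, u a ⬝ᵥ u a = 1
  eig : ∀ a, u a ⬝ᵥ G *ᵥ u a = g a
  res : ∀ l x, x ⬝ᵥ Res (Hl G l) *ᵥ x = ∑ a, (1 + 32 ^ l * g a)⁻¹ * (u a ⬝ᵥ x) ^ 2
  psi : ∀ l x, psi (Hl G l) x =
    ∑ a, ((1 + 32 ^ l * g a)⁻¹ - (1 + 32 ^ l * g a)⁻¹ * (1 + 32 ^ l * g a)⁻¹) * (u a ⬝ᵥ x) ^ 2
  tr : ∀ l, (Res (Hl G l)).trace = ∑ a, (1 + 32 ^ l * g a)⁻¹
  sL : ∀ a, s a ≤ L
  s1 : ∀ a, 1 ≤ (32 : ℝ) ^ s a * g a
  s2 : ∀ a, (32 : ℝ) ^ s a * g a ≤ 32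

/-- `32^{-L} ≤ G ≤ 1`. -/
structure Bd (L : ℕ) (G : Matrix (Fin d) (Fin d) ℝ) : Prop where
  psd : Psd G
  lo : ∀ x, (1 / 32 : ℝ) ^ L * (x ⬝ᵥ x) ≤ x ⬝ᵥ G *ᵥ x
  up : ∀ x, x ⬝ᵥ G *ᵥ x ≤ x ⬝ᵥ x

theorem Bd.exists_data {L : ℕ} {G : Matrix (Fin d) (Fin d) ℝ} (h : Bd L G) :
    ∃ u g s, SpecData L G u g s := by
  obtain ⟨u, g, hp, he, h1⟩ := h.psd.exists_spec
  have hg : ∀ a, u a ⬝ᵥ G *ᵥ u a = g a := fun a => by
    rw [he, dotProduct_smul, h1, smul_eq_mul, mul_one]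
  have hlo : ∀ a, (1 / 32 : ℝ) ^ L ≤ g a := fun a => by
    have := h.lo (u a); rwa [h1, hg, mul_one] at this
  have hup : ∀ a, g a ≤ 1 := fun a => by
    have := h.up (u a); rwa [h1, hg] at this
  have hg0 : ∀ a, 0 < g a := fun a => lt_of_lt_of_le (by positivity) (hlo a)
  choose s hs1 hs2 hs3 using fun a => exists_lstar (hlo a) (hup a)
  have hU : ∀ l a x, u a ⬝ᵥ Res (Hl G l) *ᵥ x = (1 + 32 ^ l * g a)⁻¹ * (u a ⬝ᵥ x) := by
    intro l a x
    have hpos : 0 < 1 + (32 : ℝ) ^ l * g a := by have := hg0 a; positivity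
    have : Res (Hl G l) *ᵥ u a = (1 + 32 ^ l * g a)⁻¹ • u a := by
      apply (h.psd.hl l).res_uniq
      rw [mulVec_smul, Hl, smul_mulVec, he, smul_smul, smul_smul, ← add_smul]
      have : (1 + 32 ^ l * g a)⁻¹ + (1 + 32 ^ l * g a)⁻¹ * 32 ^ l * g a = 1 := by field_simp
      rw [this, one_smul]
    rw [(h.psd.hl l).res_sym, this, dotProduct_smul, smul_eq_mul, dotProduct_comm]
  have hres : ∀ l x, x ⬝ᵥ Res (Hl G l) *ᵥ x = ∑ a, (1 + 32 ^ l * g a)⁻¹ * (u a ⬝ᵥ x) ^ 2 := by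
    intro l x
    rw [hp]; exact Finset.sum_congr rfl fun a _ => by rw [hU]; ring
  refine ⟨u, g, s, fun x => ?_, h1, hg, hres, fun l x => ?_, fun l => ?_, hs1, hs2, hs3⟩
  · rw [hp]; exact Finset.sum_congr rfl fun a _ => by ring
  · rw [psi, hres, hp, ← Finset.sum_sub_distrib]
    exact Finset.sum_congr rfl fun a _ => by rw [hU]; ring
  · have : ∀ i, Res (Hl G l) i i = ∑ a, (1 + 32 ^ l * g a)⁻¹ * (u a i) ^ 2 := fun i => by
      simpa using hres l (Pi.single i 1)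
    simp only [trace, Matrix.diag, this]
    rw [Finset.sum_comm]
    refine Finset.sum_congr rfl fun a _ => ?_
    rw [← Finset.mul_sum]
    have : ∑ i, u a i ^ 2 = 1 := by rw [← h1 a]; simp [dotProduct, sq]
    rw [this, mul_one]

namespace SpecData

variable {L : ℕ} {G : Matrix (Fin d) (Fin d) ℝ} {u : Fin d → Fin d → ℝ} {g : Fin d → ℝ}
  {s : Fin d → ℕ} (h : SpecData L G u g s)
include h

theorem g_pos (a : Fin d) : 0 < g a := by
  by_contra hg; push Not at hg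
  have := mul_nonpos_of_nonneg_of_nonpos (show (0 : ℝ) ≤ 32 ^ s a by positivity) hg
  have := h.s1 a
  linarith

theorem nu_eq (l : ℕ) :
    nu G l = ∑ a, ((1 + 32 ^ l * g a)⁻¹ - (1 + 32 * (32 ^ l * g a))⁻¹) := by
  rw [nu, h.tr, h.tr, ← Finset.sum_sub_distrib]
  exact Finset.sum_congr rfl fun a _ => by rw [pow_succ]; ring_nf

theorem term_nonneg (l : ℕ) (a : Fin d) :
    0 ≤ (1 + 32 ^ l * g a)⁻¹ - (1 + 32 * (32 ^ l * g a))⁻¹ := by
  have : 0 < (32 : ℝ) ^ l * g a := by have := h.g_pos a; positivity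
  exact sub_nonneg.2 (inv_anti₀ (by linarith) (by linarith))

theorem psi_term_nonneg (l : ℕ) (a : Fin d) :
    0 ≤ (1 + 32 ^ l * g a)⁻¹ - (1 + 32 ^ l * g a)⁻¹ * (1 + 32 ^ l * g a)⁻¹ := by
  have h0 : 0 < (32 : ℝ) ^ l * g a := by have := h.g_pos a; positivity
  have h1 : (1 + 32 ^ l * g a)⁻¹ ≤ 1 := inv_le_one_of_one_le₀ (by linarith)
  exact sub_nonneg.2 (mul_le_of_le_one_right (by positivity) h1)

theorem nu_nonneg (l : ℕ) : 0 ≤ nu G l := by
  rw [h.nu_eq]; exact Finset.sum_nonneg fun a _ => h.term_nonneg l a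

theorem sum_wt_le (l : ℕ) : ∑ a, wt l (s a) ≤ 40 * nuS L G l := by
  simp only [nuS, h.nu_eq, Finset.mul_sum]
  rw [Finset.sum_comm]
  refine Finset.sum_le_sum fun a _ => ?_
  have := Finset.single_le_sum (f := fun l' => 40 * (wt l l' *
      ((1 + 32 ^ l' * g a)⁻¹ - (1 + 32 * (32 ^ l' * g a))⁻¹)))
    (fun l' _ => mul_nonneg (by norm_num) (mul_nonneg (wt_pos _ _).le (h.term_nonneg l' a)))
    (mem_range.2 (Nat.lt_succ_of_le (h.sL a)))
  refine le_trans ?_ this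
  have := nu_star (h.s1 a) (h.s2 a)
  have := wt_pos l (s a)
  nlinarith

theorem wt_le (l : ℕ) (a : Fin d) : wt l (s a) ≤ 40 * min 1 (nuS L G l) := by
  have h1 := wt_le_one l (s a)
  have h2 := (Finset.single_le_sum (f := fun a => wt l (s a)) (fun a _ => (wt_pos _ _).le)
    (mem_univ a)).trans (h.sum_wt_le l)
  rcases le_total 1 (nuS L G l) with h3 | h3
  · rw [min_eq_left h3]; linarith
  · rw [min_eq_right h3]; exact h2

theorem nuS_nonneg (l : ℕ) : 0 ≤ nuS L G l :=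
  Finset.sum_nonneg fun l' _ => mul_nonneg (wt_pos _ _).le (h.nu_nonneg l')

theorem sum_wt_sq_le (l : ℕ) :
    ∑ a, wt l (s a) ^ 2 ≤ 1600 * (min 1 (nuS L G l) * nuS L G l) := by
  have h0 : 0 ≤ min 1 (nuS L G l) := le_min zero_le_one (h.nuS_nonneg l)
  calc ∑ a, wt l (s a) ^ 2 ≤ ∑ a, 40 * min 1 (nuS L G l) * wt l (s a) :=
        Finset.sum_le_sum fun a _ => by
          rw [sq]; exact mul_le_mul_of_nonneg_right (h.wt_le l a) (wt_pos _ _).le
    _ = 40 * min 1 (nuS L G l) * ∑ a, wt l (s a) := by rw [Finset.mul_sum]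
    _ ≤ 40 * min 1 (nuS L G l) * (40 * nuS L G l) :=
        mul_le_mul_of_nonneg_left (h.sum_wt_le l) (by positivity)
    _ = _ := by ring

theorem sum_wt_psi (l : ℕ) (x : Fin d → ℝ) :
    ∑ a, wt l (s a) * (u a ⬝ᵥ x) ^ 2 ≤
      40 * ∑ l' ∈ range (L + 1), wt l l' * Crest.Agent.R239.psi (Hl G l') x := by
  simp only [h.psi, Finset.mul_sum]
  rw [Finset.sum_comm]
  refine Finset.sum_le_sum fun a _ => ?_
  have := Finset.single_le_sum (f := fun l' => 40 * (wt l l' *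
      (((1 + 32 ^ l' * g a)⁻¹ - (1 + 32 ^ l' * g a)⁻¹ * (1 + 32 ^ l' * g a)⁻¹) *
        (u a ⬝ᵥ x) ^ 2)))
    (fun l' _ => mul_nonneg (by norm_num) (mul_nonneg (wt_pos _ _).le
      (mul_nonneg (h.psi_term_nonneg l' a) (sq_nonneg _))))
    (mem_range.2 (Nat.lt_succ_of_le (h.sL a)))
  refine le_trans ?_ this
  have h1 := psi_star (h.s1 a) (h.s2 a)
  have h2 := mul_nonneg (wt_pos l (s a)).le (sq_nonneg (u a ⬝ᵥ x))
  nlinarith

end SpecData

namespace Bd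

variable {L : ℕ} {G : Matrix (Fin d) (Fin d) ℝ} (h : Bd L G)
include h

theorem nuS_pos (hd : 0 < d) (l : ℕ) : 0 < nuS L G l := by
  obtain ⟨u, g, s, hs⟩ := h.exists_data
  have h1 := hs.wt_le l ⟨0, hd⟩
  have h2 := wt_pos l (s ⟨0, hd⟩)
  have h3 := min_le_right 1 (nuS L G l)
  linarith

theorem sum_nuS_le : ∑ l ∈ range (L + 1), nuS L G l ≤ 3 * d := by
  obtain ⟨u, g, s, hs⟩ := h.exists_data
  simp only [nuS]
  rw [Finset.sum_comm]
  have h1 : ∑ l' ∈ range (L + 1), ∑ l ∈ range (L + 1), wt l l' * nu G l' ≤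
      ∑ l' ∈ range (L + 1), 3 * nu G l' := Finset.sum_le_sum fun l' _ => by
    rw [← Finset.sum_mul]
    exact mul_le_mul_of_nonneg_right (sum_wt _ _) (hs.nu_nonneg l')
  refine h1.trans ?_
  rw [← Finset.mul_sum]
  refine mul_le_mul_of_nonneg_left ?_ (by norm_num)
  simp only [nu]
  rw [Finset.sum_range_sub' (fun l => (Res (Hl G l)).trace), hs.tr, hs.tr]
  have h2 : ∑ a, (1 + 32 ^ 0 * g a)⁻¹ ≤ ∑ _a : Fin d, (1 : ℝ) := Finset.sum_le_sum fun a _ =>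
    inv_le_one_of_one_le₀ (by have := hs.g_pos a; simp; linarith)
  have h3 : 0 ≤ ∑ a, (1 + 32 ^ (L + 1) * g a)⁻¹ := Finset.sum_nonneg fun a _ => by
    have := hs.g_pos a; positivity
  simp only [Finset.sum_const, card_univ, Fintype.card_fin, nsmul_eq_mul, mul_one] at h2
  linarith

theorem dot_le_sum_psi (x : Fin d → ℝ) :
    x ⬝ᵥ x ≤ 40 * ∑ l ∈ range (L + 1), psi (Hl G l) x := by
  obtain ⟨u, g, s, hs⟩ := h.exists_data
  simp only [hs.pars x, hs.psi, Finset.mul_sum]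
  rw [Finset.sum_comm]
  refine Finset.sum_le_sum fun a _ => ?_
  have := Finset.single_le_sum (f := fun l' => 40 *
      (((1 + 32 ^ l' * g a)⁻¹ - (1 + 32 ^ l' * g a)⁻¹ * (1 + 32 ^ l' * g a)⁻¹) *
        (u a ⬝ᵥ x) ^ 2))
    (fun l' _ => mul_nonneg (by norm_num) (mul_nonneg (hs.psi_term_nonneg l' a) (sq_nonneg _)))
    (mem_range.2 (Nat.lt_succ_of_le (hs.sL a)))
  refine le_trans ?_ this
  have h1 := psi_star (hs.s1 a) (hs.s2 a)
  have h2 := sq_nonneg (u a ⬝ᵥ x)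
  nlinarith

theorem psi_le_act (hd : 0 < d) (l : ℕ) (x : Fin d → ℝ) :
    psi (Hl G l) x ≤ 52800 * min 1 (nuS L G l) *
      ∑ l' ∈ range (L + 1), wt l l' * psi (Hl G l') x := by
  obtain ⟨u, g, s, hs⟩ := h.exists_data
  have h0 : 0 ≤ min 1 (nuS L G l) := le_min zero_le_one (h.nuS_pos hd l).le
  calc psi (Hl G l) x ≤ ∑ a, 1320 * min 1 (nuS L G l) * (wt l (s a) * (u a ⬝ᵥ x) ^ 2) := by
        rw [hs.psi]
        refine Finset.sum_le_sum fun a _ => ?_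
        obtain ⟨A, B, -, -, -, -, h5⟩ := chi_bound (hs.s1 a) (hs.s2 a) l
        rw [← mul_assoc]
        refine mul_le_mul_of_nonneg_right (h5.trans ?_) (sq_nonneg _)
        have := mul_le_mul_of_nonneg_right (hs.wt_le l a) (wt_pos l (s a)).le
        nlinarith
    _ = 1320 * min 1 (nuS L G l) * ∑ a, wt l (s a) * (u a ⬝ᵥ x) ^ 2 := by rw [Finset.mul_sum]
    _ ≤ 1320 * min 1 (nuS L G l) *
          (40 * ∑ l' ∈ range (L + 1), wt l l' * psi (Hl G l') x) :=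
        mul_le_mul_of_nonneg_left (hs.sum_wt_psi l x) (by positivity)
    _ = _ := by ring

theorem sum_psi_le {ι : Type*} [Fintype ι] {κ : ℝ} (r : ι → Fin d → ℝ)
    (h1 : ∀ x, κ * ∑ i, (x ⬝ᵥ r i) ^ 2 ≤ x ⬝ᵥ x) (l : ℕ) :
    κ * ∑ i, psi (Hl G l) (r i) ≤ 52800 * (min 1 (nuS L G l) * nuS L G l) := by
  obtain ⟨u, g, s, hs⟩ := h.exists_data
  calc κ * ∑ i, psi (Hl G l) (r i) = ∑ a, ((1 + 32 ^ l * g a)⁻¹ - (1 + 32 ^ l * g a)⁻¹ *
          (1 + 32 ^ l * g a)⁻¹) * (κ * ∑ i, (u a ⬝ᵥ r i) ^ 2) := by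
        simp only [hs.psi, Finset.mul_sum]
        rw [Finset.sum_comm]
        exact Finset.sum_congr rfl fun a _ => Finset.sum_congr rfl fun i _ => by ring
    _ ≤ ∑ a, 33 * wt l (s a) ^ 2 := by
        refine Finset.sum_le_sum fun a _ => ?_
        obtain ⟨A, B, -, -, -, -, h5⟩ := chi_bound (hs.s1 a) (hs.s2 a) l
        have h6 := h1 (u a)
        rw [hs.unit] at h6
        exact (mul_le_of_le_one_right (hs.psi_term_nonneg l a) h6).trans h5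
    _ ≤ _ := by
        rw [← Finset.mul_sum]; have := hs.sum_wt_sq_le l; linarith

theorem sum_res_le {ι : Type*} [Fintype ι] {κ : ℝ} (hκ : 0 ≤ κ) (r : ι → Fin d → ℝ) (k : ι → ℕ)
    (h1 : ∀ x, κ * ∑ i, (x ⬝ᵥ r i) ^ 2 ≤ x ⬝ᵥ x)
    (h2 : ∀ x, κ * ∑ i, (1 / 32 : ℝ) ^ k i * (x ⬝ᵥ r i) ^ 2 ≤ x ⬝ᵥ G *ᵥ x) (l : ℕ) :
    κ * ∑ i, (if k i ≤ l then (2 : ℝ) ^ (l - k i) else 0) * (r i ⬝ᵥ Res (Hl G l) *ᵥ r i) ≤
      52800 * (min 1 (nuS L G l) * nuS L G l) := by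
  obtain ⟨u, g, s, hs⟩ := h.exists_data
  calc _ = ∑ a, (κ * ∑ i, (if k i ≤ l then (2 : ℝ) ^ (l - k i) else 0) * (u a ⬝ᵥ r i) ^ 2) *
          (1 + 32 ^ l * g a)⁻¹ := by
        simp only [hs.res, Finset.mul_sum, Finset.sum_mul]
        rw [Finset.sum_comm]
        exact Finset.sum_congr rfl fun a _ => Finset.sum_congr rfl fun i _ => by ring
    _ ≤ ∑ a, 33 * wt l (s a) ^ 2 := by
        refine Finset.sum_le_sum fun a _ => ?_
        obtain ⟨A, B, hA, hB, h3, h4, -⟩ := chi_bound (hs.s1 a) (hs.s2 a) l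
        refine le_trans (mul_le_mul_of_nonneg_right ?_ (by have := hs.g_pos a; positivity)) h4
        have h6 := h1 (u a)
        have h7 := h2 (u a)
        rw [hs.unit] at h6
        rw [hs.eig] at h7
        have h8 : ∑ i, (if k i ≤ l then (2 : ℝ) ^ (l - k i) else 0) * (u a ⬝ᵥ r i) ^ 2 ≤
            A * ∑ i, (u a ⬝ᵥ r i) ^ 2 +
              B * 32 ^ l * ∑ i, (1 / 32 : ℝ) ^ k i * (u a ⬝ᵥ r i) ^ 2 := by
          rw [Finset.mul_sum, Finset.mul_sum, ← Finset.sum_add_distrib]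
          refine Finset.sum_le_sum fun i _ => ?_
          have : (if k i ≤ l then (2 : ℝ) ^ (l - k i) else 0) ≤
              A + B * ((32 : ℝ) ^ l * (1 / 32) ^ k i) := by
            split_ifs with hk
            · exact h3 _ hk
            · positivity
          have := mul_le_mul_of_nonneg_right this (sq_nonneg (u a ⬝ᵥ r i))
          linarith
        have h9 := mul_le_mul_of_nonneg_left h8 hκ
        have h10 := mul_le_mul_of_nonneg_left h6 hA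
        have h11 := mul_le_mul_of_nonneg_left h7 (show 0 ≤ B * 32 ^ l by positivity)
        nlinarith
    _ ≤ _ := by
        rw [← Finset.mul_sum]; have := hs.sum_wt_sq_le l; linarith

end Bd

end Crest.Agent.R239
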