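import Mathlib

/-! One step of the resolvent dynamics. -/

open Finset Matrix

namespace Crest.Agent.R239

variable {d : ℕ}

/-- The contraction `x ↦ x - κ ⟨v,x⟩ v`. -/
def Aop (κ : ℝ) (v x : Fin d → ℝ) : Fin d → ℝ := x - (κ * (v ⬝ᵥ x)) • v

/-- Symmetric positive semidefinite. -/
structure Psd (H : Matrix (Fin d) (Fin d) ℝ) : Prop where
  sym : ∀ x y, x ⬝ᵥ H *ᵥ y = y ⬝ᵥ H *ᵥ x
  pos : ∀ x, 0 ≤ x ⬝ᵥ H *ᵥ x

/-- The resolvent `(1 + H)⁻¹`. -/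
noncomputable def Res (H : Matrix (Fin d) (Fin d) ℝ) : Matrix (Fin d) (Fin d) ℝ := (1 + H)⁻¹

/-- `A H A + w v vᵀ`. -/
def upd (κ w : ℝ) (v : Fin d → ℝ) (H : Matrix (Fin d) (Fin d) ℝ) : Matrix (Fin d) (Fin d) ℝ :=
  (1 - κ • vecMulVec v v) * H * (1 - κ • vecMulVec v v) + w • vecMulVec v v

theorem dot_self_nonneg (x : Fin d → ℝ) : 0 ≤ x ⬝ᵥ x :=
  Finset.sum_nonneg fun i _ => mul_self_nonneg (x i)

theorem vecMulVec_mulVec' (v x : Fin d → ℝ) : vecMulVec v v *ᵥ x = (v ⬝ᵥ x) • v := by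
  ext i
  simp [mulVec, vecMulVec, dotProduct, Finset.sum_mul]
  exact Finset.sum_congr rfl fun j _ => by ring

theorem Am_mulVec (κ : ℝ) (v x : Fin d → ℝ) :
    (1 - κ • vecMulVec v v) *ᵥ x = Aop κ v x := by
  rw [sub_mulVec, one_mulVec, smul_mulVec, vecMulVec_mulVec', smul_smul, Aop]

theorem upd_mulVec (κ w : ℝ) (v x : Fin d → ℝ) (H : Matrix (Fin d) (Fin d) ℝ) :
    upd κ w v H *ᵥ x = Aop κ v (H *ᵥ Aop κ v x) + (w * (v ⬝ᵥ x)) • v := by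
  rw [upd, add_mulVec, ← mulVec_mulVec, ← mulVec_mulVec, Am_mulVec, Am_mulVec, smul_mulVec,
    vecMulVec_mulVec', smul_smul]

theorem dot_Aop (κ : ℝ) (v x y : Fin d → ℝ) : x ⬝ᵥ Aop κ v y = Aop κ v x ⬝ᵥ y := by
  simp only [Aop, dotProduct_sub, sub_dotProduct, dotProduct_smul, smul_dotProduct, smul_eq_mul]
  rw [dotProduct_comm x v]; ring

theorem dot_upd (κ w : ℝ) (v x y : Fin d → ℝ) (H : Matrix (Fin d) (Fin d) ℝ) :
    x ⬝ᵥ upd κ w v H *ᵥ y = Aop κ v x ⬝ᵥ H *ᵥ Aop κ v y + w * (v ⬝ᵥ x) * (v ⬝ᵥ y) := by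
  rw [upd_mulVec, dotProduct_add, dot_Aop, dotProduct_smul, smul_eq_mul, dotProduct_comm x v]
  ring

theorem Psd.upd {H : Matrix (Fin d) (Fin d) ℝ} (hH : Psd H) (κ : ℝ) {w : ℝ} (hw : 0 ≤ w)
    (v : Fin d → ℝ) : Psd (upd κ w v H) where
  sym x y := by rw [dot_upd, dot_upd, hH.sym]; ring
  pos x := by
    rw [dot_upd, mul_assoc]
    exact add_nonneg (hH.pos _) (mul_nonneg hw (mul_self_nonneg _))

theorem Psd.smul {H : Matrix (Fin d) (Fin d) ℝ} (hH : Psd H) {β : ℝ} (hβ : 0 ≤ β) :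
    Psd (β • H) where
  sym x y := by rw [smul_mulVec, smul_mulVec, dotProduct_smul, dotProduct_smul, hH.sym]
  pos x := by
    rw [smul_mulVec, dotProduct_smul]; exact mul_nonneg hβ (hH.pos x)

theorem smul_upd (β κ w : ℝ) (v : Fin d → ℝ) (H : Matrix (Fin d) (Fin d) ℝ) :
    β • upd κ w v H = upd κ (β * w) v (β • H) := by
  simp only [upd, smul_add, Matrix.mul_smul, Matrix.smul_mul, smul_smul]

namespace Psd

variable {H : Matrix (Fin d) (Fin d) ℝ} (hH : Psd H)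
include hH

theorem inj : Function.Injective (1 + H).mulVec := by
  intro x y hxy
  have h0 : (1 + H) *ᵥ (x - y) = 0 := by rw [mulVec_sub]; exact sub_eq_zero.2 hxy
  have h1 : (x - y) ⬝ᵥ (x - y) + (x - y) ⬝ᵥ H *ᵥ (x - y) = 0 := by
    rw [add_mulVec, one_mulVec] at h0
    rw [← dotProduct_add, h0, dotProduct_zero]
  have h2 := hH.pos (x - y)
  have h3 := dot_self_nonneg (x - y)
  exact sub_eq_zero.1 (dotProduct_self_eq_zero.1 (by linarith))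

theorem res_eq (x : Fin d → ℝ) : Res H *ᵥ x + H *ᵥ (Res H *ᵥ x) = x := by
  have hu : IsUnit (1 + H).det :=
    (isUnit_iff_isUnit_det _).1 (mulVec_injective_iff_isUnit.1 hH.inj)
  have : (1 + H) *ᵥ (Res H *ᵥ x) = x := by
    rw [mulVec_mulVec, Res, mul_nonsing_inv _ hu, one_mulVec]
  rwa [add_mulVec, one_mulVec] at this

theorem res_uniq {x y : Fin d → ℝ} (h : y + H *ᵥ y = x) : Res H *ᵥ x = y := by
  apply hH.inj
  show (1 + H) *ᵥ _ = (1 + H) *ᵥ _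
  rw [add_mulVec, one_mulVec, add_mulVec, one_mulVec, hH.res_eq, h]

theorem res_sym (x y : Fin d → ℝ) : x ⬝ᵥ Res H *ᵥ y = y ⬝ᵥ Res H *ᵥ x := by
  have h1 : x ⬝ᵥ Res H *ᵥ y = (Res H *ᵥ x + H *ᵥ (Res H *ᵥ x)) ⬝ᵥ Res H *ᵥ y := by
    rw [hH.res_eq]
  have h2 : y ⬝ᵥ Res H *ᵥ x = (Res H *ᵥ y + H *ᵥ (Res H *ᵥ y)) ⬝ᵥ Res H *ᵥ x := by
    rw [hH.res_eq]
  rw [h1, h2, add_dotProduct, add_dotProduct, dotProduct_comm (H *ᵥ _), hH.sym,
    dotProduct_comm (H *ᵥ _), dotProduct_comm (Res H *ᵥ x)]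

/-- `x ⬝ U x = |U x|² + (U x) ⬝ H (U x)`. -/
theorem res_form (x : Fin d → ℝ) : x ⬝ᵥ Res H *ᵥ x =
    Res H *ᵥ x ⬝ᵥ Res H *ᵥ x + Res H *ᵥ x ⬝ᵥ H *ᵥ (Res H *ᵥ x) := by
  rw [← dotProduct_add, hH.res_eq, dotProduct_comm]

theorem res_sq_le (x : Fin d → ℝ) : Res H *ᵥ x ⬝ᵥ Res H *ᵥ x ≤ x ⬝ᵥ Res H *ᵥ x := by
  rw [hH.res_form x]; exact le_add_of_nonneg_right (hH.pos _)

theorem res_pos (x : Fin d → ℝ) : 0 ≤ x ⬝ᵥ Res H *ᵥ x :=
  (dot_self_nonneg _).trans (hH.res_sq_le x)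

theorem res_le (x : Fin d → ℝ) : x ⬝ᵥ Res H *ᵥ x ≤ x ⬝ᵥ x := by
  have h1 := hH.res_sq_le x
  have h2 := dot_self_nonneg (x - Res H *ᵥ x)
  simp only [sub_dotProduct, dotProduct_sub] at h2
  rw [dotProduct_comm (Res H *ᵥ x) x] at h2
  linarith

theorem res_psd : Psd (Res H) := ⟨hH.res_sym, hH.res_pos⟩

end Psd

/-- `α = 1 - κ |v|²`. -/
def al (κ : ℝ) (v : Fin d → ℝ) : ℝ := 1 - κ * (v ⬝ᵥ v)

/-- `κ' + w`. -/
def kw (κ w : ℝ) (v : Fin d → ℝ) : ℝ := κ * (1 + al κ v) + w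

/-- `γ = (κ' + w) / α²`. -/
noncomputable def gam (κ w : ℝ) (v : Fin d → ℝ) : ℝ := kw κ w v / al κ v ^ 2

/-- `1 + γ u`. -/
noncomputable def den (κ w : ℝ) (v : Fin d → ℝ) (H : Matrix (Fin d) (Fin d) ℝ) : ℝ :=
  1 + gam κ w v * (v ⬝ᵥ Res H *ᵥ v)

/-- The innovation `ξ`. -/
noncomputable def xi (κ w : ℝ) (v : Fin d → ℝ) (H : Matrix (Fin d) (Fin d) ℝ)
    (X : Fin d → ℝ) (θ : ℝ) : ℝ :=
  (θ / al κ v - gam κ w v * (v ⬝ᵥ Res H *ᵥ X)) / den κ w v H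

/-- Standing hypotheses for one step. -/
structure StepHyp (κ w : ℝ) (v : Fin d → ℝ) (H : Matrix (Fin d) (Fin d) ℝ) : Prop where
  κ0 : 0 < κ
  κ1 : κ ≤ 1 / 8
  w0 : 0 ≤ w
  v1 : v ⬝ᵥ v ≤ 1
  psd : Psd H

namespace StepHyp

variable {κ w : ℝ} {v : Fin d → ℝ} {H : Matrix (Fin d) (Fin d) ℝ} (h : StepHyp κ w v H)
include h

theorem al_ge : 7 / 8 ≤ al κ v := by
  have := h.κ0; have := h.κ1; have := h.v1; have := dot_self_nonneg v
  unfold al; nlinarith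

theorem al_le : al κ v ≤ 1 := by
  have := h.κ0; have := dot_self_nonneg v
  unfold al; nlinarith

theorem al_pos : 0 < al κ v := lt_of_lt_of_le (by norm_num) h.al_ge

theorem kw_ge : κ + w ≤ kw κ w v := by
  have := h.κ0; have := h.al_pos
  unfold kw; nlinarith

theorem kw_le : kw κ w v ≤ 2 * κ + w := by
  have := h.κ0; have := h.al_le
  unfold kw; nlinarith

theorem kw_pos : 0 < kw κ w v := by
  have := h.κ0; have := h.w0; have := h.kw_ge; linarith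

theorem gam_pos : 0 < gam κ w v := div_pos h.kw_pos (pow_pos h.al_pos 2)

theorem den_ge : 1 ≤ den κ w v H :=
  le_add_of_nonneg_right (mul_nonneg h.gam_pos.le (h.psd.res_pos v))

theorem den_pos : 0 < den κ w v H := lt_of_lt_of_le one_pos h.den_ge

theorem xi_eq (X : Fin d → ℝ) (θ : ℝ) :
    θ = al κ v * xi κ w v H X θ + kw κ w v / al κ v *
      (v ⬝ᵥ Res H *ᵥ X + xi κ w v H X θ * (v ⬝ᵥ Res H *ᵥ v)) := by
  have ha := h.al_pos.ne'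
  have hd := h.den_pos.ne'
  have h1 : xi κ w v H X θ * den κ w v H = θ / al κ v - gam κ w v * (v ⬝ᵥ Res H *ᵥ X) := by
    rw [xi, div_mul_cancel₀ _ hd]
  unfold den gam at h1
  field_simp at h1 ⊢
  linarith

/-- The one-step formula for the resolvent. -/
theorem step (X : Fin d → ℝ) (θ : ℝ) :
    Res (upd κ w v H) *ᵥ (Aop κ v X + θ • v) =
      (Res H *ᵥ X + xi κ w v H X θ • Res H *ᵥ v) +
        (κ / al κ v * (v ⬝ᵥ Res H *ᵥ X + xi κ w v H X θ * (v ⬝ᵥ Res H *ᵥ v))) • v := by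
  have ha := h.al_pos.ne'
  set ξ := xi κ w v H X θ with hξ
  set y := Res H *ᵥ X + ξ • Res H *ᵥ v with hy
  set c := v ⬝ᵥ Res H *ᵥ X + ξ * (v ⬝ᵥ Res H *ᵥ v) with hc
  have hvy : v ⬝ᵥ y = c := by rw [hy, dotProduct_add, dotProduct_smul, smul_eq_mul]
  have hvv : κ * (v ⬝ᵥ v) = 1 - al κ v := by unfold al; ring
  have hvz : v ⬝ᵥ (y + (κ / al κ v * c) • v) = c / al κ v := by
    rw [dotProduct_add, dotProduct_smul, smul_eq_mul, hvy]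
    have : κ / al κ v * c * (v ⬝ᵥ v) = c / al κ v * (κ * (v ⬝ᵥ v)) := by ring
    rw [this, hvv]; field_simp; ring
  have hAz : Aop κ v (y + (κ / al κ v * c) • v) = y := by
    rw [Aop, hvz, add_sub_assoc, ← sub_smul]
    have : κ / al κ v * c - κ * (c / al κ v) = 0 := by ring
    rw [this, zero_smul, add_zero]
  have hHy : H *ᵥ y = X + ξ • v - y := by
    have e1 := h.psd.res_eq X
    have e2 := h.psd.res_eq v
    rw [hy, mulVec_add, mulVec_smul, eq_sub_of_add_eq' e1, eq_sub_of_add_eq' e2, smul_sub]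
    abel
  apply (h.psd.upd κ h.w0 v).res_uniq
  rw [upd_mulVec, hAz, hvz, hHy]
  have hθ := h.xi_eq X θ
  rw [← hξ, ← hc] at hθ
  ext i
  simp only [Aop, Pi.add_apply, Pi.sub_apply, Pi.smul_apply, smul_eq_mul, dotProduct_sub,
    dotProduct_add, dotProduct_smul, hvy]
  rw [hθ]
  have e3 : κ * (v ⬝ᵥ X + ξ * (v ⬝ᵥ v) - c) = κ * (v ⬝ᵥ X) + ξ * (1 - al κ v) - κ * c := by
    rw [← hvv]; ring
  rw [e3]
  unfold kw
  field_simp
  ring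

theorem dot_old (r X : Fin d → ℝ) (θ : ℝ) :
    Aop κ v r ⬝ᵥ Res (upd κ w v H) *ᵥ (Aop κ v X + θ • v) =
      r ⬝ᵥ Res H *ᵥ X + xi κ w v H X θ * (r ⬝ᵥ Res H *ᵥ v) := by
  have ha := h.al_pos.ne'
  have hvv : κ * (v ⬝ᵥ v) = 1 - al κ v := by unfold al; ring
  rw [h.step]
  simp only [Aop, dotProduct_add, sub_dotProduct, dotProduct_smul, smul_dotProduct, smul_eq_mul]
  rw [dotProduct_comm r v]
  have : κ * (v ⬝ᵥ r) * (v ⬝ᵥ v) = (1 - al κ v) * (v ⬝ᵥ r) := by rw [← hvv]; ring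
  rw [mul_sub, mul_assoc κ (v ⬝ᵥ r) (v ⬝ᵥ v), ← mul_assoc κ, this]
  field_simp
  ring

theorem dot_new (X : Fin d → ℝ) (θ : ℝ) :
    v ⬝ᵥ Res (upd κ w v H) *ᵥ (Aop κ v X + θ • v) =
      (θ - al κ v * xi κ w v H X θ) / kw κ w v := by
  have ha := h.al_pos.ne'
  have hk := h.kw_pos.ne'
  have hvv : κ * (v ⬝ᵥ v) = 1 - al κ v := by unfold al; ring
  have hθ := h.xi_eq X θ
  rw [h.step]
  simp only [dotProduct_add, dotProduct_smul, smul_eq_mul]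
  set c := v ⬝ᵥ Res H *ᵥ X + xi κ w v H X θ * (v ⬝ᵥ Res H *ᵥ v)
  have : κ / al κ v * c * (v ⬝ᵥ v) = c / al κ v * (1 - al κ v) := by rw [← hvv]; ring
  rw [this, eq_div_iff hk, sub_eq_iff_eq_add'.2 hθ]
  field_simp
  ring

/-- Energy identity. -/
theorem energy (X : Fin d → ℝ) (θ : ℝ) :
    (Aop κ v X + θ • v) ⬝ᵥ Res (upd κ w v H) *ᵥ (Aop κ v X + θ • v) =
      X ⬝ᵥ Res H *ᵥ X + θ ^ 2 / kw κ w v -
        den κ w v H / gam κ w v * xi κ w v H X θ ^ 2 := by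
  have ha := h.al_pos.ne'
  have hk := h.kw_pos.ne'
  have hθ := h.xi_eq X θ
  rw [add_dotProduct, h.dot_old, smul_dotProduct, h.dot_new, h.psd.res_sym X v, smul_eq_mul]
  unfold den gam
  set ξ := xi κ w v H X θ
  set y := v ⬝ᵥ Res H *ᵥ X
  set u := v ⬝ᵥ Res H *ᵥ v
  have hy : y = (θ - al κ v * ξ) * al κ v / kw κ w v - ξ * u := by
    rw [sub_eq_iff_eq_add'.2 hθ]; field_simp; ring
  rw [hy]
  field_simp
  ring

end StepHyp

end Crest.Agent.R239
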