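import Crest.Agent.R239.Step

/-! Trace update and one-step inequalities. -/

open Finset Matrix

namespace Crest.Agent.R239

variable {d : ℕ}

/-- The form `x ⬝ ψ(H) x` with `ψ(h) = h / (1 + h)²`. -/
noncomputable def psi (H : Matrix (Fin d) (Fin d) ℝ) (x : Fin d → ℝ) : ℝ :=
  x ⬝ᵥ Res H *ᵥ x - Res H *ᵥ x ⬝ᵥ Res H *ᵥ x

theorem Psd.psi_nonneg {H : Matrix (Fin d) (Fin d) ℝ} (hH : Psd H) (x : Fin d → ℝ) :
    0 ≤ psi H x := sub_nonneg.2 (hH.res_sq_le x)

theorem psi_le (H : Matrix (Fin d) (Fin d) ℝ) (x : Fin d → ℝ) :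
    psi H x ≤ x ⬝ᵥ Res H *ᵥ x := sub_le_self _ (dot_self_nonneg _)

theorem Psd.psi_eq {H : Matrix (Fin d) (Fin d) ℝ} (hH : Psd H) (x : Fin d → ℝ) :
    psi H x = Res H *ᵥ x ⬝ᵥ H *ᵥ (Res H *ᵥ x) := by
  rw [psi, hH.res_form]; ring

namespace StepHyp

variable {κ w : ℝ} {v : Fin d → ℝ} {H : Matrix (Fin d) (Fin d) ℝ} (h : StepHyp κ w v H)
include h

theorem trace_step :
    (Res (upd κ w v H)).trace = (Res H).trace +
      (κ * (1 + al κ v) / al κ v ^ 2 * psi H v -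
        w / al κ v ^ 2 * (Res H *ᵥ v ⬝ᵥ Res H *ᵥ v)) / den κ w v H := by
  have ha := h.al_pos.ne'
  have hd := h.den_pos.ne'
  have hvv : κ * (v ⬝ᵥ v) = 1 - al κ v := by unfold al; ring
  set u := v ⬝ᵥ Res H *ᵥ v with hu
  set z := Res H *ᵥ v with hz
  set β := κ / al κ v with hβ
  have key : ∀ a : Fin d, Res (upd κ w v H) a a =
      Res H a a + 2 * β * (v a * z a) + β ^ 2 * u * (v a * v a) -
        gam κ w v / den κ w v H * (z a * z a + 2 * β * u * (v a * z a) +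
          β ^ 2 * u ^ 2 * (v a * v a)) := by
    intro a
    set e : Fin d → ℝ := Pi.single a 1 with he
    have hve : v ⬝ᵥ e = v a := by simp [he]
    have hA : Aop κ v (e + (β * v a) • v) = e := by
      rw [Aop, dotProduct_add, dotProduct_smul, smul_eq_mul, hve, add_sub_assoc, ← sub_smul]
      have : β * v a - κ * (v a + β * v a * (v ⬝ᵥ v)) = 0 := by
        have : κ * (β * v a * (v ⬝ᵥ v)) = β * v a * (1 - al κ v) := by rw [← hvv]; ring
        rw [mul_add, this, hβ]; field_simp; ring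
      rw [this, zero_smul, add_zero]
    have h1 := h.dot_old (e + (β * v a) • v) (e + (β * v a) • v) 0
    rw [hA, zero_smul, add_zero] at h1
    have h2 : e ⬝ᵥ Res (upd κ w v H) *ᵥ e = Res (upd κ w v H) a a := by simp [he]
    have h3 : e ⬝ᵥ Res H *ᵥ e = Res H a a := by simp [he]
    have h4 : e ⬝ᵥ z = z a := by simp [he]
    have h5 : v ⬝ᵥ Res H *ᵥ e = z a := by rw [h.psd.res_sym, ← hz, h4]
    rw [← h2, h1, xi]
    simp only [mulVec_add, mulVec_smul, dotProduct_add, add_dotProduct, dotProduct_smul,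
      smul_dotProduct, smul_eq_mul, h3, h5, ← hz, h4, ← hu]
    field_simp
    ring
  have hsum : (Res (upd κ w v H)).trace = (Res H).trace + 2 * β * u + β ^ 2 * u * (v ⬝ᵥ v) -
      gam κ w v / den κ w v H * (z ⬝ᵥ z + 2 * β * u * u + β ^ 2 * u ^ 2 * (v ⬝ᵥ v)) := by
    simp only [trace, Matrix.diag, key, Finset.sum_sub_distrib, Finset.sum_add_distrib,
      ← Finset.mul_sum]
    rfl
  have e1 : β ^ 2 * (v ⬝ᵥ v) = β * (1 - al κ v) / al κ v := by
    rw [← hvv, hβ]; field_simp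
  have e2 : β ^ 2 * u * (v ⬝ᵥ v) = β * (1 - al κ v) / al κ v * u := by rw [← e1]; ring
  have e3 : β ^ 2 * u ^ 2 * (v ⬝ᵥ v) = β * (1 - al κ v) / al κ v * u ^ 2 := by rw [← e1]; ring
  have hden : den κ w v H = 1 + gam κ w v * u := rfl
  have hg : gam κ w v = κ * (1 + al κ v) / al κ v ^ 2 + w / al κ v ^ 2 := by
    rw [gam, kw, add_div]
  have hK : 2 * β + β * (1 - al κ v) / al κ v = κ * (1 + al κ v) / al κ v ^ 2 := by
    rw [hβ]; field_simp; ring
  have e4 : (Res (upd κ w v H)).trace = (Res H).trace + (2 * β + β * (1 - al κ v) / al κ v) * u -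
      gam κ w v / den κ w v H * (z ⬝ᵥ z + (2 * β + β * (1 - al κ v) / al κ v) * u ^ 2) := by
    rw [hsum, e2, e3]; ring
  rw [e4, hK, psi, ← hz, ← hu]
  rw [hden, hg] at hd
  rw [hden, hg]
  generalize κ * (1 + al κ v) / al κ v ^ 2 = K at hd ⊢
  generalize w / al κ v ^ 2 = W at hd ⊢
  have hD : (1 + (K + W) * u) * (1 + (K + W) * u)⁻¹ = 1 := mul_inv_cancel₀ hd
  simp only [div_eq_mul_inv]
  generalize (1 + (K + W) * u)⁻¹ = I at hD ⊢
  linear_combination (-K * u) * hD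

theorem al_sq_ge : 3 / 4 ≤ al κ v ^ 2 := by
  have := h.al_ge; nlinarith

theorem gam_le (hw : w ≤ κ) : gam κ w v ≤ 4 * κ := by
  have := h.kw_le; have := h.al_sq_ge; have := h.κ0
  rw [gam, div_le_iff₀ (pow_pos h.al_pos 2)]; nlinarith

theorem den_le (hw : w ≤ κ) : den κ w v H ≤ 3 / 2 := by
  have h1 := h.gam_le hw
  have h2 := (h.psd.res_le v).trans h.v1
  have h3 := h.psd.res_pos v
  have h4 := h.κ1
  have h5 := h.gam_pos
  unfold den; nlinarith

theorem psi_le_one : psi H v ≤ 1 := (psi_le H v).trans ((h.psd.res_le v).trans h.v1)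

/-- Drop and rise of the trace potential. -/
theorem drop_rise {β : ℝ} (hβ : 2 * w ≤ β) : ∃ D R : ℝ,
    (Res (upd κ w v H)).trace - (Res H).trace = D - R ∧ 0 ≤ D ∧ D ≤ psi H v ∧ 0 ≤ R ∧
      R ≤ min 1 β ∧ (w ≤ κ → κ * psi H v ≤ 2 * D) := by
  have ha2 := pow_pos h.al_pos 2
  have hd := h.den_pos
  have hp := h.psd.psi_nonneg v
  have hz := dot_self_nonneg (Res H *ᵥ v)
  have hz1 := h.psd.res_sq_le v
  have hu1 := (h.psd.res_le v).trans h.v1
  have hk0 : κ ≤ κ * (1 + al κ v) / al κ v ^ 2 := by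
    have := h.al_le; have := h.al_pos; have := h.κ0
    rw [le_div_iff₀ ha2]
    exact mul_le_mul_of_nonneg_left (by nlinarith) this.le
  have hk1 : κ * (1 + al κ v) / al κ v ^ 2 ≤ 1 := by
    have := h.al_le; have := h.al_sq_ge; have := h.κ0; have := h.κ1
    rw [div_le_iff₀ ha2]; nlinarith
  have hw0 : 0 ≤ w / al κ v ^ 2 := div_nonneg h.w0 ha2.le
  have hw1 : w / al κ v ^ 2 ≤ gam κ w v := by
    have := h.kw_ge; have := h.κ0
    exact div_le_div_of_nonneg_right (by linarith) ha2.le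
  have hw2 : w / al κ v ^ 2 ≤ β := by
    have := h.al_sq_ge; have := h.w0
    rw [div_le_iff₀ ha2]; nlinarith
  have hκ := h.κ0
  refine ⟨κ * (1 + al κ v) / al κ v ^ 2 * psi H v / den κ w v H,
    w / al κ v ^ 2 * (Res H *ᵥ v ⬝ᵥ Res H *ᵥ v) / den κ w v H, ?_, ?_, ?_, ?_, ?_, ?_⟩
  · rw [h.trace_step]; ring
  · exact div_nonneg (mul_nonneg (by linarith) hp) hd.le
  · rw [div_le_iff₀ hd]; have := h.den_ge; nlinarith
  · exact div_nonneg (mul_nonneg hw0 hz) hd.le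
  · rw [div_le_iff₀ hd]
    rcases le_total 1 β with h1 | h1
    · rw [min_eq_left h1, one_mul]
      have := mul_le_mul hw1 hz1 hz h.gam_pos.le
      unfold den; linarith
    · rw [min_eq_right h1]
      have h2 := mul_le_mul hw2 (hz1.trans hu1) hz (hw0.trans hw2)
      have := h.den_ge
      nlinarith [hw0.trans hw2]
  · intro hw
    have h1 := h.den_le hw
    rw [← mul_div_assoc, le_div_iff₀ hd]
    have h2 := mul_le_mul_of_nonneg_right hk0 hp
    have h3 := mul_nonneg hκ.le hp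
    nlinarith

theorem abs_trace_le {β : ℝ} (hβ : 2 * w ≤ β) :
    |(Res (upd κ w v H)).trace - (Res H).trace| ≤ psi H v + min 1 β := by
  obtain ⟨D, R, h1, h2, h3, h4, h5, -⟩ := h.drop_rise hβ
  rw [h1, abs_le]; constructor <;> linarith

theorem act_le {β : ℝ} (hβ : 2 * w ≤ β) (hc : w ≤ κ ∨ 1 ≤ β) :
    κ * (psi H v + min 1 β) ≤
      2 * ((Res (upd κ w v H)).trace - (Res H).trace) + 4 * min 1 β := by
  obtain ⟨D, R, h1, h2, h3, h4, h5, h6⟩ := h.drop_rise hβ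
  have hκ := h.κ0; have hκ1 := h.κ1
  rw [h1]
  rcases hc with hc | hc
  · have := h6 hc
    nlinarith
  · rw [min_eq_left hc] at h5 ⊢
    have := h.psi_le_one
    nlinarith

theorem energy_le (X : Fin d → ℝ) (θ : ℝ) :
    (Aop κ v X + θ • v) ⬝ᵥ Res (upd κ w v H) *ᵥ (Aop κ v X + θ • v) ≤
      X ⬝ᵥ Res H *ᵥ X + θ ^ 2 / κ - (if w ≤ κ then xi κ w v H X θ ^ 2 / (4 * κ) else 0) := by
  rw [h.energy]
  have h1 : θ ^ 2 / kw κ w v ≤ θ ^ 2 / κ :=
    div_le_div_of_nonneg_left (sq_nonneg _) h.κ0 (by have := h.kw_ge; have := h.w0; linarith)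
  have h2 : (if w ≤ κ then xi κ w v H X θ ^ 2 / (4 * κ) else 0) ≤
      den κ w v H / gam κ w v * xi κ w v H X θ ^ 2 := by
    split_ifs with hw
    · rw [div_eq_inv_mul]
      refine mul_le_mul_of_nonneg_right ?_ (sq_nonneg _)
      rw [inv_eq_one_div]
      exact div_le_div₀ h.den_pos.le h.den_ge h.gam_pos (h.gam_le hw)
    · exact mul_nonneg (div_nonneg h.den_pos.le h.gam_pos.le) (sq_nonneg _)
  linarith

end StepHyp

end Crest.Agent.R239
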