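import Crest.Agent.R239.Ctx
import Crest.Agent.R239.Enf

/-! Innovations, energy and the vector `Z`. -/

open Finset Matrix

namespace Crest.Agent.R239

theorem Psd.isEucl {d : ℕ} {ι : Type} [Fintype ι] [DecidableEq ι]
    {U : Matrix (Fin d) (Fin d) ℝ} (hU : Psd U) (T : (ι → ℝ) →ₗ[ℝ] (Fin d → ℝ)) :
    IsEucl (fun θ => √(T θ ⬝ᵥ U *ᵥ T θ)) := by
  obtain ⟨u, g, hp, he, h1⟩ := hU.exists_spec
  have hg : ∀ a, 0 ≤ g a := fun a => by
    have := hU.pos (u a)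
    rwa [he, dotProduct_smul, h1, smul_eq_mul, mul_one] at this
  let S : (Fin d → ℝ) →ₗ[ℝ] EuclideanSpace ℝ (Fin d) :=
    { toFun := fun x => WithLp.toLp 2 fun a => √(g a) * (u a ⬝ᵥ x)
      map_add' := fun x y => by ext a; simp [mul_add]
      map_smul' := fun r x => by ext a; simp; ring }
  have hS : ∀ x, √(x ⬝ᵥ U *ᵥ x) = ‖S x‖ := fun x => by
    rw [EuclideanSpace.norm_eq, hp]
    congr 1
    refine Finset.sum_congr rfl fun a _ => ?_
    rw [hU.sym, he, dotProduct_smul, smul_eq_mul, Real.norm_eq_abs, sq_abs]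
    show _ = (√(g a) * (u a ⬝ᵥ x)) ^ 2
    rw [mul_pow, Real.sq_sqrt (hg a), dotProduct_comm x]; ring
  simp only [hS]
  exact isEucl_norm (S ∘ₗ T)

namespace Ctx

variable {d : ℕ} (c : Ctx d) (n : ℕ)

/-- State. -/
noncomputable def X (t : ℕ) : (Fin n → ℝ) →ₗ[ℝ] (Fin d → ℝ) := XL n c.κ c.v t

/-- Innovation at level `l` (zero at expensive steps). -/
noncomputable def ξ (l s : ℕ) : (Fin n → ℝ) →ₗ[ℝ] ℝ where
  toFun θ := if l < c.k s then xi c.κ (c.w l s) (c.v s) (c.H l s) (c.X n s θ) (extL n s θ) else 0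
  map_add' x y := by
    split_ifs
    · simp only [xi, map_add, mulVec_add, dotProduct_add]; ring
    · simp
  map_smul' r x := by
    split_ifs
    · simp only [xi, map_smul, mulVec_smul, dotProduct_smul, smul_eq_mul, RingHom.id_apply]; ring
    · simp

theorem ξ_apply {l s : ℕ} (h : l < c.k s) (θ : Fin n → ℝ) :
    c.ξ n l s θ = xi c.κ (c.w l s) (c.v s) (c.H l s) (c.X n s θ) (extL n s θ) := if_pos h

/-- Energy. -/
noncomputable def En (l t : ℕ) (θ : Fin n → ℝ) : ℝ := c.X n t θ ⬝ᵥ Res (c.H l t) *ᵥ c.X n t θ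

theorem En_succ (l s : ℕ) (θ : Fin n → ℝ) :
    c.En n l (s + 1) θ ≤ c.En n l s θ + extL n s θ ^ 2 / c.κ - c.ξ n l s θ ^ 2 / (4 * c.κ) := by
  have h := (c.hyp l s).energy_le (c.X n s θ) (extL n s θ)
  rw [← c.H_succ] at h
  refine le_trans h (sub_le_sub_left ?_ _)
  by_cases hl : l < c.k s
  · rw [if_pos (c.w_le hl.le), c.ξ_apply n hl]
  · have : c.ξ n l s θ = 0 := if_neg hl
    rw [this]
    have := c.κ0
    split_ifs
    · simp only [ne_eq, OfNat.ofNat_ne_zero, not_false_eq_true, zero_pow, zero_div]; positivity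
    · simp

theorem bessel (l : ℕ) (θ : Fin n → ℝ) :
    ∑ s ∈ range n, c.ξ n l s θ ^ 2 ≤ 4 * ∑ i, θ i ^ 2 := by
  have hκ := c.κ0
  have key : ∀ t, c.En n l t θ + (∑ s ∈ range t, c.ξ n l s θ ^ 2) / (4 * c.κ) ≤
      (∑ s ∈ range t, extL n s θ ^ 2) / c.κ := by
    intro t
    induction t with
    | zero => simp [En, X, XL]
    | succ t ih =>
      rw [Finset.sum_range_succ, Finset.sum_range_succ, add_div, add_div]
      have := c.En_succ n l t θ
      linarith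
  have h := key n
  have h0 : 0 ≤ c.En n l n θ := (c.hyp l n).psd.res_pos _
  rw [sum_extL_sq] at h
  have h1 : (∑ s ∈ range n, c.ξ n l s θ ^ 2) / (4 * c.κ) ≤ (∑ i, θ i ^ 2) / c.κ := by linarith
  rw [div_le_div_iff₀ (by positivity) hκ] at h1
  nlinarith

theorem En_mono (l : ℕ) {a t : ℕ} (hat : a ≤ t) (θ : Fin n → ℝ)
    (h : ∀ s ∈ Ico a t, extL n s θ = 0) : c.En n l t θ ≤ c.En n l a θ := by
  induction t, hat using Nat.le_induction with
  | base => exact le_rfl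
  | succ t hat ih =>
    have h1 := c.En_succ n l t θ
    rw [h t (mem_Ico.2 ⟨hat, Nat.lt_succ_self t⟩)] at h1
    have h2 := ih fun s hs => h s (Ico_subset_Ico_right (Nat.le_succ t) hs)
    have h3 : 0 ≤ c.ξ n l t θ ^ 2 / (4 * c.κ) := by have := c.κ0; positivity
    simp at h1
    linarith

/-- Square roots of the level weights of the columns. -/
noncomputable def sw (l : ℕ) (j : Fin n ⊕ Fin d) : ℝ :=
  √(32 ^ l * cw n d ((1 / 32) ^ c.L) c.ω j)

theorem sw_sq (l : ℕ) (j : Fin n ⊕ Fin d) :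
    c.sw n l j ^ 2 = 32 ^ l * cw n d ((1 / 32) ^ c.L) c.ω j := by
  refine Real.sq_sqrt (mul_nonneg (by positivity) ?_)
  rcases j with i | a
  · exact (c.ω_pos i).le
  · show (0 : ℝ) ≤ (1 / 32) ^ c.L
    positivity

/-- Coordinates of `U x` along the columns. -/
noncomputable def Zv (l t : ℕ) : (Fin d → ℝ) →ₗ[ℝ] EuclideanSpace ℝ (Fin n ⊕ Fin d) where
  toFun x := WithLp.toLp 2 fun j => c.sw n l j * (col n c.κ c.v t j ⬝ᵥ Res (c.H l t) *ᵥ x)
  map_add' x y := by ext j; simp [mulVec_add, mul_add]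
  map_smul' r x := by ext j; simp [mulVec_smul]; ring

/-- The unit vector of the new column. -/
noncomputable def nv (l s : ℕ) : EuclideanSpace ℝ (Fin n ⊕ Fin d) :=
  WithLp.toLp 2 fun j => c.sw n l j * ind n d s j

theorem Zv_norm_sq (l : ℕ) {t : ℕ} (ht : t ≤ n) (x : Fin d → ℝ) :
    ‖c.Zv n l t x‖ ^ 2 = psi (c.H l t) x := by
  rw [(c.hyp l t).psd.psi_eq, EuclideanSpace.real_norm_sq_eq]
  conv_rhs => rw [H, Hl, smul_mulVec, dotProduct_smul, G, dot_Gm _ _ _ _ ht, smul_eq_mul,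
    Finset.mul_sum]
  refine Finset.sum_congr rfl fun j _ => ?_
  show (c.sw n l j * _) ^ 2 = _
  rw [mul_pow, sw_sq, mul_assoc]; rfl

theorem nv_norm_sq (l : ℕ) {s : ℕ} (hs : s < n) : ‖c.nv n l s‖ ^ 2 = c.w l s := by
  rw [EuclideanSpace.real_norm_sq_eq, w, ← sum_ind (d := d) ((1 / 32) ^ c.L) c.ω hs,
    Finset.mul_sum]
  refine Finset.sum_congr rfl fun j _ => ?_
  show (c.sw n l j * _) ^ 2 = _
  rw [mul_pow, sw_sq, mul_assoc]

/-- Direction of the innovation. -/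
noncomputable def q (l s : ℕ) : EuclideanSpace ℝ (Fin n ⊕ Fin d) :=
  c.Zv n l s (c.v s) - (al c.κ (c.v s) / kw c.κ (c.w l s) (c.v s)) • c.nv n l s

theorem Z_succ {l s : ℕ} (h : l < c.k s) (θ : Fin n → ℝ) :
    c.Zv n l (s + 1) (c.X n (s + 1) θ) = c.Zv n l s (c.X n s θ) + c.ξ n l s θ • c.q n l s +
      (extL n s θ / kw c.κ (c.w l s) (c.v s)) • c.nv n l s := by
  ext j
  have h1 := (c.hyp l s).dot_old (col n c.κ c.v s j) (c.X n s θ) (extL n s θ)
  have h2 := (c.hyp l s).dot_new (c.X n s θ) (extL n s θ)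
  rw [← c.H_succ, ← c.ξ_apply n h] at h1 h2
  show c.sw n l j * (col n c.κ c.v (s + 1) j ⬝ᵥ Res (c.H l (s + 1)) *ᵥ
      (Aop c.κ (c.v s) (c.X n s θ) + extL n s θ • c.v s)) =
    c.sw n l j * (col n c.κ c.v s j ⬝ᵥ Res (c.H l s) *ᵥ c.X n s θ) +
      c.ξ n l s θ * (c.sw n l j * (col n c.κ c.v s j ⬝ᵥ Res (c.H l s) *ᵥ c.v s) -
        (al c.κ (c.v s) / kw c.κ (c.w l s) (c.v s)) * (c.sw n l j * ind n d s j)) +
      (extL n s θ / kw c.κ (c.w l s) (c.v s)) * (c.sw n l j * ind n d s j)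
  rw [col_succ, add_dotProduct, smul_dotProduct, h1, h2, smul_eq_mul]
  ring

theorem nv_le {l s : ℕ} (hs : s < n) (h : l < c.k s) {r : ℝ} (hr : 0 ≤ r) {x : ℝ}
    (hx : |x| ≤ r) :
    ‖(x / kw c.κ (c.w l s) (c.v s)) • c.nv n l s‖ ≤ r / c.κ * (1 / 4) ^ (c.k s - l) := by
  have hκ := c.κ0
  have hk := (c.hyp l s).kw_pos
  rw [norm_smul, Real.norm_eq_abs, abs_div, abs_of_pos hk]
  refine mul_le_mul (div_le_div₀ hr hx hκ ?_) ?_ (norm_nonneg _) (by positivity)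
  · have := (c.hyp l s).kw_ge; have := (c.hyp l s).w0; linarith
  · refine (pow_le_pow_iff_left₀ (norm_nonneg _) (by positivity) two_ne_zero).1 ?_
    rw [c.nv_norm_sq n l hs, w_eq, pow_mul_eq h.le, ← pow_mul, mul_comm _ 2, pow_mul]
    have h1 : (1 / 32 : ℝ) ^ (c.k s - l) ≤ ((1 / 4) ^ 2) ^ (c.k s - l) :=
      pow_le_pow_left₀ (by norm_num) (by norm_num) _
    have h2 : (0 : ℝ) < (1 / 32) ^ (c.k s - l) := by positivity
    have := c.κ1
    nlinarith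

theorem q_norm_sq {l s : ℕ} (hs : s < n) (h : l < c.k s) :
    ‖c.q n l s‖ ^ 2 ≤ 2 * psi (c.H l s) (c.v s) + 2 * (wt l (c.k s) / c.κ) ^ 2 := by
  have h1 := c.nv_le n hs h zero_le_one (x := al c.κ (c.v s))
    (by rw [abs_of_pos (c.hyp l s).al_pos]; exact (c.hyp l s).al_le)
  have h2 : wt l (c.k s) / c.κ = 1 / c.κ * (1 / 4) ^ (c.k s - l) := by
    unfold wt
    rw [show Nat.dist l (c.k s) = c.k s - l by unfold Nat.dist; omega]; ring
  rw [← h2] at h1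
  have h3 := norm_sub_le (c.Zv n l s (c.v s))
    ((al c.κ (c.v s) / kw c.κ (c.w l s) (c.v s)) • c.nv n l s)
  rw [← c.Zv_norm_sq n l hs.le]
  have h4 : ‖c.q n l s‖ ≤ ‖c.Zv n l s (c.v s)‖ + wt l (c.k s) / c.κ := h3.trans (by linarith)
  have h5 := pow_le_pow_left₀ (norm_nonneg _) h4 2
  nlinarith [sq_nonneg (‖c.Zv n l s (c.v s)‖ - wt l (c.k s) / c.κ)]

theorem Z_sum (l : ℕ) {a t : ℕ} (hat : a ≤ t) (h : ∀ s ∈ Ico a t, l < c.k s) (θ : Fin n → ℝ) :
    c.Zv n l t (c.X n t θ) = c.Zv n l a (c.X n a θ) + ∑ s ∈ Ico a t, c.ξ n l s θ • c.q n l s +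
      ∑ s ∈ Ico a t, (extL n s θ / kw c.κ (c.w l s) (c.v s)) • c.nv n l s := by
  induction t, hat using Nat.le_induction with
  | base => simp
  | succ t hat ih =>
    rw [c.Z_succ n (h t (mem_Ico.2 ⟨hat, Nat.lt_succ_self t⟩)),
      ih fun s hs => h s (Ico_subset_Ico_right (Nat.le_succ t) hs),
      Finset.sum_Ico_succ_top hat, Finset.sum_Ico_succ_top hat]
    abel

end Ctx

end Crest.Agent.R239
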